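import Crest.Agent.R344.Targets

/-!
R344: from `GOAL` to the hypothesis of the reduction.
-/

set_option autoImplicit false

open Filter

namespace Crest.Agent.R344

/-- The hypothesis of the reduction [RED]. -/
def REDHYP : Prop :=
  ∀ (d c : ℕ) (ε : ℝ), 0 < ε → ∃ n₀ : ℕ, ∀ n ≥ n₀, ∀ N : ℕ, n ≤ N → N ≤ n ^ c →
    ∀ C : Op N, Circ d C → ∀ (F J : Finset (Fin N)) (Y : Op N), Supp J Y → J.card ≤ 1 → ‖Y‖ ≤ 1 →
      ‖gtI F (n - 1) * (C * Y * star C) * leI F 0‖ < 2 * ε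

theorem redhyp_of_goal (h : GOAL) : REDHYP := by
  intro d c ε hε
  obtain ⟨L, hL1, hL⟩ : ∃ L : ℝ, 1 ≤ L ∧ Real.exp (-L) < 2 * ε := by
    refine ⟨max 1 (-Real.log ε), le_max_left _ _, ?_⟩
    have h1 : Real.exp (-(max 1 (-Real.log ε))) ≤ Real.exp (Real.log ε) := by
      apply Real.exp_le_exp.mpr
      have := le_max_right 1 (-Real.log ε)
      linarith
    rw [Real.exp_log hε] at h1
    linarith
  set δ : ℝ := 1 / (2 * (c + 1)) with hδ
  have hδpos : 0 < δ := by positivity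
  obtain ⟨N1, hN1⟩ := h d δ hδpos
  obtain ⟨n2, hn21, hn2⟩ := eventually_rpow_ge (1 / 2) (2 * (1 + L)) (by norm_num)
  refine ⟨max (max N1 n2) 2, fun n hn N hnN hNn C hC F J Y hY hJ hY1 => ?_⟩
  simp only [ge_iff_le, max_le_iff] at hn
  obtain ⟨⟨hn1, hn2'⟩, hn3⟩ := hn
  refine lt_of_le_of_lt ?_ hL
  refine hN1 N (le_trans hn1 hnN) C hC F J Y hY hY1 0 (n - 1) L hL1 ?_
  have hnpos : (2 : ℝ) ≤ n := by exact_mod_cast hn3
  have hcast : ((n - 1 : ℕ) : ℝ) = (n : ℝ) - 1 := by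
    rw [Nat.cast_sub (by omega)]; norm_num
  rw [hcast]
  have h1 : (N : ℝ) ^ δ ≤ (n : ℝ) ^ (1 / 2 : ℝ) := by
    calc (N : ℝ) ^ δ ≤ ((n : ℝ) ^ c) ^ δ := by
          apply Real.rpow_le_rpow (by positivity) _ hδpos.le
          exact_mod_cast hNn
      _ = (n : ℝ) ^ (c * δ) := by
          rw [← Real.rpow_natCast, ← Real.rpow_mul (by positivity)]
      _ ≤ (n : ℝ) ^ (1 / 2 : ℝ) := by
          apply Real.rpow_le_rpow_of_exponent_le (by linarith)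
          rw [hδ, mul_one_div, div_le_div_iff₀ (by positivity) (by norm_num)]
          nlinarith [(Nat.cast_nonneg c : (0 : ℝ) ≤ c)]
  have h2 := hn2 n hn2'
  have h3 : (n : ℝ) ^ (1 / 2 : ℝ) * (n : ℝ) ^ (1 / 2 : ℝ) = n := by
    rw [← Real.rpow_add (by linarith)]
    norm_num
  have hJ' : (J.card : ℝ) ≤ 1 := by exact_mod_cast hJ
  have h4 : (0 : ℝ) ≤ (n : ℝ) ^ (1 / 2 : ℝ) := by positivity
  calc (N : ℝ) ^ δ * (((0 : ℕ) : ℝ) + (J.card : ℝ) + L)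
      ≤ (n : ℝ) ^ (1 / 2 : ℝ) * (1 + L) := by
        apply mul_le_mul h1 _ (by positivity) h4
        push_cast
        linarith
    _ ≤ (n : ℝ) ^ (1 / 2 : ℝ) * ((n : ℝ) ^ (1 / 2 : ℝ) / 2) := by
        apply mul_le_mul_of_nonneg_left _ h4
        linarith
    _ = n / 2 := by rw [mul_div_assoc', h3]
    _ ≤ (n : ℝ) - 1 := by linarith

end Crest.Agent.R344
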