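import Crest.Agent.R344.Targets

/-!
R344 [LO0] + [STEP]: `lo_zero` (product unitaries are exactly local) and `lo_step`
(`LO` for `C` and `LOC` for `C` give `LO` for `C * cz 𝒰 * u`).
-/

set_option autoImplicit false
open scoped BigOperators

namespace Crest.Agent.R344
namespace Step

variable {N : ℕ}

lemma op_mat_ext {A B : Op N} (h : ∀ σ τ, toMat A σ τ = toMat B σ τ) : A = B := by
  have h' : toMat A = toMat B := by
    ext σ τ; exact h σ τ
  rw [← ofMat_toMat A, h', ofMat_toMat]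

lemma toMat_mul (A B : Op N) : toMat (A * B) = toMat A * toMat B := by
  simp only [toMat, map_mul]

lemma toMat_dg (f : Bits N → ℂ) : toMat (dg f) = Matrix.diagonal f := by
  rw [dg, toMat_ofMat]

lemma toMat_dg_mul (f : Bits N → ℂ) (Y : Op N) (σ τ : Bits N) :
    toMat (dg f * Y) σ τ = f σ * toMat Y σ τ := by
  rw [toMat_mul, toMat_dg, Matrix.diagonal_mul]

lemma toMat_mul_dg (f : Bits N → ℂ) (Y : Op N) (σ τ : Bits N) :
    toMat (Y * dg f) σ τ = toMat Y σ τ * f τ := by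
  rw [toMat_mul, toMat_dg, Matrix.mul_diagonal]

lemma dg_cong {f g : Bits N → ℂ} (h : ∀ σ, f σ = g σ) : dg f = dg g := by
  have : f = g := funext h
  rw [this]

lemma cnt_zero_iff (V : Finset (Fin N)) (σ : Bits N) : cnt V σ = 0 ↔ ∀ i ∈ V, σ i = false := by
  simp [cnt, Finset.filter_eq_empty_iff]

lemma cnt_le_add {J F : Finset (Fin N)} {σ τ : Bits N} (h : ∀ v, v ∉ J → σ v = τ v) :
    cnt F σ ≤ cnt F τ + J.card := by
  unfold cnt
  calc (F.filter (fun w => σ w = true)).card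
      ≤ ((F.filter (fun w => τ w = true)) ∪ J).card := by
        apply Finset.card_le_card
        intro w hw
        rw [Finset.mem_filter] at hw
        rw [Finset.mem_union, Finset.mem_filter]
        by_cases hJ : w ∈ J
        · exact Or.inr hJ
        · exact Or.inl ⟨hw.1, by rw [← h w hJ]; exact hw.2⟩
    _ ≤ _ := Finset.card_union_le _ _

lemma gt_supp_le {J F : Finset (Fin N)} {Y : Op N} (h : Supp J Y) {m D : ℕ}
    (hD : m + J.card ≤ D) : gtI F D * Y * leI F m = 0 := by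
  have e0 : toMat (0 : Op N) = 0 := by simp [toMat]
  apply op_mat_ext
  intro σ τ
  rw [leI, toMat_mul_dg, gtI, toMat_dg_mul, e0, Matrix.zero_apply]
  by_cases h2 : ∀ v, v ∉ J → σ v = τ v
  · by_cases h3 : D < cnt F σ
    · by_cases h4 : cnt F τ ≤ m
      · exfalso
        have := cnt_le_add (F := F) h2
        omega
      · rw [if_neg h4]; simp
    · rw [if_neg h3]; simp
  · push Not at h2
    obtain ⟨v, hv, hne⟩ := h2
    rw [h.toMat_eq_zero hv hne]; simp

/-- (0): the local law for product unitaries is exact -/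
theorem lo_zero {C : Op N} (hC : Circ 0 C) : LO C 1 := by
  cases hC with
  | base u hu =>
    intro F J Y hY _ m D L hL hD
    rw [gt_supp_le (hu.conj J Y hY)]
    · rw [norm_zero]; positivity
    · have : ((m + J.card : ℕ) : ℝ) ≤ D := by push_cast; linarith
      exact_mod_cast this

lemma le_add_gt (F : Finset (Fin N)) (y : ℕ) : leI F y + gtI F y = 1 := by
  rw [add_comm]; exact gtI_add_leI F y

lemma comp_abs {R : Type*} [NormedRing R] (g2 g1 l1 l0 A B : R) (h : l1 + g1 = 1) {a b : ℝ}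
    (ng2 : ‖g2‖ ≤ 1) (nl0 : ‖l0‖ ≤ 1) (hA : ‖A‖ ≤ 1) (hB : ‖B‖ ≤ 1)
    (h1 : ‖g2 * A * l1‖ ≤ a) (h2 : ‖g1 * B * l0‖ ≤ b) :
    ‖g2 * (A * B) * l0‖ ≤ a + b := by
  have key : g2 * (A * B) * l0 = (g2 * A * l1) * (B * l0) + (g2 * A) * (g1 * B * l0) := by
    calc g2 * (A * B) * l0 = g2 * A * (l1 + g1) * (B * l0) := by
          rw [h]; simp only [mul_assoc, one_mul]
      _ = _ := by simp only [mul_add, add_mul, mul_assoc]
  rw [key]
  have a0 : 0 ≤ a := le_trans (norm_nonneg _) h1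
  have b0 : 0 ≤ b := le_trans (norm_nonneg _) h2
  have n1 : ‖B * l0‖ ≤ 1 :=
    le_trans (norm_mul_le _ _) (mul_le_one₀ hB (norm_nonneg _) nl0)
  have n2 : ‖g2 * A‖ ≤ 1 :=
    le_trans (norm_mul_le _ _) (mul_le_one₀ ng2 (norm_nonneg _) hA)
  have p1 : ‖(g2 * A * l1) * (B * l0)‖ ≤ a := by
    have := mul_le_mul h1 n1 (norm_nonneg _) a0
    rw [mul_one] at this
    exact le_trans (norm_mul_le _ _) this
  have p2 : ‖(g2 * A) * (g1 * B * l0)‖ ≤ b := by
    have := mul_le_mul n2 h2 (norm_nonneg _) zero_le_one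
    rw [one_mul] at this
    exact le_trans (norm_mul_le _ _) this
  exact le_trans (norm_add_le _ _) (add_le_add p1 p2)

/-- composition of two local operators -/
lemma comp2 (F : Finset (Fin N)) (A B : Op N) {m D₁ D₂ : ℕ} {a b : ℝ} (hA : ‖A‖ ≤ 1)
    (hB : ‖B‖ ≤ 1) (h1 : ‖gtI F D₂ * A * leI F D₁‖ ≤ a) (h2 : ‖gtI F D₁ * B * leI F m‖ ≤ b) :
    ‖gtI F D₂ * (A * B) * leI F m‖ ≤ a + b :=
  comp_abs (gtI F D₂) (gtI F D₁) (leI F D₁) (leI F m) A B (le_add_gt F D₁)
    (gtI_norm_le F D₂) (leI_norm_le F m) hA hB h1 h2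

/-! ### gate layers -/

/-- gates off the support of `Y` cancel -/
lemma conj_cz {J : Finset (Fin N)} {Y : Op N} (hY : Supp J Y)
    (𝒰 : Finset (Finset (Fin N))) :
    cz 𝒰 * Y * cz 𝒰
      = cz (𝒰.filter (fun U => ¬ Disjoint U J)) * Y
          * cz (𝒰.filter (fun U => ¬ Disjoint U J)) := by
  set W := 𝒰.filter (fun U => ¬ Disjoint U J) with hW
  set R := 𝒰.filter (fun U => Disjoint U J) with hR
  have hsplit : cz 𝒰 = cz W * cz R := by
    rw [cz, cz, cz, dg_mul]
    apply dg_cong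
    intro σ
    unfold czFun
    rw [mul_comm, hW, hR, Finset.prod_filter_mul_prod_filter_not]
  have hsplit' : cz 𝒰 = cz R * cz W := by
    rw [cz, cz, cz, dg_mul]
    apply dg_cong
    intro σ
    unfold czFun
    rw [hW, hR, Finset.prod_filter_mul_prod_filter_not]
  have hcomm : cz R * Y = Y * cz R := by
    apply hY.dg_commute
    intro σ τ hst
    unfold czFun
    apply Finset.prod_congr rfl
    intro U hU
    have hd : Disjoint U J := (Finset.mem_filter.1 hU).2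
    rw [Crest.Agent.R344.cnt_congr (fun w hw => hst w (Finset.disjoint_left.1 hd hw))]
  calc cz 𝒰 * Y * cz 𝒰
      = (cz W * cz R) * Y * (cz R * cz W) := by
        rw [← hsplit, ← hsplit']
    _ = cz W * (cz R * Y) * cz R * cz W := by simp only [mul_assoc]
    _ = cz W * Y * (cz R * cz R) * cz W := by
        rw [hcomm]; simp only [mul_assoc]
    _ = _ := by rw [cz_mul_self, mul_one]

/-- number of gates touching `J` -/
lemma card_touch_le {J : Finset (Fin N)} {𝒰 : Finset (Finset (Fin N))}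
    (hd : (𝒰 : Set (Finset (Fin N))).PairwiseDisjoint id) :
    (𝒰.filter (fun U => ¬ Disjoint U J)).card ≤ J.card := by
  classical
  set W := 𝒰.filter (fun U => ¬ Disjoint U J) with hW
  have h1 : (W.biUnion (fun U => U ∩ J)).card = ∑ U ∈ W, (U ∩ J).card := by
    apply Finset.card_biUnion
    intro U hU V hV hne
    have := hd (Finset.mem_coe.2 (Finset.mem_filter.1 hU).1)
      (Finset.mem_coe.2 (Finset.mem_filter.1 hV).1) hne
    exact Finset.disjoint_of_subset_left Finset.inter_subset_left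
      (Finset.disjoint_of_subset_right Finset.inter_subset_left this)
  have h2 : W.card ≤ ∑ U ∈ W, (U ∩ J).card := by
    rw [Finset.card_eq_sum_ones]
    apply Finset.sum_le_sum
    intro U hU
    have := (Finset.mem_filter.1 hU).2
    rw [Finset.disjoint_iff_inter_eq_empty] at this
    exact Finset.card_pos.2 (Finset.nonempty_iff_ne_empty.2 this)
  have h3 : (W.biUnion (fun U => U ∩ J)).card ≤ J.card := by
    apply Finset.card_le_card
    intro x hx
    obtain ⟨U, _, hx⟩ := Finset.mem_biUnion.1 hx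
    exact (Finset.mem_inter.1 hx).2
  omega

/-- expansion of the active gates -/
lemma cz_expand (W : Finset (Finset (Fin N))) :
    cz W = ∑ S ∈ W.powerset, ((-2 : ℂ) ^ S.card) • zeroI (S.biUnion id) := by
  classical
  rw [cz]
  simp only [zeroI, dg_smul]
  rw [dg_sum]
  apply dg_cong
  intro σ
  unfold czFun
  have h1 : ∀ U ∈ W, (if cnt U σ = 0 then (-1 : ℂ) else 1)
      = 1 + (-2) * (if cnt U σ = 0 then (1 : ℂ) else 0) := by
    intro U _
    split_ifs <;> norm_num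
  rw [Finset.prod_congr rfl h1, Finset.prod_one_add]
  apply Finset.sum_congr rfl
  intro S _
  rw [Finset.prod_mul_distrib, Finset.prod_const]
  congr 1
  rw [Finset.prod_ite_zero]
  simp only [Finset.prod_const_one]
  congr 1
  simp only [eq_iff_iff, cnt_zero_iff, Finset.mem_biUnion, id]
  constructor
  · rintro h i ⟨U, hU, hi⟩; exact h U hU i hi
  · intro h U hU i hi; exact h i ⟨U, hU, hi⟩

lemma sum_two_pow (W : Finset (Finset (Fin N))) :
    ∑ S ∈ W.powerset, (2 : ℝ) ^ S.card = 3 ^ W.card := by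
  classical
  have := Finset.sum_pow_mul_eq_add_pow (2 : ℝ) 1 W
  simp only [one_pow, mul_one] at this
  rw [this]; norm_num

lemma norm_le_one_of_unitary {U : Op N} (h : U ∈ unitary (Op N)) : ‖U‖ ≤ 1 := by
  have h1 : ‖U‖ * ‖U‖ = ‖star U * U‖ := (CStarRing.norm_star_mul_self (x := U)).symm
  rw [Unitary.star_mul_self_of_mem h] at h1
  have h2 : ‖(1 : Op N)‖ ≤ 1 := ContinuousLinearMap.norm_id_le
  nlinarith [norm_nonneg U]

lemma norm_conj_le {U Y : Op N} (h : U ∈ unitary (Op N)) (hY : ‖Y‖ ≤ 1) :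
    ‖U * Y * star U‖ ≤ 1 := by
  have h1 := norm_le_one_of_unitary h
  have h2 : ‖star U‖ ≤ 1 := norm_le_one_of_unitary (Unitary.star_mem h)
  have h3 : ‖U * Y‖ ≤ 1 := le_trans (norm_mul_le _ _) (mul_le_one₀ h1 (norm_nonneg _) hY)
  exact le_trans (norm_mul_le _ _) (mul_le_one₀ h3 (norm_nonneg _) h2)

/-- (1): one more layer -/
theorem lo_step {C u : Op N} (hCu : C ∈ unitary (Op N)) (hu : LU u)
    {𝒰 : Finset (Finset (Fin N))} (hd : (𝒰 : Set (Finset (Fin N))).PairwiseDisjoint id)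
    {κ₁ κ₂ : ℝ} (h1 : 1 ≤ κ₁) (h2 : 1 ≤ κ₂) (hLO : LO C κ₁) (hLOC : LOC C κ₂) :
    LO (C * cz 𝒰 * u) (12 * κ₁ * κ₂ ^ 2) := by
  classical
  intro F J Y hY hYn m D L hL hD
  set Y' := u * Y * star u with hY'
  have hsY' : Supp J Y' := hu.conj J Y hY
  have hnY' : ‖Y'‖ ≤ 1 := norm_conj_le hu.unitary hYn
  set W := 𝒰.filter (fun U => ¬ Disjoint U J) with hW
  have hWc : W.card ≤ J.card := card_touch_le hd
  have hCC : star C * C = 1 := Unitary.star_mul_self_of_mem hCu
  -- the conjugated operator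
  have e1 : (C * cz 𝒰 * u) * Y * star (C * cz 𝒰 * u)
      = ∑ S ∈ W.powerset, ∑ T ∈ W.powerset, ((-2 : ℂ) ^ S.card * (-2 : ℂ) ^ T.card) •
        ((C * zeroI (S.biUnion id) * star C) * ((C * Y' * star C)
          * (C * zeroI (T.biUnion id) * star C))) := by
    have e2 : (C * cz 𝒰 * u) * Y * star (C * cz 𝒰 * u)
        = C * (cz W * Y' * cz W) * star C := by
      rw [← conj_cz hsY' 𝒰, star_mul, star_mul, cz_star, hY']
      simp only [mul_assoc]
    have e3 : C * (cz W * Y' * cz W) * star C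
        = (C * cz W * star C) * ((C * Y' * star C) * (C * cz W * star C)) := by
      calc C * (cz W * Y' * cz W) * star C
          = C * cz W * 1 * Y' * 1 * cz W * star C := by simp only [mul_assoc, one_mul]
        _ = C * cz W * (star C * C) * Y' * (star C * C) * cz W * star C := by rw [hCC]
        _ = _ := by simp only [mul_assoc]
    have e4 : C * cz W * star C
        = ∑ S ∈ W.powerset, ((-2 : ℂ) ^ S.card) • (C * zeroI (S.biUnion id) * star C) := by
      conv_lhs => rw [cz_expand W]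
      rw [Finset.mul_sum, Finset.sum_mul]
      apply Finset.sum_congr rfl
      intro S _
      rw [mul_smul_comm, smul_mul_assoc]
    rw [e2, e3, e4, Finset.sum_mul]
    apply Finset.sum_congr rfl
    intro S _
    rw [Finset.mul_sum, Finset.mul_sum]
    apply Finset.sum_congr rfl
    intro T _
    rw [mul_smul_comm, mul_smul_comm, smul_mul_assoc, smul_smul, mul_comm ((-2 : ℂ) ^ T.card)]
  -- constants
  set M : ℝ := (J.card : ℝ) with hM
  have hM0 : 0 ≤ M := by positivity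
  have hm0 : (0 : ℝ) ≤ m := by positivity
  obtain ⟨L', hL'⟩ : ∃ L' : ℝ, L' = L + 3 * M + 2 := ⟨_, rfl⟩
  obtain ⟨S₀, hS₀⟩ : ∃ S₀ : ℝ, S₀ = m + M + L := ⟨_, rfl⟩
  have hS1 : 1 ≤ S₀ := by rw [hS₀]; linarith
  have hL'1 : 1 ≤ L' := by rw [hL']; linarith
  have b1 : (m : ℝ) + L' ≤ 3 * S₀ := by rw [hL', hS₀]; linarith
  have hk2S : 0 < κ₂ * S₀ := by positivity
  have hk2S' : S₀ ≤ κ₂ * S₀ := by nlinarith
  obtain ⟨m₁, hm₁⟩ : ∃ m₁ : ℕ, m₁ = ⌈κ₂ * (m + L')⌉₊ := ⟨_, rfl⟩
  have c1 : κ₂ * (m + L') ≤ m₁ := by rw [hm₁]; exact Nat.le_ceil _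
  have c1' : (m₁ : ℝ) ≤ 4 * (κ₂ * S₀) := by
    have h3 : (m₁ : ℝ) < κ₂ * (m + L') + 1 := by
      rw [hm₁]; exact Nat.ceil_lt_add_one (by positivity)
    have h4 : κ₂ * (m + L') ≤ κ₂ * (3 * S₀) := by gcongr
    nlinarith
  have b2 : (m₁ : ℝ) + M + L' ≤ 8 * (κ₂ * S₀) := by
    have : M + L' ≤ 4 * S₀ := by rw [hL', hS₀]; linarith
    linarith
  obtain ⟨m₂, hm₂⟩ : ∃ m₂ : ℕ, m₂ = ⌈κ₁ * (m₁ + M + L')⌉₊ := ⟨_, rfl⟩
  have c2 : κ₁ * (m₁ + M + L') ≤ m₂ := by rw [hm₂]; exact Nat.le_ceil _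
  have hk1 : κ₂ * S₀ ≤ κ₁ * (κ₂ * S₀) := by nlinarith
  have c2' : (m₂ : ℝ) ≤ 9 * (κ₁ * (κ₂ * S₀)) := by
    have h3 : (m₂ : ℝ) < κ₁ * (m₁ + M + L') + 1 := by
      rw [hm₂]; exact Nat.ceil_lt_add_one (by positivity)
    have h4 : κ₁ * (m₁ + M + L') ≤ κ₁ * (8 * (κ₂ * S₀)) := by gcongr
    nlinarith
  have b3 : (m₂ : ℝ) + L' ≤ 12 * (κ₁ * (κ₂ * S₀)) := by
    have : L' ≤ 3 * S₀ := by linarith
    linarith
  have c3 : κ₂ * (m₂ + L') ≤ D := by
    have h4 : κ₂ * (m₂ + L') ≤ κ₂ * (12 * (κ₁ * (κ₂ * S₀))) := by gcongr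
    have h5 : κ₂ * (12 * (κ₁ * (κ₂ * S₀))) = 12 * κ₁ * κ₂ ^ 2 * (m + M + L) := by
      rw [hS₀]; ring
    linarith
  -- single term bound
  have term : ∀ S T : Finset (Finset (Fin N)),
      ‖gtI F D * ((C * zeroI (S.biUnion id) * star C) * ((C * Y' * star C)
          * (C * zeroI (T.biUnion id) * star C))) * leI F m‖ ≤ 3 * Real.exp (-L') := by
    intro S T
    have t1 := hLOC F (T.biUnion id) m m₁ L' hL'1 c1
    have t2 := hLO F J Y' hsY' hnY' m₁ m₂ L' hL'1 c2
    have t3 := hLOC F (S.biUnion id) m₂ D L' hL'1 c3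
    have n1 : ‖C * zeroI (T.biUnion id) * star C‖ ≤ 1 := norm_conj_le hCu (zeroI_norm_le _)
    have n3 : ‖C * zeroI (S.biUnion id) * star C‖ ≤ 1 := norm_conj_le hCu (zeroI_norm_le _)
    have n2 : ‖C * Y' * star C‖ ≤ 1 := norm_conj_le hCu hnY'
    have u1 := comp2 F (C * Y' * star C) (C * zeroI (T.biUnion id) * star C) n2 n1 t2 t1
    have n4 : ‖(C * Y' * star C) * (C * zeroI (T.biUnion id) * star C)‖ ≤ 1 :=
      le_trans (norm_mul_le _ _) (mul_le_one₀ n2 (norm_nonneg _) n1)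
    have u2 := comp2 F (C * zeroI (S.biUnion id) * star C)
      ((C * Y' * star C) * (C * zeroI (T.biUnion id) * star C)) n3 n4 t3 u1
    linarith
  rw [e1]
  have e5 : gtI F D * (∑ S ∈ W.powerset, ∑ T ∈ W.powerset,
      ((-2 : ℂ) ^ S.card * (-2 : ℂ) ^ T.card) •
        ((C * zeroI (S.biUnion id) * star C) * ((C * Y' * star C)
          * (C * zeroI (T.biUnion id) * star C)))) * leI F m
      = ∑ S ∈ W.powerset, ∑ T ∈ W.powerset, ((-2 : ℂ) ^ S.card * (-2 : ℂ) ^ T.card) •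
        (gtI F D * ((C * zeroI (S.biUnion id) * star C) * ((C * Y' * star C)
          * (C * zeroI (T.biUnion id) * star C))) * leI F m) := by
    rw [Finset.mul_sum, Finset.sum_mul]
    apply Finset.sum_congr rfl
    intro S _
    rw [Finset.mul_sum, Finset.sum_mul]
    apply Finset.sum_congr rfl
    intro T _
    rw [mul_smul_comm, smul_mul_assoc]
  rw [e5]
  have bound : ‖∑ S ∈ W.powerset, ∑ T ∈ W.powerset, ((-2 : ℂ) ^ S.card * (-2 : ℂ) ^ T.card) •
        (gtI F D * ((C * zeroI (S.biUnion id) * star C) * ((C * Y' * star C)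
          * (C * zeroI (T.biUnion id) * star C))) * leI F m)‖
      ≤ ∑ S ∈ W.powerset, ∑ T ∈ W.powerset,
          ((2 : ℝ) ^ S.card * (2 : ℝ) ^ T.card) * (3 * Real.exp (-L')) := by
    refine le_trans (norm_sum_le _ _) (Finset.sum_le_sum fun S _ => ?_)
    refine le_trans (norm_sum_le _ _) (Finset.sum_le_sum fun T _ => ?_)
    rw [norm_smul]
    have : ‖(-2 : ℂ) ^ S.card * (-2 : ℂ) ^ T.card‖ = (2 : ℝ) ^ S.card * (2 : ℝ) ^ T.card := by
      simp
    rw [this]
    exact mul_le_mul_of_nonneg_left (term S T) (by positivity)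
  refine le_trans bound ?_
  have e6 : ∑ S ∈ W.powerset, ∑ T ∈ W.powerset,
          ((2 : ℝ) ^ S.card * (2 : ℝ) ^ T.card) * (3 * Real.exp (-L'))
      = (3 ^ W.card * 3 ^ W.card) * (3 * Real.exp (-L')) := by
    rw [← sum_two_pow W, Finset.sum_mul_sum, Finset.sum_mul]
    apply Finset.sum_congr rfl
    intro S _
    rw [Finset.sum_mul]
  rw [e6]
  have hexp3 : (9 : ℝ) ≤ Real.exp 3 := by
    have h := Real.add_one_le_exp (1 : ℝ)
    have h2 : Real.exp 3 = Real.exp 1 ^ 3 := by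
      rw [← Real.exp_nat_mul]; norm_num
    have h3 : (2.7 : ℝ) < Real.exp 1 := by have := Real.exp_one_gt_d9; linarith
    rw [h2]
    nlinarith [sq_nonneg (Real.exp 1 - 2.7)]
  have hexp2 : (3 : ℝ) ≤ Real.exp 2 := by
    have h := Real.add_one_le_exp (2 : ℝ)
    linarith
  have h9 : (3 : ℝ) ^ W.card * 3 ^ W.card ≤ Real.exp (3 * M) := by
    have h1 : (3 : ℝ) ^ W.card * 3 ^ W.card = 9 ^ W.card := by
      rw [← mul_pow]; norm_num
    rw [h1]
    calc (9 : ℝ) ^ W.card ≤ 9 ^ J.card := pow_le_pow_right₀ (by norm_num) hWc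
      _ ≤ (Real.exp 3) ^ J.card := by gcongr
      _ = Real.exp (3 * M) := by rw [← Real.exp_nat_mul, hM]; ring_nf
  calc (3 ^ W.card * 3 ^ W.card) * (3 * Real.exp (-L'))
      ≤ Real.exp (3 * M) * (Real.exp 2 * Real.exp (-L')) := by gcongr
    _ = Real.exp (-L) := by
        rw [← Real.exp_add, ← Real.exp_add]
        congr 1
        rw [hL']; ring

theorem tstep : TSTEP :=
  ⟨12, by norm_num, fun _ _ _ _ _ _ hC hu hd h1 h2 hLO hLOC => lo_step hC hu hd h1 h2 hLO hLOC⟩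

theorem tlo0 : TLO0 := fun _ _ h => lo_zero h

end Step
end Crest.Agent.R344
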