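import Crest.Agent.R344.Fam

/-!
R344 [S]: the random subset trick (Lemma S of post 5780).

If `‖1[N_R > D] T 1[N_R = 0]‖ ≤ ε` for every `R ⊆ F` and `‖T‖ ≤ 1`, then
`‖1[N_F > 4D] T 1[N_F ≤ m]‖ ≤ 2^(m+1) (ε + e^{-D/8})`.
-/

set_option autoImplicit false

open scoped BigOperators InnerProductSpace

namespace Crest.Agent.R344.LemS

open Finset

section count

variable {ι : Type*} [DecidableEq ι]

lemma sum_half_pow (F A : Finset ι) (hA : A ⊆ F) :
    ∑ R ∈ F.powerset, (1/2 : ℝ) ^ (A ∩ R).card = 2 ^ F.card * (3/4 : ℝ) ^ A.card := by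
  classical
  have h := Finset.prod_add (fun i => if i ∈ A then (1/2 : ℝ) else 1) (fun _ => (1:ℝ)) F
  have hL : ∏ i ∈ F, ((if i ∈ A then (1/2 : ℝ) else 1) + 1) = 2 ^ F.card * (3/4 : ℝ) ^ A.card := by
    have : ∏ i ∈ F, ((if i ∈ A then (1/2 : ℝ) else 1) + 1)
        = ∏ i ∈ F, (2 * (if i ∈ A then (3/4 : ℝ) else 1)) := by
      refine Finset.prod_congr rfl fun i _ => ?_
      split_ifs <;> norm_num
    rw [this, Finset.prod_mul_distrib, Finset.prod_const, Finset.prod_ite]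
    simp only [Finset.prod_const, one_pow, mul_one]
    rw [Finset.filter_mem_eq_inter, Finset.inter_eq_right.mpr hA]
  rw [← hL, h]
  refine Finset.sum_congr rfl fun R hR => ?_
  rw [Finset.mem_powerset] at hR
  rw [Finset.prod_const_one, mul_one, Finset.prod_ite]
  simp only [Finset.prod_const, one_pow, mul_one]
  rw [Finset.filter_mem_eq_inter, Finset.inter_comm]

lemma count_bound (F A : Finset ι) (hA : A ⊆ F) (D : ℝ) (hD : 0 ≤ D) (hAD : 4 * D < A.card) :
    ((F.powerset.filter (fun R => ((A ∩ R).card : ℝ) ≤ D)).card : ℝ)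
      ≤ 2 ^ F.card * Real.exp (-D / 4) := by
  have h1 : ((F.powerset.filter (fun R => ((A ∩ R).card : ℝ) ≤ D)).card : ℝ) * (1/2:ℝ) ^ D
      ≤ 2 ^ F.card * (3/4 : ℝ) ^ A.card := by
    rw [← sum_half_pow F A hA, ← nsmul_eq_mul, ← Finset.sum_const]
    calc ∑ _R ∈ F.powerset.filter (fun R => ((A ∩ R).card : ℝ) ≤ D), (1/2:ℝ) ^ D
        ≤ ∑ R ∈ F.powerset.filter (fun R => ((A ∩ R).card : ℝ) ≤ D), (1/2:ℝ) ^ (A ∩ R).card := by
          refine Finset.sum_le_sum fun R hR => ?_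
          rw [Finset.mem_filter] at hR
          rw [← Real.rpow_natCast]
          exact Real.rpow_le_rpow_of_exponent_ge (by norm_num) (by norm_num) hR.2
      _ ≤ ∑ R ∈ F.powerset, (1/2:ℝ) ^ (A ∩ R).card := by
          refine Finset.sum_le_sum_of_subset_of_nonneg (Finset.filter_subset _ _) ?_
          intro i _ _
          positivity
  have h2 : (3/4 : ℝ) ^ A.card ≤ (3/4 : ℝ) ^ (4 * D) := by
    rw [← Real.rpow_natCast]
    exact Real.rpow_le_rpow_of_exponent_ge (by norm_num) (by norm_num) hAD.le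
  have h3 : (3/4 : ℝ) ^ (4 * D) = ((3/4:ℝ)^(4:ℝ)) ^ D := by
    rw [← Real.rpow_mul (by norm_num)]
  have h4 : ((3/4:ℝ)^(4:ℝ)) = 81/256 := by
    rw [show (4:ℝ) = ((4:ℕ):ℝ) by norm_num, Real.rpow_natCast]; norm_num
  have h5 : (81/256 : ℝ) ^ D = (1/2:ℝ)^D * (81/128:ℝ)^D := by
    rw [← Real.mul_rpow (by norm_num) (by norm_num)]; norm_num
  have h6 : (81/128:ℝ)^D ≤ Real.exp (-D/4) := by
    have : (81/128:ℝ) ≤ Real.exp (-(1/4)) := by
      have := Real.add_one_le_exp (-(1/4):ℝ)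
      linarith
    calc (81/128:ℝ)^D ≤ (Real.exp (-(1/4))) ^ D :=
          Real.rpow_le_rpow (by norm_num) this hD
      _ = Real.exp (-D/4) := by
          rw [← Real.exp_mul]; congr 1; ring
  have hpos : (0:ℝ) < (1/2:ℝ)^D := Real.rpow_pos_of_pos (by norm_num) _
  rw [h3, h4, h5] at h2
  have h7 : ((F.powerset.filter (fun R => ((A ∩ R).card : ℝ) ≤ D)).card : ℝ) * (1/2:ℝ) ^ D
      ≤ (2 ^ F.card * Real.exp (-D / 4)) * (1/2:ℝ)^D := by
    calc _ ≤ 2 ^ F.card * (3/4 : ℝ) ^ A.card := h1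
      _ ≤ 2 ^ F.card * ((1/2:ℝ)^D * (81/128:ℝ)^D) := by gcongr
      _ ≤ 2 ^ F.card * ((1/2:ℝ)^D * Real.exp (-D/4)) := by gcongr
      _ = _ := by ring
  exact le_of_mul_le_mul_right h7 hpos

lemma count_disjoint (F S : Finset ι) :
    (F.powerset.filter (fun R => S ∩ R = ∅)).card * 2 ^ (S ∩ F).card = 2 ^ F.card := by
  have : F.powerset.filter (fun R => S ∩ R = ∅) = (F \ (S ∩ F)).powerset := by
    ext R
    simp only [Finset.mem_filter, Finset.mem_powerset]
    constructor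
    · rintro ⟨h1, h2⟩ x hx
      rw [Finset.mem_sdiff]
      refine ⟨h1 hx, fun hxA => ?_⟩
      have : x ∈ S ∩ R := Finset.mem_inter.mpr ⟨(Finset.mem_inter.mp hxA).1, hx⟩
      rw [h2] at this
      simp at this
    · intro h
      refine ⟨h.trans Finset.sdiff_subset, ?_⟩
      rw [← Finset.disjoint_iff_inter_eq_empty, Finset.disjoint_left]
      intro x hxA hxR
      have hx := Finset.mem_sdiff.mp (h hxR)
      exact hx.2 (Finset.mem_inter.mpr ⟨hxA, hx.1⟩)
  rw [this, Finset.card_powerset, ← pow_add, Finset.card_sdiff_of_subset Finset.inter_subset_right,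
    Nat.sub_add_cancel (Finset.card_le_card Finset.inter_subset_right)]

end count

variable {H : Type*} [NormedAddCommGroup H] [InnerProductSpace ℂ H] [CompleteSpace H]
variable {ι : Type*} [Fintype ι] [DecidableEq ι]

lemma pi_symm (E : PVM H ι) (S : Finset ι) (u v : H) :
    ⟪E.π S u, v⟫_ℂ = ⟪u, E.π S v⟫_ℂ :=
  (E.sa S).isSymmetric u v

lemma pi_pi (E : PVM H ι) (S T : Finset ι) (u : H) :
    E.π S (E.π T u) = if S = T then E.π S u else 0 := by
  have := congrArg (fun f : H →L[ℂ] H => f u) (E.mul S T)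
  simp only [mul_apply_eq_comp] at this
  rw [this]
  split_ifs <;> rfl

lemma inner_pi_pi (E : PVM H ι) (S T : Finset ι) (u v : H) :
    ⟪E.π S u, E.π T v⟫_ℂ = if S = T then ⟪E.π S u, E.π S v⟫_ℂ else 0 := by
  rw [pi_symm, pi_pi]
  split_ifs with h
  · subst h
    rw [pi_symm, pi_pi, if_pos rfl]
  · simp

lemma ind_apply (E : PVM H ι) (A : Finset ι → Prop) [DecidablePred A] (u : H) :
    E.ind A u = ∑ S with A S, E.π S u := by
  unfold PVM.ind
  rw [_root_.sum_apply]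
  refine Finset.sum_congr ?_ fun _ _ => rfl
  ext S
  simp

lemma inner_ind (E : PVM H ι) (A : Finset ι → Prop) (u v : H) :
    ⟪E.ind A u, v⟫_ℂ = ⟪u, E.ind A v⟫_ℂ := by
  classical
  rw [ind_apply, ind_apply, sum_inner, inner_sum]
  exact Finset.sum_congr rfl fun S _ => pi_symm E S u v

lemma norm_ind_sq (E : PVM H ι) (A : Finset ι → Prop) [DecidablePred A] (u : H) :
    ‖E.ind A u‖ ^ 2 = ∑ S with A S, ‖E.π S u‖ ^ 2 := by
  have h : (⟪E.ind A u, E.ind A u⟫_ℂ) = ∑ S with A S, ⟪E.π S u, E.π S u⟫_ℂ := by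
    rw [ind_apply, sum_inner]
    refine Finset.sum_congr rfl fun S hS => ?_
    rw [inner_sum, Finset.sum_congr rfl fun T _ => inner_pi_pi E S T u u, Finset.sum_ite_eq,
      if_pos hS]
  have h2 := congrArg Complex.re h
  rw [Complex.re_sum] at h2
  rw [← RCLike.re_eq_complex_re, inner_self_eq_norm_sq] at h2
  rw [h2]
  exact Finset.sum_congr rfl fun S _ => inner_self_eq_norm_sq _

lemma sum_norm_sq (E : PVM H ι) (u : H) : ∑ S, ‖E.π S u‖ ^ 2 = ‖u‖ ^ 2 := by
  classical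
  have h := norm_ind_sq E (fun _ => True) u
  have h1 : E.ind (fun _ => True) u = u := by
    rw [ind_apply]
    have := congrArg (fun f : H →L[ℂ] H => f u) E.sum
    simp only [_root_.sum_apply, one_apply_eq_self] at this
    simpa using this
  rw [h1] at h
  rw [h]
  simp

lemma norm_ind_le (E : PVM H ι) (A : Finset ι → Prop) (u : H) : ‖E.ind A u‖ ≤ ‖u‖ := by
  classical
  have h : ‖E.ind A u‖ ^ 2 ≤ ‖u‖ ^ 2 := by
    rw [norm_ind_sq, ← sum_norm_sq E u]
    exact Finset.sum_le_sum_of_subset_of_nonneg (Finset.filter_subset _ _)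
      fun _ _ _ => by positivity
  exact le_of_sq_le_sq h (norm_nonneg _)

lemma ind_ind (E : PVM H ι) (A B : Finset ι → Prop) (u : H) :
    E.ind A (E.ind B u) = E.ind (fun S => A S ∧ B S) u := by
  classical
  rw [ind_apply, ind_apply, ind_apply]
  simp_rw [map_sum, pi_pi]
  have : ∀ S ∈ univ.filter A, (∑ T with B T, if S = T then E.π S u else 0)
      = if B S then E.π S u else 0 := by
    intro S _
    rw [Finset.sum_ite_eq]
    simp
  rw [Finset.sum_congr rfl this, ← Finset.sum_filter, Finset.filter_filter]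

lemma ind_add_not (E : PVM H ι) (A : Finset ι → Prop) (u : H) :
    E.ind A u + E.ind (fun S => ¬ A S) u = u := by
  classical
  rw [ind_apply, ind_apply, Finset.sum_filter_add_sum_filter_not]
  have := congrArg (fun f : H →L[ℂ] H => f u) E.sum
  simpa only [_root_.sum_apply, one_apply_eq_self] using this

/-- Lemma S for the exact layer `N_F = m`. -/
theorem layer (E : PVM H ι) (T : H →L[ℂ] H) (hT : ‖T‖ ≤ 1) (F : Finset ι) (D ε : ℝ) (hD : 0 ≤ D)
    (h : ∀ R ⊆ F, ‖E.ind (fun S => D < ((S ∩ R).card : ℝ)) * T *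
      E.ind (fun S => S ∩ R = ∅)‖ ≤ ε) (m : ℕ) :
    ‖E.ind (fun S => 4 * D < ((S ∩ F).card : ℝ)) * T * E.ind (fun S => (S ∩ F).card = m)‖
      ≤ 2 ^ m * (ε + Real.exp (-D / 8)) := by
  classical
  have hε : 0 ≤ ε := (norm_nonneg _).trans (h ∅ (Finset.empty_subset _))
  have hc : 0 ≤ 2 ^ m * (ε + Real.exp (-D / 8)) := by positivity
  -- bilinear form
  have key : ∀ z u : H,
      ‖⟪E.ind (fun S => 4 * D < ((S ∩ F).card : ℝ)) z,
        T (E.ind (fun S => (S ∩ F).card = m) u)⟫_ℂ‖ ≤ 2 ^ m * (ε + Real.exp (-D / 8)) * ‖z‖ * ‖u‖ := by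
    intro z u
    set z0 := E.ind (fun S => 4 * D < ((S ∩ F).card : ℝ)) z with hz0
    set u0 := E.ind (fun S => (S ∩ F).card = m) u with hu0
    have hz0n : ‖z0‖ ≤ ‖z‖ := norm_ind_le E _ z
    have hu0n : ‖u0‖ ≤ ‖u‖ := norm_ind_le E _ u
    -- averaging identity
    have hav : (2:ℂ) ^ m • ∑ R ∈ F.powerset, E.ind (fun S => S ∩ R = ∅) u0 = (2:ℂ) ^ F.card • u0 := by
      have h1 : ∀ R ∈ F.powerset, E.ind (fun S => S ∩ R = ∅) u0
          = ∑ S with (S ∩ F).card = m, if S ∩ R = ∅ then E.π S u else 0 := by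
        intro R _
        rw [hu0, ind_ind, ind_apply, ← Finset.sum_filter, Finset.filter_filter]
        refine Finset.sum_congr ?_ fun _ _ => rfl
        ext S
        simp [and_comm]
      rw [Finset.sum_congr rfl h1, Finset.sum_comm, hu0, ind_apply, Finset.smul_sum,
        Finset.smul_sum]
      refine Finset.sum_congr rfl fun S hS => ?_
      rw [Finset.mem_filter] at hS
      rw [← Finset.sum_filter, Finset.sum_const, ← Nat.cast_smul_eq_nsmul ℂ, smul_smul]
      congr 1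
      have := count_disjoint F S
      rw [hS.2] at this
      rw [mul_comm]
      exact_mod_cast this
    -- square sum bound
    have hsq : ∑ R ∈ F.powerset, ‖E.ind (fun S => ((S ∩ R).card : ℝ) ≤ D) z0‖ ^ 2
        ≤ 2 ^ F.card * Real.exp (-D / 4) * ‖z‖ ^ 2 := by
      have h1 : ∀ R ∈ F.powerset, ‖E.ind (fun S => ((S ∩ R).card : ℝ) ≤ D) z0‖ ^ 2
          = ∑ S with 4 * D < ((S ∩ F).card : ℝ),
              if ((S ∩ R).card : ℝ) ≤ D then ‖E.π S z‖ ^ 2 else 0 := by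
        intro R _
        rw [hz0, ind_ind, norm_ind_sq, ← Finset.sum_filter, Finset.filter_filter]
        refine Finset.sum_congr ?_ fun _ _ => rfl
        ext S
        simp [and_comm]
      rw [Finset.sum_congr rfl h1, Finset.sum_comm]
      calc ∑ S with 4 * D < ((S ∩ F).card : ℝ), ∑ R ∈ F.powerset,
              (if ((S ∩ R).card : ℝ) ≤ D then ‖E.π S z‖ ^ 2 else 0)
          ≤ ∑ S with 4 * D < ((S ∩ F).card : ℝ),
              2 ^ F.card * Real.exp (-D / 4) * ‖E.π S z‖ ^ 2 := by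
            refine Finset.sum_le_sum fun S hS => ?_
            rw [Finset.mem_filter] at hS
            rw [← Finset.sum_filter, Finset.sum_const, nsmul_eq_mul]
            have hcb := count_bound F (S ∩ F) Finset.inter_subset_right D hD hS.2
            have heq : F.powerset.filter (fun R => (((S ∩ F) ∩ R).card : ℝ) ≤ D)
                = F.powerset.filter (fun R => ((S ∩ R).card : ℝ) ≤ D) := by
              refine Finset.filter_congr fun R hR => ?_
              rw [Finset.mem_powerset] at hR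
              rw [Finset.inter_assoc, Finset.inter_eq_right.mpr hR]
            rw [heq] at hcb
            exact mul_le_mul_of_nonneg_right hcb (by positivity)
        _ ≤ ∑ S, 2 ^ F.card * Real.exp (-D / 4) * ‖E.π S z‖ ^ 2 :=
            Finset.sum_le_sum_of_subset_of_nonneg (Finset.filter_subset _ _)
              fun _ _ _ => by positivity
        _ = 2 ^ F.card * Real.exp (-D / 4) * ‖z‖ ^ 2 := by
            rw [← Finset.mul_sum, sum_norm_sq]
    -- sum of norms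
    have hsum : ∑ R ∈ F.powerset, ‖E.ind (fun S => ((S ∩ R).card : ℝ) ≤ D) z0‖
        ≤ 2 ^ F.card * Real.exp (-D / 8) * ‖z‖ := by
      have h1 : (∑ R ∈ F.powerset, ‖E.ind (fun S => ((S ∩ R).card : ℝ) ≤ D) z0‖) ^ 2
          ≤ (2 ^ F.card * Real.exp (-D / 8) * ‖z‖) ^ 2 := by
        calc (∑ R ∈ F.powerset, ‖E.ind (fun S => ((S ∩ R).card : ℝ) ≤ D) z0‖) ^ 2
            ≤ (F.powerset.card : ℝ) * ∑ R ∈ F.powerset,
                ‖E.ind (fun S => ((S ∩ R).card : ℝ) ≤ D) z0‖ ^ 2 := sq_sum_le_card_mul_sum_sq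
          _ ≤ (F.powerset.card : ℝ) * (2 ^ F.card * Real.exp (-D / 4) * ‖z‖ ^ 2) := by gcongr
          _ = (2 ^ F.card * Real.exp (-D / 8) * ‖z‖) ^ 2 := by
              rw [Finset.card_powerset]
              have : Real.exp (-D / 4) = Real.exp (-D / 8) ^ 2 := by
                rw [← Real.exp_nat_mul]; congr 1; push_cast; ring
              rw [this]
              push_cast
              ring
      exact le_of_sq_le_sq h1 (by positivity)
    -- termwise bound
    have hterm : ∀ R ∈ F.powerset, ‖⟪z0, T (E.ind (fun S => S ∩ R = ∅) u0)⟫_ℂ‖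
        ≤ ε * ‖z‖ * ‖u‖ + ‖E.ind (fun S => ((S ∩ R).card : ℝ) ≤ D) z0‖ * ‖u‖ := by
      intro R hR
      rw [Finset.mem_powerset] at hR
      set Qu := E.ind (fun S => S ∩ R = ∅) u0 with hQu
      have hdec : z0 = E.ind (fun S => D < ((S ∩ R).card : ℝ)) z0
          + E.ind (fun S => ((S ∩ R).card : ℝ) ≤ D) z0 := by
        have := ind_add_not E (fun S => D < ((S ∩ R).card : ℝ)) z0
        simp only [not_lt] at this
        exact this.symm
      have hQn : ‖Qu‖ ≤ ‖u‖ := (norm_ind_le E _ u0).trans hu0n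
      have hTQ : ‖T Qu‖ ≤ ‖u‖ := by
        calc ‖T Qu‖ ≤ ‖T‖ * ‖Qu‖ := T.le_opNorm _
          _ ≤ 1 * ‖u‖ := by gcongr
          _ = ‖u‖ := one_mul _
      have h1 : ‖⟪E.ind (fun S => D < ((S ∩ R).card : ℝ)) z0, T Qu⟫_ℂ‖ ≤ ε * ‖z‖ * ‖u‖ := by
        rw [inner_ind]
        have hle : ‖E.ind (fun S => D < ((S ∩ R).card : ℝ)) (T Qu)‖ ≤ ε * ‖u‖ := by
          have := (E.ind (fun S => D < ((S ∩ R).card : ℝ)) * T *
            E.ind (fun S => S ∩ R = ∅)).le_opNorm u0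
          simp only [mul_apply_eq_comp] at this
          calc _ ≤ _ := this
            _ ≤ ε * ‖u‖ := by
              have := h R hR
              gcongr
        calc ‖⟪z0, E.ind (fun S => D < ((S ∩ R).card : ℝ)) (T Qu)⟫_ℂ‖
            ≤ ‖z0‖ * ‖E.ind (fun S => D < ((S ∩ R).card : ℝ)) (T Qu)‖ := norm_inner_le_norm _ _
          _ ≤ ‖z‖ * (ε * ‖u‖) := by gcongr
          _ = ε * ‖z‖ * ‖u‖ := by ring
      have h2 : ‖⟪E.ind (fun S => ((S ∩ R).card : ℝ) ≤ D) z0, T Qu⟫_ℂ‖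
          ≤ ‖E.ind (fun S => ((S ∩ R).card : ℝ) ≤ D) z0‖ * ‖u‖ :=
        (norm_inner_le_norm _ _).trans (by gcongr)
      calc ‖⟪z0, T Qu⟫_ℂ‖ = ‖⟪E.ind (fun S => D < ((S ∩ R).card : ℝ)) z0, T Qu⟫_ℂ
            + ⟪E.ind (fun S => ((S ∩ R).card : ℝ) ≤ D) z0, T Qu⟫_ℂ‖ := by
              rw [← inner_add_left, ← hdec]
        _ ≤ _ := (norm_add_le _ _).trans (add_le_add h1 h2)
    -- conclusion
    have hmain : (2:ℝ) ^ F.card * ‖⟪z0, T u0⟫_ℂ‖
        ≤ 2 ^ m * (2 ^ F.card * (ε + Real.exp (-D / 8)) * ‖z‖ * ‖u‖) := by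
      have e1 : (2:ℂ) ^ F.card * ⟪z0, T u0⟫_ℂ
          = (2:ℂ) ^ m * ∑ R ∈ F.powerset, ⟪z0, T (E.ind (fun S => S ∩ R = ∅) u0)⟫_ℂ := by
        rw [← inner_smul_right, ← map_smul, ← hav, map_smul, inner_smul_right, map_sum, inner_sum]
      have e2 := congrArg norm e1
      rw [norm_mul, norm_mul, norm_pow, norm_pow, Complex.norm_ofNat] at e2
      rw [e2]
      have e3 : ‖∑ R ∈ F.powerset, ⟪z0, T (E.ind (fun S => S ∩ R = ∅) u0)⟫_ℂ‖
          ≤ 2 ^ F.card * (ε + Real.exp (-D / 8)) * ‖z‖ * ‖u‖ := by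
        calc _ ≤ ∑ R ∈ F.powerset, ‖⟪z0, T (E.ind (fun S => S ∩ R = ∅) u0)⟫_ℂ‖ := norm_sum_le _ _
          _ ≤ ∑ R ∈ F.powerset, (ε * ‖z‖ * ‖u‖
                + ‖E.ind (fun S => ((S ∩ R).card : ℝ) ≤ D) z0‖ * ‖u‖) :=
              Finset.sum_le_sum hterm
          _ = 2 ^ F.card * (ε * ‖z‖ * ‖u‖)
                + (∑ R ∈ F.powerset, ‖E.ind (fun S => ((S ∩ R).card : ℝ) ≤ D) z0‖) * ‖u‖ := by
              rw [Finset.sum_add_distrib, Finset.sum_const, Finset.card_powerset, nsmul_eq_mul,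
                ← Finset.sum_mul]
              push_cast
              ring
          _ ≤ 2 ^ F.card * (ε * ‖z‖ * ‖u‖) + (2 ^ F.card * Real.exp (-D / 8) * ‖z‖) * ‖u‖ := by
              gcongr
          _ = _ := by ring
      gcongr
    have hpos : (0:ℝ) < 2 ^ F.card := by positivity
    have : (2:ℝ) ^ F.card * ‖⟪z0, T u0⟫_ℂ‖
        ≤ 2 ^ F.card * (2 ^ m * (ε + Real.exp (-D / 8)) * ‖z‖ * ‖u‖) := by
      calc _ ≤ _ := hmain
        _ = _ := by ring
    exact le_of_mul_le_mul_left this hpos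
  refine ContinuousLinearMap.opNorm_le_bound _ hc fun u => ?_
  set X := (E.ind (fun S => 4 * D < ((S ∩ F).card : ℝ)) * T *
    E.ind (fun S => (S ∩ F).card = m)) with hX
  have hXu : ‖X u‖ * ‖X u‖ ≤ 2 ^ m * (ε + Real.exp (-D / 8)) * ‖X u‖ * ‖u‖ := by
    have h1 := key (X u) u
    rw [inner_ind] at h1
    have h2 : E.ind (fun S => 4 * D < ((S ∩ F).card : ℝ))
        (T (E.ind (fun S => (S ∩ F).card = m) u)) = X u := rfl
    rw [h2] at h1
    have h3 : ‖⟪X u, X u⟫_ℂ‖ = ‖X u‖ * ‖X u‖ := by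
      rw [inner_self_eq_norm_sq_to_K]
      simp [sq]
    rw [h3] at h1
    exact h1
  by_cases h0 : ‖X u‖ = 0
  · rw [h0]; positivity
  · have hp : 0 < ‖X u‖ := lt_of_le_of_ne (norm_nonneg _) (Ne.symm h0)
    have : ‖X u‖ * ‖X u‖ ≤ ‖X u‖ * (2 ^ m * (ε + Real.exp (-D / 8)) * ‖u‖) := by
      calc _ ≤ _ := hXu
        _ = _ := by ring
    exact le_of_mul_le_mul_left this hp

/-- **Lemma S** (random subset trick). -/
theorem lemS (E : PVM H ι) (T : H →L[ℂ] H) (hT : ‖T‖ ≤ 1) (F : Finset ι) (D ε : ℝ) (hD : 0 ≤ D)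
    (h : ∀ R ⊆ F, ‖E.ind (fun S => D < ((S ∩ R).card : ℝ)) * T *
      E.ind (fun S => S ∩ R = ∅)‖ ≤ ε) (m : ℕ) :
    ‖E.ind (fun S => 4 * D < ((S ∩ F).card : ℝ)) * T * E.ind (fun S => (S ∩ F).card ≤ m)‖
      ≤ 2 ^ (m + 1) * (ε + Real.exp (-D / 8)) := by
  classical
  have hε : 0 ≤ ε := (norm_nonneg _).trans (h ∅ (Finset.empty_subset _))
  have hdec : E.ind (fun S => (S ∩ F).card ≤ m)
      = ∑ k ∈ Finset.range (m + 1), E.ind (fun S => (S ∩ F).card = k) := by
    ext u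
    rw [_root_.sum_apply, ind_apply]
    simp_rw [ind_apply]
    have : ∀ k ∈ Finset.range (m + 1), (∑ S with (S ∩ F).card = k, E.π S u)
        = ∑ S, if (S ∩ F).card = k then E.π S u else 0 := fun k _ => by
      rw [Finset.sum_filter]
    rw [Finset.sum_congr rfl this, Finset.sum_comm, Finset.sum_filter]
    refine Finset.sum_congr rfl fun S _ => ?_
    rw [Finset.sum_ite_eq]
    simp
  rw [hdec, Finset.mul_sum]
  calc _ ≤ ∑ k ∈ Finset.range (m + 1), ‖E.ind (fun S => 4 * D < ((S ∩ F).card : ℝ)) * T *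
        E.ind (fun S => (S ∩ F).card = k)‖ := norm_sum_le _ _
    _ ≤ ∑ k ∈ Finset.range (m + 1), 2 ^ k * (ε + Real.exp (-D / 8)) :=
        Finset.sum_le_sum fun k _ => layer E T hT F D ε hD h k
    _ = (∑ k ∈ Finset.range (m + 1), (2:ℝ) ^ k) * (ε + Real.exp (-D / 8)) := by
        rw [Finset.sum_mul]
    _ ≤ 2 ^ (m + 1) * (ε + Real.exp (-D / 8)) := by
        have : (∑ k ∈ Finset.range (m + 1), (2:ℝ) ^ k) ≤ 2 ^ (m + 1) := by
          rw [geom_sum_eq (by norm_num)]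
          have : (0:ℝ) < 2 ^ (m+1) := by positivity
          linarith
        gcongr

end Crest.Agent.R344.LemS
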