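import Crest.Agent.R344.Defs
import Crest.Agent.R344.LemS

/-!
R344 [S], second half: `VLOC C κ → LOC C (c κ)` (target `T_S`).
-/

set_option autoImplicit false

open scoped BigOperators

namespace Crest.Agent.R344

open Finset

variable {N : ℕ}

/-- the computational PVM -/
noncomputable def bitPVM (N : ℕ) : PVM (St N) (Fin N) where
  π S := dg (fun σ => if univ.filter (fun i => σ i = true) = S then 1 else 0)
  sa S := by
    change star _ = _
    rw [dg_star]; congr 1; funext σ; split_ifs <;> simp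
  mul S T := by
    rw [dg_mul]
    split_ifs with h
    · subst h
      congr 1; funext σ; split_ifs <;> simp
    · ext u σ
      rw [dg_apply]
      split_ifs with h1 h2
      · exact absurd (h1.symm.trans h2) h
      all_goals simp
  sum := by
    rw [dg_sum, ← dg_one]
    congr 1
    funext σ
    rw [Finset.sum_ite_eq]
    simp

open Classical in
theorem bitPVM_ind (A : Finset (Fin N) → Prop) :
    (bitPVM N).ind A = dg (fun σ => if A (univ.filter (fun i => σ i = true)) then 1 else 0) := by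
  unfold PVM.ind
  change ∑ S with A S, dg (fun σ => if univ.filter (fun i => σ i = true) = S then (1:ℂ) else 0) = _
  rw [dg_sum]
  congr 1
  funext σ
  rw [Finset.sum_ite_eq]
  simp

theorem card_inter_cnt (F : Finset (Fin N)) (σ : Bits N) :
    (univ.filter (fun i => σ i = true) ∩ F).card = cnt F σ := by
  unfold cnt
  congr 1
  ext i
  simp [and_comm]

theorem bitPVM_gt (F : Finset (Fin N)) (D : ℕ) (D' : ℝ) (h : D' = D) :
    (bitPVM N).ind (fun S => D' < ((S ∩ F).card : ℝ)) = gtI F D := by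
  classical
  subst h
  rw [bitPVM_ind, gtI]
  congr 1
  funext σ
  rw [card_inter_cnt]
  simp

theorem bitPVM_le (F : Finset (Fin N)) (m : ℕ) :
    (bitPVM N).ind (fun S => (S ∩ F).card ≤ m) = leI F m := by
  classical
  rw [bitPVM_ind, leI]
  congr 1
  funext σ
  rw [card_inter_cnt]
  split_ifs <;> rfl

theorem bitPVM_zero (F : Finset (Fin N)) :
    (bitPVM N).ind (fun S => S ∩ F = ∅) = zeroI F := by
  classical
  rw [bitPVM_ind, zeroI]
  congr 1
  funext σ
  have h : univ.filter (fun i => σ i = true) ∩ F = ∅ ↔ cnt F σ = 0 := by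
    rw [← card_inter_cnt, Finset.card_eq_zero]
  by_cases h0 : cnt F σ = 0
  · rw [if_pos h0, if_pos (h.mpr h0)]
  · rw [if_neg h0, if_neg (fun h1 => h0 (h.mp h1))]

/-- Lemma S in the computational basis. -/
theorem lemS_bits (T : Op N) (hT : ‖T‖ ≤ 1) (F : Finset (Fin N)) (D : ℕ) (ε : ℝ)
    (h : ∀ R ⊆ F, ‖gtI R D * T * zeroI R‖ ≤ ε) (m : ℕ) :
    ‖gtI F (4 * D) * T * leI F m‖ ≤ 2 ^ (m + 1) * (ε + Real.exp (-(D:ℝ) / 8)) := by
  have := LemS.lemS (bitPVM N) T hT F (D:ℝ) ε (Nat.cast_nonneg D) (fun R hR => by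
    rw [bitPVM_gt R D _ rfl, bitPVM_zero]
    exact h R hR) m
  rwa [bitPVM_gt F (4 * D) _ (by push_cast; ring), bitPVM_le] at this

theorem gtI_mul_gtI (F : Finset (Fin N)) (a b : ℕ) (h : a ≤ b) :
    gtI F b * gtI F a = gtI F b := by
  rw [gtI, gtI, dg_mul]
  congr 1
  funext σ
  by_cases h1 : b < cnt F σ
  · simp [h1, lt_of_le_of_lt h h1]
  · simp [h1]

theorem gtI_mul_expand (F : Finset (Fin N)) (a b : ℕ) (h : a ≤ b) (T X : Op N) :
    gtI F b * T * X = gtI F b * (gtI F a * T * X) := by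
  rw [← mul_assoc, ← mul_assoc, gtI_mul_gtI F _ _ h]

theorem norm_conj_le (C Y : Op N) (hC : C ∈ unitary (Op N)) (hY : ‖Y‖ ≤ 1) :
    ‖C * Y * star C‖ ≤ 1 := by
  have h1 : ‖C * Y * star C‖ = ‖Y‖ := by
    rw [CStarRing.norm_mul_mem_unitary _ (Unitary.star_mem hC), CStarRing.norm_mem_unitary_mul _ hC]
  rw [h1]; exact hY

/-- target `T_S` -/
theorem vloc_to_loc : ∃ c : ℝ, 1 ≤ c ∧ ∀ (N : ℕ) (C : Op N) (κ : ℝ), C ∈ unitary (Op N) → 1 ≤ κ →
    VLOC C κ → LOC C (c * κ) := by
  refine ⟨131, by norm_num, ?_⟩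
  intro N C κ hC hκ hV F V m D L hL hD
  set T := C * zeroI V * star C with hTdef
  have hT : ‖T‖ ≤ 1 := norm_conj_le C _ hC (zeroI_norm_le V)
  set D' : ℕ := D / 4 with hD'
  have hm0 : (0:ℝ) ≤ m := Nat.cast_nonneg m
  have hD4 : (D : ℝ) ≤ 4 * (D' : ℝ) + 3 := by
    have : D ≤ 4 * D' + 3 := by omega
    exact_mod_cast this
  have hDD : 4 * D' ≤ D := by omega
  set L' : ℝ := m + L + 3 with hL'
  have hL'1 : 1 ≤ L' := by linarith
  have hκmL : 1 ≤ κ * (m + L) := by
    nlinarith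
  have hbig : 8 * (κ * L') ≤ D' := by
    have h1 : κ * L' ≤ 4 * (κ * (m + L)) := by
      have : L' ≤ 4 * (m + L) := by rw [hL']; linarith
      nlinarith
    have h2 : 131 * (κ * (m + L)) ≤ D := by
      calc 131 * (κ * (m + L)) = 131 * κ * (m + L) := by ring
        _ ≤ D := hD
    nlinarith
  have hκL' : κ * L' ≤ D' := by
    have : 0 ≤ κ * L' := by positivity
    linarith
  have hL'8 : 8 * L' ≤ D' := by
    have : L' ≤ κ * L' := by nlinarith
    linarith
  have hR : ∀ R ⊆ F, ‖gtI R D' * T * zeroI R‖ ≤ Real.exp (-L') := fun R _ =>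
    hV R V D' L' hL'1 hκL'
  have hS := lemS_bits T hT F D' _ hR m
  have h8 : Real.exp (-(D':ℝ) / 8) ≤ Real.exp (-L') := by
    apply Real.exp_le_exp.mpr
    linarith
  have hfin : ‖gtI F (4 * D') * T * leI F m‖ ≤ Real.exp (-L) := by
    calc _ ≤ _ := hS
      _ ≤ 2 ^ (m + 1) * (Real.exp (-L') + Real.exp (-L')) := by gcongr
      _ = 2 ^ (m + 2) * Real.exp (-L') := by ring
      _ ≤ Real.exp 1 ^ (m + 2) * Real.exp (-L') := by
          have : (2:ℝ) ≤ Real.exp 1 := by
            have := Real.add_one_le_exp (1:ℝ)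
            linarith
          gcongr
      _ = Real.exp ((m + 2 : ℕ) * 1 + (-L')) := by
          rw [← Real.exp_nat_mul, ← Real.exp_add]
      _ ≤ Real.exp (-L) := by
          apply Real.exp_le_exp.mpr
          rw [hL']; push_cast; linarith
  calc ‖gtI F D * T * leI F m‖ = ‖gtI F D * (gtI F (4 * D') * T * leI F m)‖ := by
        rw [gtI_mul_expand F _ _ hDD T (leI F m)]
    _ ≤ ‖gtI F D‖ * ‖gtI F (4 * D') * T * leI F m‖ := norm_mul_le _ _
    _ ≤ 1 * Real.exp (-L) := by
        gcongr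
        exact gtI_norm_le _ _
    _ = Real.exp (-L) := one_mul _

end Crest.Agent.R344
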