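import Crest.Agent.R344.TJ
import Crest.Agent.R344.Main
import Crest.Agent.R344.Step
import Crest.Agent.R344.VLocLoc

/-!
R344: assembly.
-/

set_option autoImplicit false

namespace Crest.Agent.R344

theorem ts : TS := vloc_to_loc

theorem redhyp_of_vloflo (h : VLOfLO) : REDHYP :=
  redhyp_of_goal (goal_of (tj_of h) ts Step.tlo0 Step.tstep)

end Crest.Agent.R344
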