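import Mathlib

/-!
R344 / S0539 (PARITY ∉ QAC⁰): basic definitions.
-/

set_option autoImplicit false

open scoped BigOperators

namespace Crest.Agent.R344

/-- bit strings on `N` sites -/
abbrev Bits (N : ℕ) : Type := Fin N → Bool

/-- the state space -/
abbrev St (N : ℕ) : Type := EuclideanSpace ℂ (Bits N)

/-- operators on the state space -/
abbrev Op (N : ℕ) : Type := St N →L[ℂ] St N

variable {N : ℕ}

/-- the operator with a given matrix -/
noncomputable def ofMat (A : Matrix (Bits N) (Bits N) ℂ) : Op N :=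
  Matrix.toEuclideanCLM (n := Bits N) (𝕜 := ℂ) A

/-- diagonal operator -/
noncomputable def dg (f : Bits N → ℂ) : Op N := ofMat (Matrix.diagonal f)

/-- number of ones of `σ` on `V` -/
def cnt (V : Finset (Fin N)) (σ : Bits N) : ℕ := (V.filter (fun i => σ i = true)).card

/-- spectral projection `1[n_V > y]` -/
noncomputable def gtI (V : Finset (Fin N)) (y : ℕ) : Op N :=
  dg (fun σ => if y < cnt V σ then 1 else 0)

/-- spectral projection `1[n_V ≤ m]` -/
noncomputable def leI (V : Finset (Fin N)) (m : ℕ) : Op N :=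
  dg (fun σ => if cnt V σ ≤ m then 1 else 0)

/-- spectral projection `1[n_V = m]` -/
noncomputable def eqI (V : Finset (Fin N)) (m : ℕ) : Op N :=
  dg (fun σ => if cnt V σ = m then 1 else 0)

/-- the vacuum projection `1[n_V = 0]` -/
noncomputable def zeroI (V : Finset (Fin N)) : Op N :=
  dg (fun σ => if cnt V σ = 0 then 1 else 0)

/-- the projection on "all bits of `J` are one" -/
noncomputable def allI (J : Finset (Fin N)) : Op N :=
  dg (fun σ => if ∀ i ∈ J, σ i = true then 1 else 0)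

/-- the matrix of a one-site operator -/
def siteMat (w : Fin N) (A : Matrix Bool Bool ℂ) : Matrix (Bits N) (Bits N) ℂ :=
  Matrix.of fun σ τ => if Function.update σ w (τ w) = τ then A (σ w) (τ w) else 0

/-- a one-site operator -/
noncomputable def site (w : Fin N) (A : Matrix Bool Bool ℂ) : Op N := ofMat (siteMat w A)

/-- `Y` acts on the sites of `J` only: it commutes with every one-site operator outside `J`. -/
def Supp (J : Finset (Fin N)) (Y : Op N) : Prop :=
  ∀ w, w ∉ J → ∀ A : Matrix Bool Bool ℂ, Commute (site w A) Y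

/-- locality preserving unitaries (product unitaries are of this kind) -/
structure LU (u : Op N) : Prop where
  unitary : u ∈ unitary (Op N)
  conj : ∀ (J : Finset (Fin N)) (Y : Op N), Supp J Y → Supp J (u * Y * star u)
  conj' : ∀ (J : Finset (Fin N)) (Y : Op N), Supp J Y → Supp J (star u * Y * u)

/-- the diagonal function of a layer of reflections `∏_U (1 - 2·1[σ = 0 on U])` -/
noncomputable def czFun (𝒰 : Finset (Finset (Fin N))) (σ : Bits N) : ℂ :=
  ∏ U ∈ 𝒰, (if cnt U σ = 0 then (-1 : ℂ) else 1)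

/-- a layer of reflections -/
noncomputable def cz (𝒰 : Finset (Finset (Fin N))) : Op N := dg (czFun 𝒰)

/-- circuits of depth `k` -/
inductive Circ : ℕ → Op N → Prop
  | base (u : Op N) (hu : LU u) : Circ 0 u
  | step (k : ℕ) (C u : Op N) (𝒰 : Finset (Finset (Fin N))) (hC : Circ k C) (hu : LU u)
      (h𝒰 : (𝒰 : Set (Finset (Fin N))).PairwiseDisjoint id) : Circ (k + 1) (C * cz 𝒰 * u)

/-- locality for local operators -/
def LO (C : Op N) (κ : ℝ) : Prop :=
  ∀ (F J : Finset (Fin N)) (Y : Op N), Supp J Y → ‖Y‖ ≤ 1 →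
    ∀ (m D : ℕ) (L : ℝ), 1 ≤ L → κ * (m + J.card + L) ≤ D →
      ‖gtI F D * (C * Y * star C) * leI F m‖ ≤ Real.exp (-L)

/-- locality for vacuum projections -/
def LOC (C : Op N) (κ : ℝ) : Prop :=
  ∀ (F V : Finset (Fin N)) (m D : ℕ) (L : ℝ), 1 ≤ L → κ * (m + L) ≤ D →
      ‖gtI F D * (C * zeroI V * star C) * leI F m‖ ≤ Real.exp (-L)

/-- vacuum locality for vacuum projections -/
def VLOC (C : Op N) (κ : ℝ) : Prop :=
  ∀ (F V : Finset (Fin N)) (D : ℕ) (L : ℝ), 1 ≤ L → κ * L ≤ D →
      ‖gtI F D * (C * zeroI V * star C) * zeroI F‖ ≤ Real.exp (-L)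

/-! ### elementary lemmas -/

theorem ofMat_apply (A : Matrix (Bits N) (Bits N) ℂ) (u : St N) (σ : Bits N) :
    (ofMat A u) σ = ∑ τ, A σ τ * u τ := by
  rfl

theorem ofMat_mul (A B : Matrix (Bits N) (Bits N) ℂ) : ofMat (A * B) = ofMat A * ofMat B :=
  map_mul (Matrix.toEuclideanCLM (n := Bits N) (𝕜 := ℂ)) A B

theorem ofMat_one : ofMat (1 : Matrix (Bits N) (Bits N) ℂ) = 1 :=
  map_one (Matrix.toEuclideanCLM (n := Bits N) (𝕜 := ℂ))

theorem ofMat_add (A B : Matrix (Bits N) (Bits N) ℂ) : ofMat (A + B) = ofMat A + ofMat B :=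
  map_add (Matrix.toEuclideanCLM (n := Bits N) (𝕜 := ℂ)) A B

theorem ofMat_smul (c : ℂ) (A : Matrix (Bits N) (Bits N) ℂ) : ofMat (c • A) = c • ofMat A :=
  map_smul (Matrix.toEuclideanCLM (n := Bits N) (𝕜 := ℂ)) c A

theorem ofMat_star (A : Matrix (Bits N) (Bits N) ℂ) : star (ofMat A) = ofMat (star A) :=
  (map_star (Matrix.toEuclideanCLM (n := Bits N) (𝕜 := ℂ)) A).symm

theorem ofMat_injective : Function.Injective (ofMat (N := N)) :=
  (Matrix.toEuclideanCLM (n := Bits N) (𝕜 := ℂ)).injective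

/-- the matrix of an operator -/
noncomputable def toMat (Y : Op N) : Matrix (Bits N) (Bits N) ℂ :=
  (Matrix.toEuclideanCLM (n := Bits N) (𝕜 := ℂ)).symm Y

theorem ofMat_toMat (Y : Op N) : ofMat (toMat Y) = Y :=
  (Matrix.toEuclideanCLM (n := Bits N) (𝕜 := ℂ)).apply_symm_apply Y

theorem toMat_ofMat (A : Matrix (Bits N) (Bits N) ℂ) : toMat (ofMat A) = A :=
  (Matrix.toEuclideanCLM (n := Bits N) (𝕜 := ℂ)).symm_apply_apply A

@[simp] theorem dg_apply (f : Bits N → ℂ) (u : St N) (σ : Bits N) : (dg f u) σ = f σ * u σ := by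
  rw [dg, ofMat_apply]
  rw [Finset.sum_eq_single σ]
  · simp
  · intro τ _ h
    simp [Matrix.diagonal_apply_ne _ (Ne.symm h)]
  · simp

theorem dg_mul (f g : Bits N → ℂ) : dg f * dg g = dg (fun σ => f σ * g σ) := by
  rw [dg, dg, dg, ← ofMat_mul, Matrix.diagonal_mul_diagonal]

theorem dg_comm (f g : Bits N → ℂ) : Commute (dg f) (dg g) := by
  rw [Commute, SemiconjBy, dg_mul, dg_mul]
  congr 1
  funext σ
  ring

theorem dg_add (f g : Bits N → ℂ) : dg f + dg g = dg (fun σ => f σ + g σ) := by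
  rw [dg, dg, dg, ← ofMat_add, Matrix.diagonal_add]

theorem dg_smul (c : ℂ) (f : Bits N → ℂ) : c • dg f = dg (fun σ => c * f σ) := by
  rw [dg, dg, ← ofMat_smul, ← Matrix.diagonal_smul]
  rfl

theorem dg_one : dg (fun _ : Bits N => (1 : ℂ)) = 1 := by
  rw [dg, show (Matrix.diagonal fun _ : Bits N => (1 : ℂ)) = 1 from rfl, ofMat_one]

theorem dg_star (f : Bits N → ℂ) : star (dg f) = dg (fun σ => star (f σ)) := by
  rw [dg, dg, ofMat_star, Matrix.star_eq_conjTranspose, Matrix.diagonal_conjTranspose]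
  rfl

theorem dg_sum {ι : Type*} (s : Finset ι) (f : ι → Bits N → ℂ) :
    ∑ i ∈ s, dg (f i) = dg (fun σ => ∑ i ∈ s, f i σ) := by
  classical
  induction s using Finset.induction_on with
  | empty =>
    simp only [Finset.sum_empty]
    ext u σ
    simp
  | insert a s ha ih =>
    rw [Finset.sum_insert ha, ih, dg_add]
    congr 1
    funext σ
    rw [Finset.sum_insert ha]

theorem dg_norm_le (f : Bits N → ℂ) (c : ℝ) (hc : 0 ≤ c) (h : ∀ σ, ‖f σ‖ ≤ c) : ‖dg f‖ ≤ c := by
  refine ContinuousLinearMap.opNorm_le_bound _ hc (fun u => ?_)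
  rw [EuclideanSpace.norm_eq, EuclideanSpace.norm_eq, ← Real.sqrt_sq hc, ← Real.sqrt_mul (sq_nonneg c)]
  apply Real.sqrt_le_sqrt
  rw [Finset.mul_sum]
  apply Finset.sum_le_sum
  intro σ _
  rw [dg_apply, norm_mul, mul_pow]
  gcongr
  exact h σ

theorem gtI_norm_le (V : Finset (Fin N)) (y : ℕ) : ‖gtI V y‖ ≤ 1 := by
  apply dg_norm_le _ _ zero_le_one
  intro σ; split_ifs <;> simp

theorem leI_norm_le (V : Finset (Fin N)) (y : ℕ) : ‖leI V y‖ ≤ 1 := by
  apply dg_norm_le _ _ zero_le_one
  intro σ; split_ifs <;> simp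

theorem eqI_norm_le (V : Finset (Fin N)) (y : ℕ) : ‖eqI V y‖ ≤ 1 := by
  apply dg_norm_le _ _ zero_le_one
  intro σ; split_ifs <;> simp

theorem zeroI_norm_le (V : Finset (Fin N)) : ‖zeroI V‖ ≤ 1 := by
  apply dg_norm_le _ _ zero_le_one
  intro σ; split_ifs <;> simp

theorem allI_norm_le (V : Finset (Fin N)) : ‖allI V‖ ≤ 1 := by
  apply dg_norm_le _ _ zero_le_one
  intro σ; split_ifs <;> simp

theorem gtI_add_leI (V : Finset (Fin N)) (y : ℕ) : gtI V y + leI V y = 1 := by
  rw [gtI, leI, dg_add, ← dg_one]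
  congr 1
  funext σ
  by_cases h : y < cnt V σ
  · simp [h, not_le.mpr h]
  · simp [h, not_lt.mp h]

theorem leI_zero (V : Finset (Fin N)) : leI V 0 = zeroI V := by
  rw [leI, zeroI]
  congr 1
  funext σ
  simp

theorem gtI_mul_self (V : Finset (Fin N)) (y : ℕ) : gtI V y * gtI V y = gtI V y := by
  rw [gtI, dg_mul]; congr 1; funext σ; split_ifs <;> simp

theorem leI_mul_self (V : Finset (Fin N)) (y : ℕ) : leI V y * leI V y = leI V y := by
  rw [leI, dg_mul]; congr 1; funext σ; split_ifs <;> simp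

theorem zeroI_mul_self (V : Finset (Fin N)) : zeroI V * zeroI V = zeroI V := by
  rw [zeroI, dg_mul]; congr 1; funext σ; split_ifs <;> simp

theorem zeroI_star (V : Finset (Fin N)) : star (zeroI V) = zeroI V := by
  rw [zeroI, dg_star]; congr 1; funext σ; split_ifs <;> simp

theorem gtI_star (V : Finset (Fin N)) (y : ℕ) : star (gtI V y) = gtI V y := by
  rw [gtI, dg_star]; congr 1; funext σ; split_ifs <;> simp

theorem leI_star (V : Finset (Fin N)) (y : ℕ) : star (leI V y) = leI V y := by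
  rw [leI, dg_star]; congr 1; funext σ; split_ifs <;> simp

theorem allI_star (V : Finset (Fin N)) : star (allI V) = allI V := by
  rw [allI, dg_star]; congr 1; funext σ; split_ifs <;> simp

theorem siteMat_apply (w : Fin N) (A : Matrix Bool Bool ℂ) (σ τ : Bits N) :
    siteMat w A σ τ = if Function.update σ w (τ w) = τ then A (σ w) (τ w) else 0 := rfl

/-- the action of a one-site operator -/
theorem site_apply (w : Fin N) (A : Matrix Bool Bool ℂ) (u : St N) (σ : Bits N) :
    (site w A u) σ = ∑ b : Bool, A (σ w) b * u (Function.update σ w b) := by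
  classical
  rw [site, ofMat_apply]
  simp only [siteMat_apply]
  have h1 : ∑ τ : Bits N, (if Function.update σ w (τ w) = τ then A (σ w) (τ w) else 0) * u τ
      = ∑ τ ∈ Finset.univ.filter (fun τ : Bits N => Function.update σ w (τ w) = τ),
          A (σ w) (τ w) * u τ := by
    rw [Finset.sum_filter]
    apply Finset.sum_congr rfl
    intro τ _
    split_ifs <;> simp
  rw [h1]
  symm
  apply Finset.sum_bij (fun (b : Bool) _ => Function.update σ w b)
  · intro b _
    simp
  · intro b _ b' _ h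
    have := congrFun h w
    simpa using this
  · intro τ hτ
    refine ⟨τ w, Finset.mem_univ _, ?_⟩
    simpa using hτ
  · intro b _
    simp

end Crest.Agent.R344
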