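import Mathlib
import Crest.Agent.R344.Defs

/-!
R344 [FAM]: finite projection valued measures indexed by `Finset ι` ("patterns").

`PVM H ι` is a family `π S` (`S : Finset ι`) of pairwise orthogonal self-adjoint projections of `H`
with sum `1`.  It is the joint spectral resolution of a commuting family of projections
`e_i = ∑_{S ∋ i} π S`; the operator `e_J = ∏_{i∈J} e_i` is `∑_{S ⊇ J} π S = ind (J ⊆ ·)`,
`1[N_R > D] = ind (fun S => D < (S ∩ R).card)`, and so on.
-/

set_option autoImplicit false

open scoped BigOperators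

namespace Crest.Agent.R344

/-- Projection valued measure on the finite set of patterns `Finset ι`. -/
structure PVM (H : Type*) [NormedAddCommGroup H] [InnerProductSpace ℂ H] [CompleteSpace H]
    (ι : Type*) [Fintype ι] [DecidableEq ι] where
  π : Finset ι → (H →L[ℂ] H)
  sa : ∀ S, IsSelfAdjoint (π S)
  mul : ∀ S T, π S * π T = if S = T then π S else 0
  sum : ∑ S, π S = 1

namespace PVM

variable {H : Type*} [NormedAddCommGroup H] [InnerProductSpace ℂ H] [CompleteSpace H]
variable {ι : Type*} [Fintype ι] [DecidableEq ι]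

/-- Functional calculus: `∑ φ S • π S`. -/
noncomputable def func (E : PVM H ι) (φ : Finset ι → ℂ) : H →L[ℂ] H := ∑ S, φ S • E.π S

open Classical in
/-- Spectral projection of a set of patterns. -/
noncomputable def ind (E : PVM H ι) (P : Finset ι → Prop) : H →L[ℂ] H :=
  ∑ S with P S, E.π S

variable (E : PVM H ι)

/-! ### Algebra of `func` -/

theorem func_add (φ ψ : Finset ι → ℂ) : E.func (fun S => φ S + ψ S) = E.func φ + E.func ψ := by
  simp only [func, add_smul, Finset.sum_add_distrib]

theorem func_sub (φ ψ : Finset ι → ℂ) : E.func (fun S => φ S - ψ S) = E.func φ - E.func ψ := by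
  simp only [func, sub_smul, Finset.sum_sub_distrib]

theorem func_smul (c : ℂ) (φ : Finset ι → ℂ) : E.func (fun S => c * φ S) = c • E.func φ := by
  simp only [func, mul_smul, Finset.smul_sum]

theorem func_sum {α : Type*} (s : Finset α) (φ : α → Finset ι → ℂ) :
    E.func (fun S => ∑ a ∈ s, φ a S) = ∑ a ∈ s, E.func (φ a) := by
  simp only [func, Finset.sum_smul]
  rw [Finset.sum_comm]

theorem func_const_one : E.func (fun _ => 1) = 1 := by
  simp only [func, one_smul, E.sum]

theorem func_zero : E.func (fun _ => 0) = 0 := by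
  simp [func]

theorem func_mul (φ ψ : Finset ι → ℂ) : E.func φ * E.func ψ = E.func (fun S => φ S * ψ S) := by
  simp only [func, Finset.sum_mul_sum]
  refine Finset.sum_congr rfl fun S _ => ?_
  rw [Finset.sum_eq_single S]
  · rw [smul_mul_smul_comm, E.mul, if_pos rfl]
  · intro T _ hT
    rw [smul_mul_smul_comm, E.mul, if_neg (Ne.symm hT), smul_zero]
  · intro h; exact absurd (Finset.mem_univ _) h

theorem star_func (φ : Finset ι → ℂ) : star (E.func φ) = E.func (fun S => star (φ S)) := by
  simp only [func, star_sum, star_smul, (E.sa _).star_eq]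

theorem func_congr {φ ψ : Finset ι → ℂ} (h : ∀ S, φ S = ψ S) : E.func φ = E.func ψ := by
  rw [show φ = ψ from funext h]

/-! ### `ind` -/

open Classical in
theorem ind_eq_func (P : Finset ι → Prop) : E.ind P = E.func (fun S => if P S then 1 else 0) := by
  simp only [ind, func, Finset.sum_filter, ite_smul, one_smul, zero_smul]

theorem ind_congr {P Q : Finset ι → Prop} (h : ∀ S, P S ↔ Q S) : E.ind P = E.ind Q := by
  rw [show P = Q from funext fun S => propext (h S)]

theorem ind_mul_ind (P Q : Finset ι → Prop) : E.ind P * E.ind Q = E.ind (fun S => P S ∧ Q S) := by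
  classical
  simp only [ind_eq_func, func_mul]
  refine E.func_congr fun S => ?_
  by_cases hP : P S <;> by_cases hQ : Q S <;> simp [hP, hQ]

theorem ind_sa (P : Finset ι → Prop) : IsSelfAdjoint (E.ind P) := by
  classical
  rw [isSelfAdjoint_iff, ind_eq_func, star_func]
  refine E.func_congr fun S => ?_
  by_cases hP : P S <;> simp [hP]

theorem ind_mul_self (P : Finset ι → Prop) : E.ind P * E.ind P = E.ind P := by
  rw [ind_mul_ind]; exact E.ind_congr fun S => and_self_iff

theorem isStarProjection_ind (P : Finset ι → Prop) : IsStarProjection (E.ind P) :=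
  ⟨E.ind_mul_self P, E.ind_sa P⟩

theorem ind_true : E.ind (fun _ => True) = 1 := by
  classical
  rw [ind_eq_func]; simpa using E.func_const_one

theorem ind_false : E.ind (fun _ => False) = 0 := by
  classical
  rw [ind_eq_func]; simpa using E.func_zero

theorem ind_add_not (P : Finset ι → Prop) : E.ind P + E.ind (fun S => ¬ P S) = 1 := by
  classical
  rw [ind_eq_func, ind_eq_func, ← func_add, ← E.func_const_one]
  refine E.func_congr fun S => ?_
  by_cases hP : P S <;> simp [hP]

theorem ind_not (P : Finset ι → Prop) : E.ind (fun S => ¬ P S) = 1 - E.ind P := by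
  rw [← E.ind_add_not P]; simp

theorem commute_func (φ ψ : Finset ι → ℂ) : Commute (E.func φ) (E.func ψ) := by
  show _ = _
  rw [func_mul, func_mul]; exact E.func_congr fun S => mul_comm _ _

theorem func_mul_ind (φ : Finset ι → ℂ) (P : Finset ι → Prop) [DecidablePred P] :
    E.func φ * E.ind P = E.func (fun S => if P S then φ S else 0) := by
  classical
  rw [ind_eq_func, func_mul]
  refine E.func_congr fun S => ?_
  by_cases hP : P S <;> simp [hP]

theorem ind_mul_func (φ : Finset ι → ℂ) (P : Finset ι → Prop) [DecidablePred P] :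
    E.ind P * E.func φ = E.func (fun S => if P S then φ S else 0) := by
  rw [← func_mul_ind]
  classical
  rw [ind_eq_func]
  exact (E.commute_func _ _).eq

/-- `π S` is the spectral projection of the single pattern `S`. -/
theorem π_eq_ind (S : Finset ι) : E.π S = E.ind (fun T => T = S) := by
  classical
  simp only [ind, Finset.filter_eq', Finset.mem_univ, if_true, Finset.sum_singleton]

/-! ### Pythagoras and norms -/

theorem inner_π (S T : Finset ι) (x y : H) :
    inner ℂ (E.π S x) (E.π T y) = if S = T then inner ℂ x (E.π S y) else 0 := by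
  have h1 : inner ℂ (E.π S x) (E.π T y) = inner ℂ x ((E.π S * E.π T) y) := by
    have := ContinuousLinearMap.adjoint_inner_left (E.π S) (E.π T y) x
    have hs : (ContinuousLinearMap.adjoint (E.π S)) = E.π S := by
      have := (E.sa S).star_eq
      rwa [ContinuousLinearMap.star_eq_adjoint] at this
    rw [hs] at this
    rw [this]; rfl
  rw [h1, E.mul]
  by_cases h : S = T
  · simp [h]
  · simp [h]

/-- Pythagoras for `func`. -/
theorem norm_sq_func (φ : Finset ι → ℂ) (x : H) :
    ‖E.func φ x‖ ^ 2 = ∑ S, ‖φ S‖ ^ 2 * ‖E.π S x‖ ^ 2 := by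
  have h : (inner ℂ (E.func φ x) (E.func φ x) : ℂ)
      = ((∑ S, ‖φ S‖ ^ 2 * ‖E.π S x‖ ^ 2 : ℝ) : ℂ) := by
    simp only [func, sum_apply, smul_apply]
    rw [sum_inner]
    push_cast
    refine Finset.sum_congr rfl fun S _ => ?_
    rw [inner_sum, Finset.sum_eq_single S]
    · rw [inner_smul_left, inner_smul_right, inner_self_eq_norm_sq_to_K]
      have : (starRingEnd ℂ) (φ S) * φ S = ((‖φ S‖ ^ 2 : ℝ) : ℂ) := by
        rw [Complex.conj_mul']; push_cast; rfl
      rw [← mul_assoc, this]
      push_cast; rfl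
    · intro T _ hT
      rw [inner_smul_left, inner_smul_right, E.inner_π, if_neg (Ne.symm hT)]
      simp
    · intro h; exact absurd (Finset.mem_univ _) h
  have h2 := inner_self_eq_norm_sq_to_K (𝕜 := ℂ) (E.func φ x)
  rw [h2] at h
  have h3 : ((‖E.func φ x‖ ^ 2 : ℝ) : ℂ) = ((∑ S, ‖φ S‖ ^ 2 * ‖E.π S x‖ ^ 2 : ℝ) : ℂ) := by
    rw [← h]; push_cast; rfl
  exact_mod_cast h3

theorem sum_norm_sq (x : H) : ∑ S, ‖E.π S x‖ ^ 2 = ‖x‖ ^ 2 := by
  have := E.norm_sq_func (fun _ => 1) x
  rw [func_const_one] at this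
  simpa using this.symm

open Classical in
theorem norm_sq_ind (P : Finset ι → Prop) (x : H) :
    ‖E.ind P x‖ ^ 2 = ∑ S with P S, ‖E.π S x‖ ^ 2 := by
  rw [ind_eq_func, norm_sq_func, Finset.sum_filter]
  refine Finset.sum_congr rfl fun S _ => ?_
  by_cases hP : P S <;> simp [hP]

/-- Norm bound for `func φ` on vectors, from a bound of `φ` on the patterns seen by `x`. -/
theorem norm_func_apply_le {φ : Finset ι → ℂ} {c : ℝ} (hc : 0 ≤ c) (x : H)
    (h : ∀ S, E.π S x ≠ 0 → ‖φ S‖ ≤ c) : ‖E.func φ x‖ ≤ c * ‖x‖ := by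
  refine le_of_sq_le_sq ?_ (by positivity)
  rw [norm_sq_func, mul_pow, ← E.sum_norm_sq x, Finset.mul_sum]
  refine Finset.sum_le_sum fun S _ => ?_
  by_cases h0 : E.π S x = 0
  · simp [h0]
  · gcongr
    exact h S h0

theorem norm_func_le {φ : Finset ι → ℂ} {c : ℝ} (hc : 0 ≤ c) (h : ∀ S, ‖φ S‖ ≤ c) :
    ‖E.func φ‖ ≤ c :=
  ContinuousLinearMap.opNorm_le_bound _ hc fun x => E.norm_func_apply_le hc x fun S _ => h S

theorem norm_ind_le_one (P : Finset ι → Prop) : ‖E.ind P‖ ≤ 1 := by
  classical
  rw [ind_eq_func]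
  refine E.norm_func_le zero_le_one fun S => ?_
  by_cases hP : P S <;> simp [hP]

theorem norm_ind_apply_le (P : Finset ι → Prop) (x : H) : ‖E.ind P x‖ ≤ ‖x‖ := by
  have := (E.ind P).le_opNorm x
  have h1 := E.norm_ind_le_one P
  nlinarith [norm_nonneg x]

/-- `‖ind P x‖ ≤ ‖ind Q x‖` when `P` implies `Q`. -/
theorem norm_ind_apply_mono {P Q : Finset ι → Prop} (h : ∀ S, P S → Q S) (x : H) :
    ‖E.ind P x‖ ≤ ‖E.ind Q x‖ := by
  have : E.ind P = E.ind P * E.ind Q := by
    rw [ind_mul_ind]; exact E.ind_congr fun S => ⟨fun hP => ⟨hP, h S hP⟩, fun hP => hP.1⟩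
  rw [this]
  exact E.norm_ind_apply_le P _

/-- Monotonicity of the sandwich norm in both spectral sets. -/
theorem norm_ind_mul_ind_mono {ι' : Type*} [Fintype ι'] [DecidableEq ι'] (E' : PVM H ι')
    {P P' : Finset ι → Prop} {Q Q' : Finset ι' → Prop}
    (hP : ∀ S, P S → P' S) (hQ : ∀ S, Q S → Q' S) (T : H →L[ℂ] H) :
    ‖E.ind P * T * E'.ind Q‖ ≤ ‖E.ind P' * T * E'.ind Q'‖ := by
  have h1 : E.ind P = E.ind P * E.ind P' := by
    rw [ind_mul_ind]; exact E.ind_congr fun S => ⟨fun h => ⟨h, hP S h⟩, fun h => h.1⟩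
  have h2 : E'.ind Q = E'.ind Q' * E'.ind Q := by
    rw [ind_mul_ind]; exact E'.ind_congr fun S => ⟨fun h => ⟨hQ S h, h⟩, fun h => h.2⟩
  calc ‖E.ind P * T * E'.ind Q‖ = ‖E.ind P * (E.ind P' * T * E'.ind Q') * E'.ind Q‖ := by
        conv_lhs => rw [h1, h2]
        simp only [mul_assoc]
    _ ≤ ‖E.ind P * (E.ind P' * T * E'.ind Q')‖ * ‖E'.ind Q‖ := norm_mul_le _ _
    _ ≤ (‖E.ind P‖ * ‖E.ind P' * T * E'.ind Q'‖) * ‖E'.ind Q‖ := by
        gcongr; exact norm_mul_le _ _
    _ ≤ (1 * ‖E.ind P' * T * E'.ind Q'‖) * 1 := by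
        gcongr
        · exact E.norm_ind_le_one P
        · exact E'.norm_ind_le_one Q
    _ = _ := by ring

/-! ### Conjugation by a unitary -/

/-- `C π C†`. -/
noncomputable def conj (C : H →L[ℂ] H) (h1 : star C * C = 1) (h2 : C * star C = 1) : PVM H ι where
  π S := C * E.π S * star C
  sa S := by
    rw [isSelfAdjoint_iff]
    simp only [star_mul, star_star, (E.sa S).star_eq, mul_assoc]
  mul S T := by
    have : C * E.π S * star C * (C * E.π T * star C)
        = C * (E.π S * E.π T) * star C := by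
      calc C * E.π S * star C * (C * E.π T * star C)
          = C * E.π S * (star C * C) * E.π T * star C := by simp only [mul_assoc]
        _ = _ := by rw [h1]; simp only [mul_assoc, one_mul]
    rw [this, E.mul]
    by_cases h : S = T <;> simp [h]
  sum := by
    rw [← Finset.sum_mul, ← Finset.mul_sum, E.sum, mul_one, h2]

theorem conj_func (C : H →L[ℂ] H) (h1 : star C * C = 1) (h2 : C * star C = 1)
    (φ : Finset ι → ℂ) : (E.conj C h1 h2).func φ = C * E.func φ * star C := by
  simp only [func, conj, Finset.mul_sum, Finset.sum_mul, mul_smul_comm, smul_mul_assoc]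

theorem conj_ind (C : H →L[ℂ] H) (h1 : star C * C = 1) (h2 : C * star C = 1)
    (P : Finset ι → Prop) : (E.conj C h1 h2).ind P = C * E.ind P * star C := by
  classical
  rw [ind_eq_func, ind_eq_func, conj_func]

/-! ### Newton expansion -/

/-- `∑_{J ⊆ R, |J| = t} e_J = binom(N_R, t)`, where `e_J = ind (J ⊆ ·)`. -/
theorem sum_ind_powersetCard (R : Finset ι) (t : ℕ) :
    ∑ J ∈ R.powersetCard t, E.ind (fun S => J ⊆ S)
      = E.func (fun S => (((S ∩ R).card.choose t : ℕ) : ℂ)) := by
  classical
  simp only [ind_eq_func]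
  rw [← E.func_sum]
  refine E.func_congr fun S => ?_
  have h : ((R.powersetCard t).filter fun J => J ⊆ S) = (S ∩ R).powersetCard t := by
    ext J
    simp only [Finset.mem_filter, Finset.mem_powersetCard, Finset.subset_inter_iff]
    tauto
  rw [← Finset.card_powersetCard, ← h, Finset.card_filter]
  push_cast
  refine Finset.sum_congr rfl fun J _ => ?_
  by_cases hJ : J ⊆ S <;> simp [hJ]

/-- Newton expansion: for `q(x) = ∑_{t ≤ d} c_t binom(x,t)`,
`q(N_R) = ∑_{t ≤ d} c_t ∑_{J ⊆ R, |J| = t} e_J`. -/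
theorem newton (R : Finset ι) (d : ℕ) (c : ℕ → ℂ) :
    E.func (fun S => ∑ t ∈ Finset.range (d + 1), c t * (((S ∩ R).card.choose t : ℕ) : ℂ))
      = ∑ t ∈ Finset.range (d + 1), c t • ∑ J ∈ R.powersetCard t, E.ind (fun S => J ⊆ S) := by
  rw [E.func_sum]
  refine Finset.sum_congr rfl fun t _ => ?_
  rw [func_smul, sum_ind_powersetCard]

end PVM
end Crest.Agent.R344
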