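import Crest.Agent.R344.Site
import Crest.Agent.R344.Fam

/-!
R344 [FAM]: diagonal calculus in the computational basis and support lemmas.
-/

set_option autoImplicit false

open scoped BigOperators

namespace Crest.Agent.R344

variable {N : ℕ}

/-! ### `cnt` -/

theorem cnt_le_card (V : Finset (Fin N)) (σ : Bits N) : cnt V σ ≤ V.card :=
  Finset.card_filter_le _ _

theorem cnt_le (V : Finset (Fin N)) (σ : Bits N) : cnt V σ ≤ N := by
  refine (cnt_le_card V σ).trans ?_
  simpa using Finset.card_le_univ V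

theorem cnt_eq_zero_iff (V : Finset (Fin N)) (σ : Bits N) :
    cnt V σ = 0 ↔ ∀ i ∈ V, σ i = false := by
  simp [cnt, Finset.filter_eq_empty_iff]

theorem cnt_mono {V W : Finset (Fin N)} (h : V ⊆ W) (σ : Bits N) : cnt V σ ≤ cnt W σ :=
  Finset.card_le_card (Finset.filter_subset_filter _ h)

theorem cnt_eq_card_iff (V : Finset (Fin N)) (σ : Bits N) :
    cnt V σ = V.card ↔ ∀ i ∈ V, σ i = true := by
  unfold cnt
  rw [Finset.card_filter_eq_iff]

theorem cnt_union_le (V W : Finset (Fin N)) (σ : Bits N) :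
    cnt (V ∪ W) σ ≤ cnt V σ + cnt W σ := by
  unfold cnt
  rw [Finset.filter_union]
  exact Finset.card_union_le _ _

/-! ### pointwise rules -/

theorem dg_congr {f g : Bits N → ℂ} (h : ∀ σ, f σ = g σ) : dg f = dg g := by
  rw [show f = g from funext h]

theorem dg_zero : dg (fun _ : Bits N => (0 : ℂ)) = 0 := by
  ext u σ
  simp

theorem dg_sub (f g : Bits N → ℂ) : dg f - dg g = dg (fun σ => f σ - g σ) := by
  rw [sub_eq_iff_eq_add, dg_add]
  exact dg_congr fun σ => by ring

theorem dg_injective : Function.Injective (dg (N := N)) := by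
  intro f g h
  have := ofMat_injective h
  exact Matrix.diagonal_injective this

theorem dg_pow (f : Bits N → ℂ) (k : ℕ) : dg f ^ k = dg (fun σ => f σ ^ k) := by
  induction k with
  | zero => simp [dg_one]
  | succ k ih => rw [pow_succ, ih, dg_mul]; exact dg_congr fun σ => (pow_succ _ _).symm

/-- a `{-1,1}`-valued diagonal operator is unitary -/
theorem dg_mem_unitary {f : Bits N → ℂ} (h : ∀ σ, star (f σ) * f σ = 1) : dg f ∈ unitary (Op N) := by
  rw [Unitary.mem_iff, dg_star, dg_mul, dg_mul]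
  refine ⟨?_, ?_⟩
  · rw [← dg_one]; exact dg_congr h
  · rw [← dg_one]; exact dg_congr fun σ => by rw [mul_comm]; exact h σ

theorem norm_sq_dg_apply (f : Bits N → ℂ) (u : St N) :
    ‖dg f u‖ ^ 2 = ∑ σ, ‖f σ‖ ^ 2 * ‖u σ‖ ^ 2 := by
  rw [EuclideanSpace.norm_sq_eq]
  refine Finset.sum_congr rfl fun σ _ => ?_
  rw [dg_apply, norm_mul, mul_pow]

theorem norm_dg_apply_le_of_le {f g : Bits N → ℂ} (h : ∀ σ, ‖f σ‖ ≤ ‖g σ‖) (u : St N) :
    ‖dg f u‖ ≤ ‖dg g u‖ := by
  refine le_of_sq_le_sq ?_ (norm_nonneg _)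
  rw [norm_sq_dg_apply, norm_sq_dg_apply]
  refine Finset.sum_le_sum fun σ _ => ?_
  gcongr
  exact h σ

/-! ### indicator algebra -/

theorem eqI_star (V : Finset (Fin N)) (y : ℕ) : star (eqI V y) = eqI V y := by
  rw [eqI, dg_star]; congr 1; funext σ; split_ifs <;> simp

theorem eqI_mul_self (V : Finset (Fin N)) (y : ℕ) : eqI V y * eqI V y = eqI V y := by
  rw [eqI, dg_mul]; congr 1; funext σ; split_ifs <;> simp

theorem allI_mul_self (V : Finset (Fin N)) : allI V * allI V = allI V := by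
  rw [allI, dg_mul]; congr 1; funext σ; split_ifs <;> simp

theorem allI_empty : allI (∅ : Finset (Fin N)) = 1 := by
  rw [allI, ← dg_one]; exact dg_congr fun σ => by simp

theorem zeroI_empty : zeroI (∅ : Finset (Fin N)) = 1 := by
  rw [zeroI, ← dg_one]; exact dg_congr fun σ => by simp [cnt]

theorem zeroI_eq_leI (V : Finset (Fin N)) : zeroI V = leI V 0 := (leI_zero V).symm

theorem eqI_zero (V : Finset (Fin N)) : eqI V 0 = zeroI V := rfl

theorem gtI_eq_zero_of_card_le {V : Finset (Fin N)} {y : ℕ} (h : V.card ≤ y) : gtI V y = 0 := by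
  rw [gtI, ← dg_zero]
  exact dg_congr fun σ => if_neg (not_lt.mpr ((cnt_le_card V σ).trans h))

theorem gtI_eq_zero {V : Finset (Fin N)} {y : ℕ} (h : N ≤ y) : gtI V y = 0 := by
  rw [gtI, ← dg_zero]
  exact dg_congr fun σ => if_neg (not_lt.mpr ((cnt_le V σ).trans h))

theorem gtI_mul_leI (V : Finset (Fin N)) {y m : ℕ} (h : m ≤ y) : gtI V y * leI V m = 0 := by
  rw [gtI, leI, dg_mul, ← dg_zero]
  refine dg_congr fun σ => ?_
  by_cases h1 : y < cnt V σ
  · have : ¬ cnt V σ ≤ m := by omega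
    simp [this]
  · simp [h1]

theorem leI_mul_gtI (V : Finset (Fin N)) {y m : ℕ} (h : m ≤ y) : leI V m * gtI V y = 0 := by
  rw [show leI V m * gtI V y = gtI V y * leI V m from (dg_comm _ _).eq, gtI_mul_leI V h]

theorem gtI_mul_gtI {V : Finset (Fin N)} {y y' : ℕ} (h : y' ≤ y) : gtI V y * gtI V y' = gtI V y := by
  rw [gtI, gtI, dg_mul]
  refine dg_congr fun σ => ?_
  by_cases h1 : y < cnt V σ
  · have : y' < cnt V σ := by omega
    simp [h1, this]
  · simp [h1]

theorem leI_mul_leI {V : Finset (Fin N)} {m m' : ℕ} (h : m ≤ m') : leI V m * leI V m' = leI V m := by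
  rw [leI, leI, dg_mul]
  refine dg_congr fun σ => ?_
  by_cases h1 : cnt V σ ≤ m
  · have : cnt V σ ≤ m' := by omega
    simp [h1, this]
  · simp [h1]

/-- `1[n ≤ m] = ∑_{j ≤ m} 1[n = j]`. -/
theorem leI_eq_sum_eqI (V : Finset (Fin N)) (m : ℕ) :
    leI V m = ∑ j ∈ Finset.range (m + 1), eqI V j := by
  simp only [eqI, leI]
  rw [dg_sum]
  refine dg_congr fun σ => ?_
  rw [Finset.sum_ite_eq]
  simp

theorem zeroI_union (V W : Finset (Fin N)) : zeroI V * zeroI W = zeroI (V ∪ W) := by
  rw [zeroI, zeroI, zeroI, dg_mul]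
  refine dg_congr fun σ => ?_
  simp only [cnt_eq_zero_iff, Finset.mem_union]
  by_cases h1 : ∀ i ∈ V, σ i = false <;> by_cases h2 : ∀ i ∈ W, σ i = false
  · have : ∀ i, i ∈ V ∨ i ∈ W → σ i = false := by
      intro i hi; rcases hi with hi | hi
      · exact h1 i hi
      · exact h2 i hi
    rw [if_pos h1, if_pos h2, if_pos this, mul_one]
  · have : ¬ ∀ i, i ∈ V ∨ i ∈ W → σ i = false := fun h => h2 fun i hi => h i (Or.inr hi)
    rw [if_neg h2, if_neg this, mul_zero]
  · have : ¬ ∀ i, i ∈ V ∨ i ∈ W → σ i = false := fun h => h1 fun i hi => h i (Or.inl hi)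
    rw [if_neg h1, if_neg this, zero_mul]
  · have : ¬ ∀ i, i ∈ V ∨ i ∈ W → σ i = false := fun h => h1 fun i hi => h i (Or.inl hi)
    rw [if_neg h1, if_neg this, zero_mul]

theorem zeroI_mul_zeroI_of_subset {V W : Finset (Fin N)} (h : V ⊆ W) :
    zeroI W * zeroI V = zeroI W := by
  rw [zeroI_union, Finset.union_eq_left.mpr h]

/-- sandwich monotonicity -/
theorem norm_gtI_mul_leI_mono {F F' : Finset (Fin N)} {D D' m m' : ℕ} (hD : D' ≤ D) (hm : m ≤ m')
    (T : Op N) : ‖gtI F D * T * leI F' m‖ ≤ ‖gtI F D' * T * leI F' m'‖ := by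
  have h1 : gtI F D * T * leI F' m = gtI F D * (gtI F D' * T * leI F' m') * leI F' m := by
    have h2 : leI F' m' * leI F' m = leI F' m := by
      rw [show leI F' m' * leI F' m = leI F' m * leI F' m' from (dg_comm _ _).eq, leI_mul_leI hm]
    calc gtI F D * T * leI F' m = (gtI F D * gtI F D') * T * (leI F' m' * leI F' m) := by
          rw [gtI_mul_gtI hD, h2]
      _ = _ := by simp only [mul_assoc]
  rw [h1]
  calc ‖gtI F D * (gtI F D' * T * leI F' m') * leI F' m‖
      ≤ ‖gtI F D‖ * ‖gtI F D' * T * leI F' m'‖ * ‖leI F' m‖ :=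
        (norm_mul_le _ _).trans (by gcongr; exact norm_mul_le _ _)
    _ ≤ 1 * ‖gtI F D' * T * leI F' m'‖ * 1 := by
        gcongr
        · exact gtI_norm_le _ _
        · exact leI_norm_le _ _
    _ = _ := by ring

/-! ### binomials and the Newton expansion -/

/-- `∑_{J ⊆ V, |J| = t} allI J = binom(n_V, t)` -/
theorem sum_allI (V : Finset (Fin N)) (t : ℕ) :
    ∑ J ∈ V.powersetCard t, allI J = dg (fun σ => ((cnt V σ).choose t : ℂ)) := by
  classical
  simp only [allI]
  rw [dg_sum]
  refine dg_congr fun σ => ?_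
  have h : ((V.powersetCard t).filter fun J => ∀ i ∈ J, σ i = true)
      = (V.filter fun i => σ i = true).powersetCard t := by
    ext J
    simp only [Finset.mem_filter, Finset.mem_powersetCard]
    constructor
    · rintro ⟨⟨h1, h2⟩, h3⟩
      exact ⟨fun i hi => Finset.mem_filter.mpr ⟨h1 hi, h3 i hi⟩, h2⟩
    · rintro ⟨h1, h2⟩
      exact ⟨⟨fun i hi => (Finset.mem_filter.mp (h1 hi)).1, h2⟩,
        fun i hi => (Finset.mem_filter.mp (h1 hi)).2⟩
  rw [cnt, ← Finset.card_powersetCard, ← h, Finset.card_filter]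
  push_cast
  refine Finset.sum_congr rfl fun J _ => ?_
  split_ifs <;> rfl

/-- Newton expansion: if `q(x) = ∑_{t ≤ d} c_t binom(x,t)` on `0..N`, then
`q(n_V) = ∑_{t ≤ d} c_t ∑_{J ⊆ V, |J| = t} allI J`. -/
theorem newton (V : Finset (Fin N)) (d : ℕ) (c : ℕ → ℝ) (q : ℕ → ℝ)
    (hq : ∀ x, q x = ∑ t ∈ Finset.range (d + 1), c t * (x.choose t : ℝ)) :
    dg (fun σ => ((q (cnt V σ) : ℝ) : ℂ))
      = ∑ t ∈ Finset.range (d + 1), (c t : ℂ) • ∑ J ∈ V.powersetCard t, allI J := by
  simp only [sum_allI, dg_smul]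
  rw [dg_sum]
  refine dg_congr fun σ => ?_
  rw [hq]
  push_cast
  rfl

/-! ### support lemmas -/

/-- `f` depends only on the bits in `J`. -/
def Dep (J : Finset (Fin N)) (f : Bits N → ℂ) : Prop :=
  ∀ σ τ : Bits N, (∀ i ∈ J, σ i = τ i) → f σ = f τ

theorem Dep.mono {J K : Finset (Fin N)} {f : Bits N → ℂ} (h : Dep J f) (hJK : J ⊆ K) : Dep K f :=
  fun σ τ hst => h σ τ fun i hi => hst i (hJK hi)

theorem dep_cnt (J : Finset (Fin N)) (φ : ℕ → ℂ) : Dep J (fun σ => φ (cnt J σ)) := by
  intro σ τ h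
  show φ (cnt J σ) = φ (cnt J τ)
  rw [cnt_congr h]

theorem supp_gtI (J : Finset (Fin N)) (y : ℕ) : Supp J (gtI J y) :=
  supp_dg _ (dep_cnt J fun n => if y < n then 1 else 0)

theorem supp_leI (J : Finset (Fin N)) (y : ℕ) : Supp J (leI J y) :=
  supp_dg _ (dep_cnt J fun n => if n ≤ y then 1 else 0)

theorem Supp.sub {J : Finset (Fin N)} {Y Z : Op N} (hY : Supp J Y) (hZ : Supp J Z) :
    Supp J (Y - Z) := fun w hw A => (hY w hw A).sub_right (hZ w hw A)

/-- a diagonal operator depending on `U` commutes with operators supported on a disjoint set -/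
theorem commute_dg_of_supp {U J : Finset (Fin N)} {f : Bits N → ℂ} {Y : Op N} (hf : Dep U f)
    (hY : Supp J Y) (hUJ : Disjoint U J) : Commute (dg f) Y :=
  hY.dg_commute f fun σ τ h => hf σ τ fun i hi => h i fun hiJ =>
    (Finset.disjoint_left.mp hUJ) hi hiJ

theorem zeroI_commute {U J : Finset (Fin N)} {Y : Op N} (hY : Supp J Y) (hUJ : Disjoint U J) :
    Commute (zeroI U) Y :=
  commute_dg_of_supp (dep_cnt U fun n => if n = 0 then 1 else 0) hY hUJ

/-! ### the computational PVM -/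

/-- the set of ones of a bit string -/
def ones (σ : Bits N) : Finset (Fin N) := Finset.univ.filter fun i => σ i = true

theorem card_ones_inter (σ : Bits N) (V : Finset (Fin N)) : (ones σ ∩ V).card = cnt V σ := by
  unfold ones cnt
  congr 1
  ext i
  simp [and_comm]

open Classical in
/-- the computational basis PVM: `π S` is the projection on the basis vector with ones on `S` -/
noncomputable def stdPVM (N : ℕ) : PVM (St N) (Fin N) where
  π S := dg fun σ => if ones σ = S then 1 else 0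
  sa S := by
    rw [isSelfAdjoint_iff, dg_star]
    exact dg_congr fun σ => by split_ifs <;> simp
  mul S T := by
    rw [dg_mul]
    split_ifs with h
    · subst h
      exact dg_congr fun σ => by split_ifs <;> simp
    · rw [← dg_zero]
      refine dg_congr fun σ => ?_
      by_cases h1 : ones σ = S
      · have : ¬ ones σ = T := fun h2 => h (h1 ▸ h2)
        simp [this]
      · simp [h1]
  sum := by
    rw [dg_sum, ← dg_one]
    exact dg_congr fun σ => by simp

theorem stdPVM_func (φ : Finset (Fin N) → ℂ) :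
    (stdPVM N).func φ = dg (fun σ => φ (ones σ)) := by
  classical
  show ∑ S, φ S • dg (fun σ => if ones σ = S then (1 : ℂ) else 0) = _
  simp only [dg_smul]
  rw [dg_sum]
  exact dg_congr fun σ => by simp

open Classical in
theorem stdPVM_ind (P : Finset (Fin N) → Prop) :
    (stdPVM N).ind P = dg (fun σ => if P (ones σ) then 1 else 0) := by
  rw [PVM.ind_eq_func, stdPVM_func]

theorem gtI_eq_ind (V : Finset (Fin N)) (y : ℕ) :
    gtI V y = (stdPVM N).ind fun S => y < (S ∩ V).card := by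
  classical
  rw [stdPVM_ind, gtI]
  exact dg_congr fun σ => by rw [card_ones_inter]; congr

theorem leI_eq_ind (V : Finset (Fin N)) (m : ℕ) :
    leI V m = (stdPVM N).ind fun S => (S ∩ V).card ≤ m := by
  classical
  rw [stdPVM_ind, leI]
  exact dg_congr fun σ => by rw [card_ones_inter]; congr

theorem eqI_eq_ind (V : Finset (Fin N)) (m : ℕ) :
    eqI V m = (stdPVM N).ind fun S => (S ∩ V).card = m := by
  classical
  rw [stdPVM_ind, eqI]
  exact dg_congr fun σ => by rw [card_ones_inter]; congr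

theorem zeroI_eq_ind_card (V : Finset (Fin N)) :
    zeroI V = (stdPVM N).ind fun S => (S ∩ V).card = 0 := eqI_eq_ind V 0

theorem zeroI_eq_ind (V : Finset (Fin N)) :
    zeroI V = (stdPVM N).ind fun S => S ∩ V = ∅ := by
  rw [zeroI_eq_ind_card]
  exact PVM.ind_congr _ fun S => Finset.card_eq_zero

theorem allI_eq_ind (J : Finset (Fin N)) :
    allI J = (stdPVM N).ind fun S => J ⊆ S := by
  classical
  rw [stdPVM_ind, allI]
  refine dg_congr fun σ => ?_
  have : (∀ i ∈ J, σ i = true) ↔ J ⊆ ones σ := by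
    simp [Finset.subset_iff, ones]
  simp only [this]
  congr

end Crest.Agent.R344
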