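import Mathlib

/-!
R344 / S0539: LEMMA J (Jordan bootstrap) of helper24's #5780, abstract form (helper683).

`A`, `B` are the spectral levels of two number operators `N₁`, `N₂` with values in `0..N` on a
finite-dimensional Hilbert space, `P = A.p 0`, `Q = B.p 0`.
-/

set_option autoImplicit false

namespace Crest.Agent.R344.J

open scoped InnerProductSpace
open Finset

/-! ### levels -/

/-- spectral projections `1[n = i]` of a number operator with values in `0..N` -/
structure Lev (H : Type*) [NormedAddCommGroup H] [InnerProductSpace ℂ H] (N : ℕ) where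
  p : ℕ → (H →L[ℂ] H)
  symm : ∀ i x y, ⟪p i x, y⟫_ℂ = ⟪x, p i y⟫_ℂ
  mul_self : ∀ i x, p i (p i x) = p i x
  mul_ne : ∀ i j x, i ≠ j → p i (p j x) = 0
  sum_eq : ∀ x, ∑ i ∈ range (N + 1), p i x = x

variable {H : Type*} [NormedAddCommGroup H] [InnerProductSpace ℂ H] {N : ℕ}

namespace Lev

/-- function of the number operator -/
noncomputable def f (A : Lev H N) (φ : ℕ → ℝ) : H →L[ℂ] H :=
  ∑ i ∈ range (N + 1), ((φ i : ℝ) : ℂ) • A.p i

/-- `1[n > y]` -/
noncomputable def tail (A : Lev H N) (y : ℝ) : H →L[ℂ] H :=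
  A.f fun i => if y < (i : ℝ) then 1 else 0

lemma f_apply (A : Lev H N) (φ : ℕ → ℝ) (x : H) :
    A.f φ x = ∑ i ∈ range (N + 1), ((φ i : ℝ) : ℂ) • A.p i x := by
  simp [f]

lemma inner_p (A : Lev H N) (i j : ℕ) (x : H) (h : i ≠ j) : ⟪A.p i x, A.p j x⟫_ℂ = 0 := by
  rw [A.symm, A.mul_ne i j x h, inner_zero_right]

lemma norm_sq_f (A : Lev H N) (φ : ℕ → ℝ) (x : H) :
    ‖A.f φ x‖ ^ 2 = ∑ i ∈ range (N + 1), (φ i) ^ 2 * ‖A.p i x‖ ^ 2 := by
  have h : (⟪A.f φ x, A.f φ x⟫_ℂ) = ((∑ i ∈ range (N + 1), (φ i) ^ 2 * ‖A.p i x‖ ^ 2 : ℝ) : ℂ) := by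
    rw [f_apply, sum_inner]
    push_cast
    refine Finset.sum_congr rfl fun i hi => ?_
    rw [inner_sum, Finset.sum_eq_single i]
    · rw [inner_smul_left, inner_smul_right, inner_self_eq_norm_sq_to_K, Complex.conj_ofReal]
      simp only [Complex.coe_algebraMap]
      ring
    · intro j _ hji
      rw [inner_smul_left, inner_smul_right, A.inner_p i j x (Ne.symm hji)]
      simp
    · intro h
      exact absurd hi h
  have h2 := inner_self_eq_norm_sq_to_K (𝕜 := ℂ) (A.f φ x)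
  rw [h] at h2
  simp only [Complex.coe_algebraMap] at h2
  exact_mod_cast h2.symm

lemma f_one (A : Lev H N) (x : H) : A.f (fun _ => 1) x = x := by
  rw [f_apply]
  simp only [Complex.ofReal_one, one_smul]
  exact A.sum_eq x

lemma norm_sq (A : Lev H N) (x : H) : ‖x‖ ^ 2 = ∑ i ∈ range (N + 1), ‖A.p i x‖ ^ 2 := by
  have := A.norm_sq_f (fun _ => 1) x
  rw [f_one] at this
  simpa using this

lemma norm_f_le (A : Lev H N) (φ : ℕ → ℝ) (M : ℝ) (hM : 0 ≤ M) (h : ∀ i ≤ N, |φ i| ≤ M) (x : H) :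
    ‖A.f φ x‖ ≤ M * ‖x‖ := by
  have h2 : ‖A.f φ x‖ ^ 2 ≤ (M * ‖x‖) ^ 2 := by
    rw [norm_sq_f, mul_pow, A.norm_sq x, Finset.mul_sum]
    refine Finset.sum_le_sum fun i hi => ?_
    have h3 := h i (Nat.lt_succ_iff.mp (Finset.mem_range.mp hi))
    have h4 : (φ i) ^ 2 ≤ M ^ 2 := by
      rw [← sq_abs]
      exact pow_le_pow_left₀ (abs_nonneg _) h3 2
    exact mul_le_mul_of_nonneg_right h4 (by positivity)
  exact le_of_sq_le_sq h2 (by positivity)

/-- bound by a part on the levels `≤ X` and a part on the tail -/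
lemma norm_f_le_split (A : Lev H N) (φ : ℕ → ℝ) (m M X : ℝ) (hm : 0 ≤ m) (hM : 0 ≤ M)
    (h1 : ∀ i ≤ N, (i : ℝ) ≤ X → |φ i| ≤ m) (h2 : ∀ i ≤ N, |φ i| ≤ M) (x : H) :
    ‖A.f φ x‖ ≤ m * ‖x‖ + M * ‖A.tail X x‖ := by
  have hs : A.f φ x = A.f (fun i => if (i : ℝ) ≤ X then φ i else 0) x +
      A.f (fun i => if X < (i : ℝ) then φ i else 0) x := by
    rw [f_apply, f_apply, f_apply, ← Finset.sum_add_distrib]
    refine Finset.sum_congr rfl fun i _ => ?_
    rw [← add_smul]
    congr 1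
    by_cases h : (i : ℝ) ≤ X
    · simp [h, not_lt.mpr h]
    · simp [h, not_le.mp h]
  have ha : ‖A.f (fun i => if (i : ℝ) ≤ X then φ i else 0) x‖ ≤ m * ‖x‖ := by
    refine A.norm_f_le _ m hm (fun i hi => ?_) x
    by_cases h : (i : ℝ) ≤ X
    · simpa [h] using h1 i hi h
    · simpa [h] using hm
  have hb : ‖A.f (fun i => if X < (i : ℝ) then φ i else 0) x‖ ≤ M * ‖A.tail X x‖ := by
    have h3 : ‖A.f (fun i => if X < (i : ℝ) then φ i else 0) x‖ ^ 2 ≤ (M * ‖A.tail X x‖) ^ 2 := by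
      rw [norm_sq_f, mul_pow, tail, norm_sq_f, Finset.mul_sum]
      refine Finset.sum_le_sum fun i hi => ?_
      by_cases h : X < (i : ℝ)
      · simp only [h, if_true, one_pow, one_mul]
        have h3 := h2 i (Nat.lt_succ_iff.mp (Finset.mem_range.mp hi))
        have h4 : (φ i) ^ 2 ≤ M ^ 2 := by
          rw [← sq_abs]
          exact pow_le_pow_left₀ (abs_nonneg _) h3 2
        exact mul_le_mul_of_nonneg_right h4 (by positivity)
      · simp [h]
    exact le_of_sq_le_sq h3 (by positivity)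
  rw [hs]
  exact (norm_add_le _ _).trans (add_le_add ha hb)

lemma norm_tail_le (A : Lev H N) (y : ℝ) (x : H) : ‖A.tail y x‖ ≤ ‖x‖ := by
  have := A.norm_f_le (fun i => if y < (i : ℝ) then 1 else 0) 1 zero_le_one (fun i _ => by
    by_cases h : y < (i : ℝ) <;> simp [h]) x
  simpa [tail] using this

lemma tail_eq_zero (A : Lev H N) (y : ℝ) (hy : (N : ℝ) ≤ y) (x : H) : A.tail y x = 0 := by
  rw [tail, f_apply]
  refine Finset.sum_eq_zero fun i hi => ?_
  have h1 : (i : ℝ) ≤ N := by exact_mod_cast Nat.lt_succ_iff.mp (Finset.mem_range.mp hi)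
  have : ¬ y < (i : ℝ) := by linarith
  simp [this]

lemma norm_tail_anti (A : Lev H N) {y y' : ℝ} (h : y ≤ y') (x : H) :
    ‖A.tail y' x‖ ≤ ‖A.tail y x‖ := by
  have h2 : ‖A.tail y' x‖ ^ 2 ≤ ‖A.tail y x‖ ^ 2 := by
    rw [tail, tail, norm_sq_f, norm_sq_f]
    refine Finset.sum_le_sum fun i _ => ?_
    by_cases h1 : y' < (i : ℝ)
    · have : y < (i : ℝ) := lt_of_le_of_lt h h1
      simp [h1, this]
    · simp only [h1, if_false]
      have : (0 : ℝ) ≤ (if y < (i : ℝ) then (1 : ℝ) else 0) ^ 2 * ‖A.p i x‖ ^ 2 := by positivity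
      simpa using this
  exact le_of_sq_le_sq h2 (norm_nonneg _)

end Lev

/-! ### the spectral subspace `E` -/

lemma exists_E [FiniteDimensional ℂ H] (P Q : H →L[ℂ] H)
    (hP : ∀ x y, ⟪P x, y⟫_ℂ = ⟪x, P y⟫_ℂ) (hPP : ∀ x, P (P x) = P x)
    (hQ : ∀ x y, ⟪Q x, y⟫_ℂ = ⟪x, Q y⟫_ℂ) (hQQ : ∀ x, Q (Q x) = Q x) (ε : ℝ) (hε : 0 < ε) :
    ∃ E : Submodule ℂ H, (∀ a ∈ E, Q a = a) ∧
      (∀ a ∈ E, ∃ a' ∈ E, Q (P a') = a ∧ ‖a'‖ ≤ (ε⁻¹) ^ 2 * ‖a‖) ∧
      (∀ w, Q w = w → ∃ a ∈ E, ‖a‖ ≤ ‖w‖ ∧ ‖P (w - a)‖ ≤ ε * ‖w‖) := by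
  set T : H →ₗ[ℂ] H := ((Q ∘L P ∘L Q : H →L[ℂ] H) : H →ₗ[ℂ] H) with hTdef
  have hTapp : ∀ x, T x = Q (P (Q x)) := fun x => rfl
  have hT : T.IsSymmetric := by
    intro x y
    rw [hTapp, hTapp, hQ, hP, hQ]
  set b := hT.eigenvectorBasis rfl with hb
  set lam := hT.eigenvalues rfl with hlam
  have hev : ∀ i, Q (P (Q (b i))) = (lam i : ℂ) • b i := fun i => hT.apply_eigenvectorBasis rfl i
  have hε2 : 0 < ε ^ 2 := by positivity
  have hQb : ∀ i, ε ^ 2 ≤ lam i → Q (b i) = b i := by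
    intro i hi
    have hpos : (lam i : ℂ) ≠ 0 := by
      have : 0 < lam i := lt_of_lt_of_le hε2 hi
      exact_mod_cast this.ne'
    have h1 : Q ((lam i : ℂ) • b i) = (lam i : ℂ) • b i := by
      rw [← hev i, hQQ]
    rw [map_smul] at h1
    exact smul_right_injective H hpos h1
  -- a general expansion
  have hexp : ∀ a : H, a = ∑ i, ⟪b i, a⟫_ℂ • b i := fun a => (b.sum_repr' a).symm
  have hnorm : ∀ c : Fin (Module.finrank ℂ H) → ℂ, ‖∑ i, c i • b i‖ ^ 2 = ∑ i, ‖c i‖ ^ 2 := by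
    intro c
    have h1 : ∑ i, c i • b i = b.repr.symm (WithLp.toLp 2 c) :=
      b.sum_repr_symm (WithLp.toLp 2 c)
    rw [h1, LinearIsometryEquiv.norm_map, EuclideanSpace.norm_sq_eq]
  have hinner : ∀ (c : Fin (Module.finrank ℂ H) → ℂ) (j), ⟪b j, ∑ i, c i • b i⟫_ℂ = c j := by
    intro c j
    rw [inner_sum, Finset.sum_eq_single j]
    · rw [inner_smul_right, inner_self_eq_norm_sq_to_K, b.norm_eq_one]
      simp
    · intro i _ hij
      rw [inner_smul_right, b.inner_eq_zero (Ne.symm hij), mul_zero]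
    · intro h; exact absurd (Finset.mem_univ j) h
  let E : Submodule ℂ H :=
    { carrier := {a | ∀ i, lam i < ε ^ 2 → ⟪b i, a⟫_ℂ = 0}
      add_mem' := by
        intro x y hx hy i hi
        rw [inner_add_right, hx i hi, hy i hi, add_zero]
      zero_mem' := by
        intro i _
        exact inner_zero_right _
      smul_mem' := by
        intro c x hx i hi
        rw [inner_smul_right, hx i hi, mul_zero] }
  have hmem : ∀ a, a ∈ E ↔ ∀ i, lam i < ε ^ 2 → ⟪b i, a⟫_ℂ = 0 := fun a => Iff.rfl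
  have hE1 : ∀ a ∈ E, Q a = a := by
    intro a ha
    rw [hmem] at ha
    conv_lhs => rw [hexp a]
    conv_rhs => rw [hexp a]
    rw [map_sum]
    refine Finset.sum_congr rfl fun i _ => ?_
    rw [map_smul]
    by_cases hi : lam i < ε ^ 2
    · rw [ha i hi, zero_smul, zero_smul]
    · rw [hQb i (not_lt.mp hi)]
  refine ⟨E, hE1, ?_, ?_⟩
  · intro a ha
    have ha' := (hmem a).mp ha
    set c' : Fin (Module.finrank ℂ H) → ℂ :=
      fun i => if lam i < ε ^ 2 then 0 else (lam i : ℂ)⁻¹ * ⟪b i, a⟫_ℂ with hc'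
    set a' : H := ∑ i, c' i • b i with ha'def
    have hmem' : a' ∈ E := by
      rw [hmem]
      intro i hi
      rw [ha'def, hinner, hc']
      simp [hi]
    refine ⟨a', hmem', ?_, ?_⟩
    · have h1 : Q (P a') = Q (P (Q a')) := by rw [hE1 a' hmem']
      rw [h1, ha'def, map_sum, map_sum, map_sum]
      conv_rhs => rw [hexp a]
      refine Finset.sum_congr rfl fun i _ => ?_
      rw [map_smul, map_smul, map_smul, hev i, smul_smul]
      by_cases hi : lam i < ε ^ 2
      · rw [ha' i hi, hc']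
        simp [hi]
      · have hpos : (lam i : ℂ) ≠ 0 := by
          have : 0 < lam i := lt_of_lt_of_le hε2 (not_lt.mp hi)
          exact_mod_cast this.ne'
        rw [hc']
        simp only [hi, if_false]
        congr 1
        field_simp
    · have h2 : ‖a'‖ ^ 2 ≤ ((ε⁻¹) ^ 2 * ‖a‖) ^ 2 := by
        have h3 : ‖a‖ ^ 2 = ∑ i, ‖⟪b i, a⟫_ℂ‖ ^ 2 := by
          conv_lhs => rw [hexp a]
          exact hnorm _
        rw [ha'def, hnorm, mul_pow, h3, Finset.mul_sum]
        refine Finset.sum_le_sum fun i _ => ?_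
        by_cases hi : lam i < ε ^ 2
        · rw [hc']
          simp only [hi, if_true, norm_zero]
          rw [zero_pow two_ne_zero]
          positivity
        · rw [hc']
          simp only [hi, if_false]
          have hle : ε ^ 2 ≤ lam i := not_lt.mp hi
          have hpos : 0 < lam i := lt_of_lt_of_le hε2 hle
          rw [norm_mul, mul_pow]
          refine mul_le_mul_of_nonneg_right ?_ (by positivity)
          rw [norm_inv, Complex.norm_real, Real.norm_eq_abs, abs_of_pos hpos]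
          refine pow_le_pow_left₀ (by positivity) ?_ 2
          rw [inv_pow]
          exact inv_anti₀ hε2 hle
      exact le_of_sq_le_sq h2 (by positivity)
  · intro w hw
    set c' : Fin (Module.finrank ℂ H) → ℂ :=
      fun i => if lam i < ε ^ 2 then 0 else ⟪b i, w⟫_ℂ with hc'
    set a : H := ∑ i, c' i • b i with hadef
    have hmem' : a ∈ E := by
      rw [hmem]
      intro i hi
      rw [hadef, hinner, hc']
      simp [hi]
    have hw2 : ‖w‖ ^ 2 = ∑ i, ‖⟪b i, w⟫_ℂ‖ ^ 2 := by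
      conv_lhs => rw [hexp w]
      exact hnorm _
    refine ⟨a, hmem', ?_, ?_⟩
    · refine le_of_sq_le_sq ?_ (norm_nonneg _)
      rw [hadef, hnorm, hw2]
      refine Finset.sum_le_sum fun i _ => ?_
      by_cases hi : lam i < ε ^ 2
      · rw [hc']; simp [hi]
      · rw [hc']; simp [hi]
    · set z : H := w - a with hz
      have hQz : Q z = z := by
        rw [hz, map_sub, hw, hE1 a hmem']
      have hzexp : z = ∑ i, (if lam i < ε ^ 2 then ⟪b i, w⟫_ℂ else 0) • b i := by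
        rw [hz]
        conv_lhs => rw [hexp w]
        rw [hadef, ← Finset.sum_sub_distrib]
        refine Finset.sum_congr rfl fun i _ => ?_
        rw [hc', ← sub_smul]
        by_cases hi : lam i < ε ^ 2 <;> simp [hi]
      have h1 : (⟪P z, P z⟫_ℂ) = ⟪z, Q (P (Q z))⟫_ℂ := by
        rw [hP, hPP, ← hQ, hQz]
      have h2 : Q (P (Q z)) = ∑ i, ((lam i : ℂ) * (if lam i < ε ^ 2 then ⟪b i, w⟫_ℂ else 0)) • b i := by
        conv_lhs => rw [hzexp]
        rw [map_sum, map_sum, map_sum]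
        refine Finset.sum_congr rfl fun i _ => ?_
        rw [map_smul, map_smul, map_smul, hev i, smul_smul, mul_comm]
      have h3 : (⟪z, Q (P (Q z))⟫_ℂ) =
          ((∑ i, lam i * ‖(if lam i < ε ^ 2 then ⟪b i, w⟫_ℂ else 0 : ℂ)‖ ^ 2 : ℝ) : ℂ) := by
        rw [h2, inner_sum]
        push_cast
        refine Finset.sum_congr rfl fun i _ => ?_
        rw [inner_smul_right]
        have h4 : (⟪z, b i⟫_ℂ) = (starRingEnd ℂ) (if lam i < ε ^ 2 then ⟪b i, w⟫_ℂ else 0) := by
          rw [← inner_conj_symm, hzexp, hinner]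
        rw [h4, mul_assoc, Complex.mul_conj, Complex.normSq_eq_norm_sq]
        push_cast
        rfl
      have h5 := inner_self_eq_norm_sq_to_K (𝕜 := ℂ) (P z)
      rw [h1, h3] at h5
      simp only [Complex.coe_algebraMap] at h5
      have h6 : ‖P z‖ ^ 2 = ∑ i, lam i * ‖(if lam i < ε ^ 2 then ⟪b i, w⟫_ℂ else 0 : ℂ)‖ ^ 2 := by
        exact_mod_cast h5.symm
      refine le_of_sq_le_sq ?_ (by positivity)
      rw [h6, mul_pow, hw2, Finset.mul_sum]
      refine Finset.sum_le_sum fun i _ => ?_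
      by_cases hi : lam i < ε ^ 2
      · simp only [hi, if_true]
        exact mul_le_mul_of_nonneg_right hi.le (by positivity)
      · simp only [hi, if_false, norm_zero]
        have : (0 : ℝ) ≤ ε ^ 2 * ‖⟪b i, w⟫_ℂ‖ ^ 2 := by positivity
        simpa using this

/-! ### the half step -/

/-- the AND-polynomials in Newton form -/
def AndPoly (C : ℝ) : Prop := ∀ (X : ℕ) (L : ℝ), 1 ≤ X → 1 ≤ L →
  ∃ (d : ℕ) (c : ℕ → ℝ), (d : ℝ) ≤ C * Real.sqrt (X * L) * (Real.log X + 1) ∧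
    (∀ t, |c t| ≤ 2 ^ t) ∧
    (∑ t ∈ range (d + 1), c t * (((0 : ℕ).choose t : ℕ) : ℝ) = 1) ∧
    ∀ i : ℕ, 1 ≤ i → i ≤ X →
      |∑ t ∈ range (d + 1), c t * ((i.choose t : ℕ) : ℝ)| ≤ Real.exp (-L)

/-- the binomial operator `∑_{|J| = t} e_J` -/
noncomputable def Lev.bin (A : Lev H N) (t : ℕ) : H →L[ℂ] H := A.f fun i => ((i.choose t : ℕ) : ℝ)

/-- `∑_{|J| = t} e_J` is local with respect to the other family, on its vacuum -/
def Hyp (A B : Lev H N) (κ : ℝ) : Prop := ∀ (t : ℕ) (y : ℝ) (a : H), B.p 0 a = a →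
  ‖B.tail y (A.bin t a)‖ ≤ (N : ℝ) ^ t * Real.exp (1 + t - y / κ) * ‖a‖

lemma sum_bound (hN : 1 ≤ N) (d : ℕ) (y κ : ℝ) :
    ∑ t ∈ range (d + 1), (2 : ℝ) ^ t * ((N : ℝ) ^ t * Real.exp (1 + t - y / κ)) ≤
      Real.exp (3 * (Real.log N + 1) * d + 1 - y / κ) := by
  have hNR : (1 : ℝ) ≤ N := by exact_mod_cast hN
  have hlog : 0 ≤ Real.log N := Real.log_nonneg hNR
  have h1 : ∀ t ∈ range (d + 1), (2 : ℝ) ^ t * ((N : ℝ) ^ t * Real.exp (1 + t - y / κ)) ≤
      Real.exp ((Real.log N + 2) * d + 1 - y / κ) := by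
    intro t ht
    have htd : (t : ℝ) ≤ d := by exact_mod_cast Nat.lt_succ_iff.mp (Finset.mem_range.mp ht)
    have h2 : (2 : ℝ) ^ t ≤ Real.exp (t * 1) := by
      rw [Real.exp_nat_mul]
      refine pow_le_pow_left₀ (by norm_num) ?_ t
      have := Real.add_one_le_exp (1 : ℝ)
      linarith
    have h3 : (N : ℝ) ^ t = Real.exp (t * Real.log N) := by
      rw [Real.exp_nat_mul, Real.exp_log (by linarith)]
    rw [h3]
    calc (2 : ℝ) ^ t * (Real.exp (t * Real.log N) * Real.exp (1 + t - y / κ))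
        ≤ Real.exp (t * 1) * (Real.exp (t * Real.log N) * Real.exp (1 + t - y / κ)) :=
          mul_le_mul_of_nonneg_right h2 (by positivity)
      _ = Real.exp (t * (Real.log N + 2) + 1 - y / κ) := by
          rw [← Real.exp_add, ← Real.exp_add]
          congr 1
          ring
      _ ≤ _ := by
          apply Real.exp_le_exp.mpr
          nlinarith
  calc ∑ t ∈ range (d + 1), (2 : ℝ) ^ t * ((N : ℝ) ^ t * Real.exp (1 + t - y / κ))
      ≤ ∑ _t ∈ range (d + 1), Real.exp ((Real.log N + 2) * d + 1 - y / κ) := Finset.sum_le_sum h1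
    _ = (d + 1 : ℝ) * Real.exp ((Real.log N + 2) * d + 1 - y / κ) := by
        rw [Finset.sum_const, Finset.card_range, nsmul_eq_mul]
        push_cast
        ring
    _ ≤ Real.exp d * Real.exp ((Real.log N + 2) * d + 1 - y / κ) := by
        refine mul_le_mul_of_nonneg_right ?_ (by positivity)
        exact Real.add_one_le_exp _
    _ ≤ _ := by
        rw [← Real.exp_add]
        apply Real.exp_le_exp.mpr
        have hd : (0 : ℝ) ≤ d := by positivity
        nlinarith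

lemma half (A B : Lev H N) (hN : 1 ≤ N) {κ : ℝ} (hyp : Hyp A B κ) (d : ℕ) (c : ℕ → ℝ)
    (hc : ∀ t, |c t| ≤ 2 ^ t)
    (h0 : ∑ t ∈ range (d + 1), c t * (((0 : ℕ).choose t : ℕ) : ℝ) = 1) (X : ℕ) (L : ℝ)
    (hX : ∀ i : ℕ, 1 ≤ i → i ≤ X →
      |∑ t ∈ range (d + 1), c t * ((i.choose t : ℕ) : ℝ)| ≤ Real.exp (-L))
    (a : H) (ha : B.p 0 a = a) (y : ℝ) :
    ‖B.tail y (A.p 0 a)‖ ≤ Real.exp (-L) * ‖a‖ +
      Real.exp (3 * (Real.log N + 1) * d) * ‖A.tail X a‖ +
      Real.exp (3 * (Real.log N + 1) * d + 1 - y / κ) * ‖a‖ := by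
  have hNR : (1 : ℝ) ≤ N := by exact_mod_cast hN
  have hlog : 0 ≤ Real.log N := Real.log_nonneg hNR
  set q : ℕ → ℝ := fun i => ∑ t ∈ range (d + 1), c t * ((i.choose t : ℕ) : ℝ) with hq
  have hqN : ∀ i ≤ N, |q i| ≤ Real.exp (3 * (Real.log N + 1) * d) := by
    intro i hi
    have h1 : |q i| ≤ ∑ t ∈ range (d + 1), (2 : ℝ) ^ t * ((N : ℝ) ^ t * Real.exp (1 + t - 1)) := by
      rw [hq]
      refine (Finset.abs_sum_le_sum_abs _ _).trans (Finset.sum_le_sum fun t _ => ?_)
      rw [abs_mul, abs_of_nonneg (by positivity : (0 : ℝ) ≤ ((i.choose t : ℕ) : ℝ))]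
      refine mul_le_mul (hc t) ?_ (by positivity) (by positivity)
      have h2 : ((i.choose t : ℕ) : ℝ) ≤ (N : ℝ) ^ t := by
        have : i.choose t ≤ N ^ t := (Nat.choose_le_pow i t).trans (Nat.pow_le_pow_left hi t)
        exact_mod_cast this
      have h3 : (1 : ℝ) ≤ Real.exp (1 + t - 1) := by
        apply Real.one_le_exp
        have : (0 : ℝ) ≤ t := by positivity
        linarith
      nlinarith [pow_nonneg (by linarith : (0 : ℝ) ≤ N) t]
    refine h1.trans ?_
    have h2 := sum_bound (N := N) hN d 1 1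
    have h3 : ∀ t : ℕ, (1 : ℝ) + t - 1 / 1 = 1 + t - 1 := by intro t; ring
    simp only [h3] at h2
    refine h2.trans ?_
    apply Real.exp_le_exp.mpr
    linarith
  -- the decomposition
  set φ : ℕ → ℝ := fun i => q i - (if i = 0 then 1 else 0) with hφ
  have hdec : A.p 0 a = A.f q a - A.f φ a := by
    have h1 : A.f q a - A.f φ a = A.f (fun i => if i = 0 then 1 else 0) a := by
      rw [Lev.f_apply, Lev.f_apply, Lev.f_apply, ← Finset.sum_sub_distrib]
      refine Finset.sum_congr rfl fun i _ => ?_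
      rw [← sub_smul, hφ]
      congr 1
      push_cast
      ring
    rw [h1, Lev.f_apply, Finset.sum_eq_single 0]
    · simp
    · intro i _ hi
      simp [hi]
    · intro h
      exact absurd (Finset.mem_range.mpr (Nat.succ_pos N)) h
  have hφ1 : ∀ i ≤ N, (i : ℝ) ≤ X → |φ i| ≤ Real.exp (-L) := by
    intro i _ hiX
    rcases Nat.eq_zero_or_pos i with h | h
    · subst h
      have : φ 0 = 0 := by
        rw [hφ]
        simp only [if_true]
        rw [hq]
        simp only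
        rw [h0]
        ring
      rw [this, abs_zero]
      positivity
    · have : φ i = q i := by
        rw [hφ]
        simp [h.ne']
      rw [this]
      exact hX i h (by exact_mod_cast hiX)
  have hφ2 : ∀ i ≤ N, |φ i| ≤ Real.exp (3 * (Real.log N + 1) * d) := by
    intro i hi
    rcases Nat.eq_zero_or_pos i with h | h
    · subst h
      have : φ 0 = 0 := by
        rw [hφ]
        simp only [if_true]
        rw [hq]
        simp only
        rw [h0]
        ring
      rw [this, abs_zero]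
      positivity
    · have : φ i = q i := by
        rw [hφ]
        simp [h.ne']
      rw [this]
      exact hqN i hi
  have h1 : ‖B.tail y (A.f φ a)‖ ≤ Real.exp (-L) * ‖a‖ +
      Real.exp (3 * (Real.log N + 1) * d) * ‖A.tail X a‖ :=
    (B.norm_tail_le y _).trans
      (A.norm_f_le_split φ _ _ X (by positivity) (by positivity) hφ1 hφ2 a)
  have hqa : A.f q a = ∑ t ∈ range (d + 1), ((c t : ℝ) : ℂ) • A.bin t a := by
    rw [Lev.f_apply]
    have h2 : ∀ t, A.bin t a =
        ∑ i ∈ range (N + 1), ((((i.choose t : ℕ) : ℝ)) : ℂ) • A.p i a := fun t => A.f_apply _ a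
    simp only [h2, Finset.smul_sum]
    rw [Finset.sum_comm]
    refine Finset.sum_congr rfl fun i _ => ?_
    rw [hq]
    simp only [Complex.ofReal_sum, Finset.sum_smul, smul_smul, Complex.ofReal_mul]
  have h2 : ‖B.tail y (A.f q a)‖ ≤ Real.exp (3 * (Real.log N + 1) * d + 1 - y / κ) * ‖a‖ := by
    rw [hqa, map_sum]
    refine (norm_sum_le _ _).trans ?_
    refine le_trans ?_ (mul_le_mul_of_nonneg_right (sum_bound hN d y κ) (norm_nonneg a))
    rw [Finset.sum_mul]
    refine Finset.sum_le_sum fun t _ => ?_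
    rw [map_smul, norm_smul, Complex.norm_real, Real.norm_eq_abs, mul_assoc]
    exact mul_le_mul (hc t) (hyp t y a ha) (norm_nonneg _) (by positivity)
  rw [hdec, map_sub]
  refine (norm_sub_le _ _).trans ?_
  linarith

/-- half step with all parameters -/
lemma half_step {C : ℝ} (hpoly : AndPoly C) (hC : 1 ≤ C) (A B : Lev H N) (hN : 1 ≤ N) {κ : ℝ}
    (hκ : 1 ≤ κ) (hyp : Hyp A B κ) (K : ℝ) (hK : 400 * C ^ 2 * κ * (Real.log N + 1) ^ 4 ≤ K)
    (x M L' L0 : ℝ) (hL0' : L0 ≤ L') (hL' : 1 ≤ L')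
    (hx1 : 1 ≤ x) (hx : x * L' * K ≤ 2 * κ * M ^ 2) (hML : 10 * L' ≤ M)
    (a : H) (ha : B.p 0 a = a) (R : ℝ) (haR : ‖a‖ ≤ R)
    (hα : ‖A.tail x a‖ ≤ Real.exp (-M) * R) :
    ‖B.tail (2 * κ * M) (A.p 0 a)‖ ≤ Real.exp (-(L' + 2 * L0)) * R := by
  have hNR : (1 : ℝ) ≤ N := by exact_mod_cast hN
  have hlog : 0 ≤ Real.log N := Real.log_nonneg hNR
  have hR : 0 ≤ R := (norm_nonneg a).trans haR
  have hM : 0 ≤ M := by linarith
  set Λ : ℝ := Real.log N + 1 with hΛ
  have hΛ1 : 1 ≤ Λ := by linarith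
  -- the natural threshold
  obtain ⟨X, hX1, hXN, hXx, hXtail⟩ : ∃ X : ℕ, 1 ≤ X ∧ X ≤ N ∧ (X : ℝ) ≤ x ∧
      ‖A.tail X a‖ ≤ Real.exp (-M) * R := by
    by_cases h : (N : ℝ) ≤ x
    · refine ⟨N, hN, le_rfl, h, ?_⟩
      rw [A.tail_eq_zero N le_rfl, norm_zero]
      positivity
    · have h' : x < N := not_le.mp h
      refine ⟨⌊x⌋₊, Nat.le_floor (by simpa using hx1), ?_, Nat.floor_le (by linarith), ?_⟩
      · have : (⌊x⌋₊ : ℝ) ≤ N := (Nat.floor_le (by linarith)).trans h'.le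
        exact_mod_cast this
      · have h2 : A.tail (⌊x⌋₊ : ℝ) = A.tail x := by
          unfold Lev.tail
          congr 1
          funext i
          have h3 : ((⌊x⌋₊ : ℝ) < (i : ℝ)) ↔ x < (i : ℝ) := by
            rw [Nat.cast_lt]
            exact Nat.floor_lt (by linarith)
          by_cases h4 : x < (i : ℝ)
          · simp [h3.mpr h4, h4]
          · have : ¬ ((⌊x⌋₊ : ℝ) < (i : ℝ)) := fun h5 => h4 (h3.mp h5)
            simp [this, h4]
        rw [h2]
        exact hα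
  obtain ⟨d, c, hd, hc, h0, hq⟩ := hpoly X (5 * L') hX1 (by linarith)
  have hmain := half A B hN hyp d c hc h0 X (5 * L') hq a ha (2 * κ * M)
  rw [← hΛ] at hmain
  -- bound of the degree
  have hXR : (1 : ℝ) ≤ X := by exact_mod_cast hX1
  have hlogX : Real.log X + 1 ≤ Λ := by
    have : Real.log X ≤ Real.log N := Real.log_le_log (by linarith) (by exact_mod_cast hXN)
    linarith
  have hlogX0 : 0 ≤ Real.log X + 1 := by
    have := Real.log_nonneg hXR
    linarith
  have hsq : (6 * C * Λ ^ 2) * Real.sqrt (X * (5 * L')) ≤ M := by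
    have h1 : Real.sqrt (X * (5 * L')) ≤ M / (6 * C * Λ ^ 2) := by
      rw [Real.sqrt_le_left (by positivity), div_pow, le_div_iff₀ (by positivity)]
      have h2 : (X : ℝ) * (5 * L') * (6 * C * Λ ^ 2) ^ 2 ≤ x * (5 * L') * (6 * C * Λ ^ 2) ^ 2 := by
        gcongr
      refine h2.trans ?_
      have h4 : 5 * (6 * C * Λ ^ 2) ^ 2 * (2 * κ) ≤ K := by
        refine le_trans ?_ hK
        have h7 : (0 : ℝ) ≤ C ^ 2 * κ * Λ ^ 4 := by positivity
        nlinarith
      have h3 : x * (5 * L') * (6 * C * Λ ^ 2) ^ 2 * (2 * κ) ≤ x * L' * K := by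
        calc x * (5 * L') * (6 * C * Λ ^ 2) ^ 2 * (2 * κ)
            = x * L' * (5 * (6 * C * Λ ^ 2) ^ 2 * (2 * κ)) := by ring
          _ ≤ x * L' * K := mul_le_mul_of_nonneg_left h4 (by positivity)
      have h5 := h3.trans hx
      have h6 : (0 : ℝ) < 2 * κ := by linarith
      have h8 : 2 * κ * (x * (5 * L') * (6 * C * Λ ^ 2) ^ 2) ≤ 2 * κ * M ^ 2 := by linarith
      exact le_of_mul_le_mul_left h8 h6
    rw [le_div_iff₀ (by positivity)] at h1
    linarith
  have hdM : 3 * Λ * d ≤ M / 2 := by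
    have h1 : (d : ℝ) ≤ C * Real.sqrt (X * (5 * L')) * Λ :=
      hd.trans (mul_le_mul_of_nonneg_left hlogX (by positivity))
    have h2 : 3 * Λ * d ≤ 3 * Λ * (C * Real.sqrt (X * (5 * L')) * Λ) :=
      mul_le_mul_of_nonneg_left h1 (by positivity)
    have h3 : 3 * Λ * (C * Real.sqrt (X * (5 * L')) * Λ) =
        ((6 * C * Λ ^ 2) * Real.sqrt (X * (5 * L'))) / 2 := by ring
    rw [h3] at h2
    linarith
  -- assemble
  have t1 : Real.exp (-(5 * L')) * ‖a‖ ≤ Real.exp (-(5 * L')) * R :=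
    mul_le_mul_of_nonneg_left haR (by positivity)
  have t2 : Real.exp (3 * Λ * d) * ‖A.tail X a‖ ≤ Real.exp (-(5 * L')) * R := by
    calc Real.exp (3 * Λ * d) * ‖A.tail X a‖ ≤ Real.exp (3 * Λ * d) * (Real.exp (-M) * R) :=
          mul_le_mul_of_nonneg_left hXtail (by positivity)
      _ = Real.exp (3 * Λ * d + -M) * R := by rw [Real.exp_add]; ring
      _ ≤ _ := by
          refine mul_le_mul_of_nonneg_right ?_ hR
          apply Real.exp_le_exp.mpr
          linarith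
  have t3 : Real.exp (3 * Λ * d + 1 - 2 * κ * M / κ) * ‖a‖ ≤ Real.exp (-(5 * L')) * R := by
    refine mul_le_mul ?_ haR (norm_nonneg a) (by positivity)
    apply Real.exp_le_exp.mpr
    have h1 : 2 * κ * M / κ = 2 * M := by field_simp
    rw [h1]
    linarith
  have t4 : 3 * Real.exp (-(5 * L')) ≤ Real.exp (-(L' + 2 * L0)) := by
    have h1 : (3 : ℝ) ≤ Real.exp (2 * L') := by
      have := Real.add_one_le_exp (2 * L')
      linarith
    calc 3 * Real.exp (-(5 * L')) ≤ Real.exp (2 * L') * Real.exp (-(5 * L')) :=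
          mul_le_mul_of_nonneg_right h1 (by positivity)
      _ = Real.exp (2 * L' + -(5 * L')) := by rw [Real.exp_add]
      _ ≤ _ := by
          apply Real.exp_le_exp.mpr
          linarith
  calc ‖B.tail (2 * κ * M) (A.p 0 a)‖ ≤ _ := hmain
    _ ≤ Real.exp (-(5 * L')) * R + Real.exp (-(5 * L')) * R + Real.exp (-(5 * L')) * R :=
        add_le_add (add_le_add t1 t2) t3
    _ = 3 * Real.exp (-(5 * L')) * R := by ring
    _ ≤ _ := mul_le_mul_of_nonneg_right t4 hR

/-! ### Lemma J -/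

/-- triangular numbers -/
def tri (i : ℕ) : ℕ := ∑ j ∈ range i, (j + 1)

lemma tri_succ (i : ℕ) : tri (i + 1) = tri i + (i + 1) := by
  unfold tri
  rw [Finset.sum_range_succ]

lemma tri_mono {i j : ℕ} (h : i ≤ j) : tri i ≤ tri j := by
  unfold tri
  exact Finset.sum_le_sum_of_subset (Finset.range_mono h)

lemma two_mul_tri (i : ℕ) : 2 * tri i = i * (i + 1) := by
  induction i with
  | zero => simp [tri]
  | succ i ih => rw [tri_succ, mul_add, ih]; ring

/-- LEMMA J (Jordan bootstrap) -/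
theorem jordan [FiniteDimensional ℂ H] {C : ℝ} (hpoly : AndPoly C) (hC : 1 ≤ C)
    (A B : Lev H N) (hN : 1 ≤ N) {κ : ℝ} (hκ : 1 ≤ κ) (h12 : Hyp A B κ) (h21 : Hyp B A κ)
    (s : ℕ) (K : ℝ) (hK : 400 * C ^ 2 * κ * (Real.log N + 1) ^ 4 ≤ K)
    (hKN : (N : ℝ) ^ 2 ≤ K ^ ((s + 1) * (s + 2))) (L : ℝ) (hL : 1 ≤ L) (y : ℝ)
    (hy : K ^ (s + 2) * L ≤ y) (v : H) :
    ‖B.tail y (A.p 0 (B.p 0 v))‖ ≤ 2 * Real.exp (-L) * ‖v‖ := by
  have hNR : (1 : ℝ) ≤ N := by exact_mod_cast hN
  have hlog : 0 ≤ Real.log N := Real.log_nonneg hNR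
  have hK400 : 400 * κ ≤ K := by
    refine le_trans ?_ hK
    have h1 : (1 : ℝ) ≤ C ^ 2 := one_le_pow₀ hC
    have h2 : (1 : ℝ) ≤ (Real.log N + 1) ^ 4 := one_le_pow₀ (by linarith)
    have h3 : (1 : ℝ) ≤ C ^ 2 * (Real.log N + 1) ^ 4 := by nlinarith
    nlinarith
  have hK1 : (1 : ℝ) ≤ K := by linarith
  have hK0 : (0 : ℝ) < K := by linarith
  obtain ⟨E, hE1, hE2, hE3⟩ := exists_E (A.p 0) (B.p 0) (A.symm 0) (A.mul_self 0) (B.symm 0)
    (B.mul_self 0) (Real.exp (-L)) (Real.exp_pos _)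
  -- the levels
  set M : ℕ → ℝ := fun i => L * K ^ (tri (s + 1)) / K ^ (tri i) with hM
  have hMsucc : ∀ i, M i = M (i + 1) * K ^ (i + 1) := by
    intro i
    simp only [hM, tri_succ, pow_add]
    have h1 : K ^ tri i ≠ 0 := by positivity
    have h2 : K ^ i ≠ 0 := by positivity
    field_simp
  have hMge : ∀ i, i ≤ s + 1 → L ≤ M i := by
    intro i hi
    simp only [hM]
    rw [le_div_iff₀ (by positivity)]
    have : K ^ tri i ≤ K ^ tri (s + 1) := pow_le_pow_right₀ hK1 (tri_mono hi)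
    exact mul_le_mul_of_nonneg_left this (by linarith)
  have hM0 : (N : ℝ) ≤ M 0 := by
    simp only [hM]
    have h1 : tri 0 = 0 := rfl
    rw [h1, pow_zero, div_one]
    have h2 : (N : ℝ) ≤ K ^ tri (s + 1) := by
      have h3 : (N : ℝ) ^ 2 ≤ (K ^ tri (s + 1)) ^ 2 := by
        rw [← pow_mul, mul_comm (tri (s + 1)) 2, two_mul_tri]
        exact hKN
      exact le_of_sq_le_sq h3 (by positivity)
    nlinarith
  have hMs1 : M (s + 1) = L := by
    simp only [hM]
    field_simp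
  have hMpos : ∀ i, 0 < M i := by
    intro i
    simp only [hM]
    positivity
  have key : ∀ i, i ≤ s → (∀ a ∈ E, ‖A.tail (2 * κ * M i) a‖ ≤ Real.exp (-M (i + 1)) * ‖a‖) ∧
      (∀ a ∈ E, ‖B.tail (2 * κ * M i) (A.p 0 a)‖ ≤ Real.exp (-M (i + 1)) * ‖a‖) := by
    intro i
    induction i with
    | zero =>
      intro _
      have h1 : (N : ℝ) ≤ 2 * κ * M 0 := by nlinarith
      constructor
      · intro a _
        rw [A.tail_eq_zero _ h1, norm_zero]
        positivity
      · intro a _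
        rw [B.tail_eq_zero _ h1, norm_zero]
        positivity
    | succ i ih =>
      intro hi
      obtain ⟨ihA, ihB⟩ := ih (by omega)
      have hL2 : L ≤ M (i + 2) := hMge (i + 2) (by omega)
      have hm1 := hMsucc i
      have hm2 := hMsucc (i + 1)
      have hp2 := hMpos (i + 2)
      have hp1 := hMpos (i + 1)
      have hx1 : 1 ≤ 2 * κ * M i := by
        have := hMge i (by omega)
        nlinarith
      have hx : 2 * κ * M i * M (i + 2) * K ≤ 2 * κ * M (i + 1) ^ 2 := by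
        have h1 : M i * M (i + 2) * K = M (i + 1) ^ 2 := by
          have h3 : M (i + 1) ^ 2 = M (i + 1) * (M (i + 2) * K ^ (i + 2)) := by
            rw [sq]
            congr 1
          rw [hm1, h3]
          ring
        have h2 : 2 * κ * M i * M (i + 2) * K = 2 * κ * (M i * M (i + 2) * K) := by ring
        rw [h2, h1]
      have hML : 10 * M (i + 2) ≤ M (i + 1) := by
        rw [hm2]
        have h1 : K ≤ K ^ (i + 1 + 1) := by
          calc K = K ^ 1 := (pow_one K).symm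
            _ ≤ _ := pow_le_pow_right₀ hK1 (by omega)
        have h2 : 10 ≤ K ^ (i + 1 + 1) := by linarith
        have h3 : M (i + 1 + 1) = M (i + 2) := rfl
        nlinarith
      constructor
      · intro a haE
        obtain ⟨a', ha'E, ha', hna'⟩ := hE2 a haE
        have hb : A.p 0 (A.p 0 a') = A.p 0 a' := A.mul_self 0 a'
        have hbn : ‖A.p 0 a'‖ ≤ ‖a'‖ := by
          have h1 := A.norm_sq a'
          have h2 : ‖A.p 0 a'‖ ^ 2 ≤ ‖a'‖ ^ 2 := by
            rw [h1]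
            exact Finset.single_le_sum (f := fun i => ‖A.p i a'‖ ^ 2)
              (fun i _ => by positivity) (Finset.mem_range.mpr (Nat.succ_pos N))
          exact le_of_sq_le_sq h2 (norm_nonneg _)
        have h3 := half_step hpoly hC B A hN hκ h21 K hK (2 * κ * M i) (M (i + 1)) (M (i + 2)) L
          hL2 (hL.trans hL2) hx1 hx hML (A.p 0 a') hb ‖a'‖ hbn (ihB a' ha'E)
        rw [ha'] at h3
        refine h3.trans ?_
        calc Real.exp (-(M (i + 2) + 2 * L)) * ‖a'‖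
            ≤ Real.exp (-(M (i + 2) + 2 * L)) * (((Real.exp (-L))⁻¹) ^ 2 * ‖a‖) :=
              mul_le_mul_of_nonneg_left hna' (by positivity)
          _ = Real.exp (-M (i + 1 + 1)) * ‖a‖ := by
              rw [← mul_assoc]
              congr 1
              rw [← Real.exp_neg, ← Real.exp_nat_mul, ← Real.exp_add]
              congr 1
              push_cast
              ring
      · intro a haE
        have h3 := half_step hpoly hC A B hN hκ h12 K hK (2 * κ * M i) (M (i + 1)) (M (i + 2)) 0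
          (by linarith) (hL.trans hL2) hx1 hx hML a (hE1 a haE) ‖a‖ le_rfl (ihA a haE)
        simpa using h3
  -- conclusion
  obtain ⟨_, hB⟩ := key s le_rfl
  rw [hMs1] at hB
  set w : H := B.p 0 v with hw
  have hQw : B.p 0 w = w := by rw [hw, B.mul_self]
  have hwn : ‖w‖ ≤ ‖v‖ := by
    have h1 := B.norm_sq v
    have h2 : ‖B.p 0 v‖ ^ 2 ≤ ‖v‖ ^ 2 := by
      rw [h1]
      exact Finset.single_le_sum (f := fun i => ‖B.p i v‖ ^ 2)
        (fun i _ => by positivity) (Finset.mem_range.mpr (Nat.succ_pos N))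
    exact le_of_sq_le_sq h2 (norm_nonneg _)
  obtain ⟨a, haE, haw, hPa⟩ := hE3 w hQw
  have hMs : M s = L * K ^ (s + 1) := by rw [hMsucc s, hMs1]
  have hthr : 2 * κ * M s ≤ y := by
    refine le_trans ?_ hy
    rw [hMs, pow_succ K (s + 1)]
    have h1 : (0 : ℝ) ≤ K ^ (s + 1) * L := by positivity
    nlinarith
  have hdec : A.p 0 w = A.p 0 (w - a) + A.p 0 a := by
    rw [← map_add, sub_add_cancel]
  rw [hdec, map_add]
  refine (norm_add_le _ _).trans ?_
  have h1 : ‖B.tail y (A.p 0 (w - a))‖ ≤ Real.exp (-L) * ‖v‖ :=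
    (B.norm_tail_le y _).trans (hPa.trans (mul_le_mul_of_nonneg_left hwn (by positivity)))
  have h2 : ‖B.tail y (A.p 0 a)‖ ≤ Real.exp (-L) * ‖v‖ :=
    (B.norm_tail_anti hthr _).trans ((hB a haE).trans
      (mul_le_mul_of_nonneg_left (haw.trans hwn) (by positivity)))
  linarith

end Crest.Agent.R344.J
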