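import Mathlib

/-! R344, block POLY: the AND polynomial in the Newton basis (helper162). -/

set_option autoImplicit false
open Finset Polynomial

namespace Crest.Agent.R344

/-- value at the natural number `x` of the polynomial with Newton coefficients `c` -/
def qv (c : ℕ → ℝ) (d x : ℕ) : ℝ := ∑ t ∈ range (d + 1), c t * (x.choose t : ℝ)

lemma abs_qv_le (c : ℕ → ℝ) (hc : ∀ t, |c t| ≤ 2 ^ t) (d x : ℕ) :
    |qv c d x| ≤ (2 * (x + 1) : ℝ) ^ d * (d + 1) := by
  unfold qv
  refine (Finset.abs_sum_le_sum_abs _ _).trans ?_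
  have h1 : ∀ t ∈ range (d + 1), |c t * (x.choose t : ℝ)| ≤ (2 * (x + 1) : ℝ) ^ d := by
    intro t ht
    rw [Finset.mem_range] at ht
    rw [abs_mul, Nat.abs_cast]
    have h2 : (x.choose t : ℝ) ≤ (x + 1 : ℝ) ^ t := by
      have h3 : x.choose t ≤ (x + 1) ^ t :=
        (Nat.choose_le_pow x t).trans (Nat.pow_le_pow_left (Nat.le_succ x) t)
      exact_mod_cast h3
    have h5 : (1 : ℝ) ≤ 2 * (x + 1) := by
      have : (0 : ℝ) ≤ x := Nat.cast_nonneg x
      linarith
    calc |c t| * (x.choose t : ℝ) ≤ 2 ^ t * (x + 1 : ℝ) ^ t := by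
          apply mul_le_mul (hc t) h2 (Nat.cast_nonneg _) (by positivity)
      _ = (2 * (x + 1) : ℝ) ^ t := by rw [mul_pow]
      _ ≤ (2 * (x + 1) : ℝ) ^ d := pow_le_pow_right₀ h5 (by omega)
  have h6 := Finset.sum_le_card_nsmul _ _ _ h1
  rw [Finset.card_range, nsmul_eq_mul] at h6
  refine h6.trans (le_of_eq ?_)
  push_cast
  ring

/-- Newton coefficients of a real polynomial -/
lemma newton (P : ℝ[X]) (d : ℕ) (hd : P.natDegree ≤ d) (x : ℕ) :
    P.eval (x : ℝ) = qv (fun t => ((fwdDiff (1 : ℝ))^[t] P.eval 0)) d x := by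
  have h := shift_eq_sum_fwdDiff_iter (1 : ℝ) P.eval x 0
  rw [zero_add, nsmul_eq_mul, mul_one] at h
  rw [h]
  unfold qv
  have key : ∀ n : ℕ, ∑ k ∈ range (n + 1), x.choose k • ((fwdDiff (1 : ℝ))^[k] P.eval 0) =
      ∑ k ∈ range (n + 1), ((fwdDiff (1 : ℝ))^[k] P.eval 0) * (x.choose k : ℝ) := by
    intro n
    apply Finset.sum_congr rfl
    intro k _
    rw [nsmul_eq_mul, mul_comm]
  rw [key]
  -- both sums equal the sum up to max
  have hz : ∀ k, k ∉ range (x + 1) → ((fwdDiff (1 : ℝ))^[k] P.eval 0) * (x.choose k : ℝ) = 0 := by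
    intro k hk
    rw [Finset.mem_range, not_lt] at hk
    rw [Nat.choose_eq_zero_of_lt (by omega)]
    simp
  have hz' : ∀ k, k ∉ range (d + 1) → ((fwdDiff (1 : ℝ))^[k] P.eval 0) * (x.choose k : ℝ) = 0 := by
    intro k hk
    rw [Finset.mem_range, not_lt] at hk
    have h2 : P.natDegree < k := by omega
    rw [Polynomial.fwdDiff_iter_eq_zero_of_degree_lt h2]
    simp
  have e1 : ∑ k ∈ range (x + 1), ((fwdDiff (1 : ℝ))^[k] P.eval 0) * (x.choose k : ℝ) =
      ∑ k ∈ range (max x d + 1), ((fwdDiff (1 : ℝ))^[k] P.eval 0) * (x.choose k : ℝ) := by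
    apply Finset.sum_subset
    · intro k hk
      rw [Finset.mem_range] at hk ⊢
      have := le_max_left x d
      omega
    · intro k _ hk
      exact hz k hk
  have e2 : ∑ k ∈ range (d + 1), ((fwdDiff (1 : ℝ))^[k] P.eval 0) * (x.choose k : ℝ) =
      ∑ k ∈ range (max x d + 1), ((fwdDiff (1 : ℝ))^[k] P.eval 0) * (x.choose k : ℝ) := by
    apply Finset.sum_subset
    · intro k hk
      rw [Finset.mem_range] at hk ⊢
      have := le_max_right x d
      omega
    · intro k _ hk
      exact hz' k hk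
  rw [e1, e2]

/-- bound for the Newton coefficients from the values at `0, …, d` -/
lemma newton_coeff_le (P : ℝ[X]) (t : ℕ) (h : ∀ i ≤ t, |P.eval (i : ℝ)| ≤ 1) :
    |((fwdDiff (1 : ℝ))^[t] P.eval 0)| ≤ 2 ^ t := by
  rw [fwdDiff_iter_eq_sum_shift]
  refine (Finset.abs_sum_le_sum_abs _ _).trans ?_
  have h1 : ∀ k ∈ range (t + 1),
      |((-1 : ℤ) ^ (t - k) * (t.choose k : ℤ)) • P.eval ((0 : ℝ) + k • (1 : ℝ))| ≤
        (t.choose k : ℝ) := by
    intro k hk
    rw [Finset.mem_range] at hk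
    rw [zsmul_eq_mul, abs_mul, zero_add, nsmul_eq_mul, mul_one]
    push_cast
    rw [abs_mul, abs_pow, abs_neg, abs_one, one_pow, one_mul, Nat.abs_cast]
    have := h k (by omega)
    have h0 : (0 : ℝ) ≤ t.choose k := Nat.cast_nonneg _
    nlinarith
  refine (Finset.sum_le_sum h1).trans (le_of_eq ?_)
  have := Nat.sum_range_choose t
  exact_mod_cast this

/-- growth of the Chebyshev polynomials -/
lemma cheb_ge (m : ℕ) (u t : ℝ) (ht : 0 ≤ t) (hu : Real.cosh t ≤ u) :
    (1 / 2) * Real.exp (m * t) ≤ (Polynomial.Chebyshev.T ℝ m).eval u := by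
  have h1 : 1 ≤ u := (Real.one_le_cosh t).trans hu
  obtain ⟨θ, hθ0, hθ⟩ : ∃ θ : ℝ, 0 ≤ θ ∧ Real.cosh θ = u := by
    refine ⟨Real.arcosh u, Real.arcosh_nonneg h1, Real.cosh_arcosh h1⟩
  have h2 : t ≤ θ := by
    have h3 : Real.cosh t ≤ Real.cosh θ := by rw [hθ]; exact hu
    rw [Real.cosh_le_cosh, abs_of_nonneg ht, abs_of_nonneg hθ0] at h3
    exact h3
  have h4 := Polynomial.Chebyshev.T_real_cosh θ (m : ℤ)
  rw [hθ] at h4
  rw [h4, Real.cosh_eq]
  push_cast
  have h5 : Real.exp (m * t) ≤ Real.exp (m * θ) := by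
    apply Real.exp_le_exp.2
    exact mul_le_mul_of_nonneg_left h2 (Nat.cast_nonneg m)
  have h6 := Real.exp_pos (-(m * θ))
  linarith

theorem and_poly_big (X a m : ℕ) (L : ℝ) (ha : 1 ≤ a) (haX : 2 * a ≤ X)
    (hm : L + a * Real.log X + 1 ≤ m * Real.sqrt (a / X)) (hL : 0 ≤ L) (hd : a + m ≤ X) :
    ∃ c : ℕ → ℝ, (∀ t, |c t| ≤ 2 ^ t) ∧ qv c (a + m) 0 = 1 ∧
      ∀ i, 1 ≤ i → i ≤ X → |qv c (a + m) i| ≤ Real.exp (-L) := by
  have hX0 : (0 : ℝ) < X := by
    have : 0 < X := by omega
    exact_mod_cast this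
  have ha0 : (0 : ℝ) < a := by exact_mod_cast ha
  have haXr : 2 * (a : ℝ) ≤ X := by exact_mod_cast haX
  have hXa : (0 : ℝ) < X - a := by linarith
  -- the polynomial
  set A : ℝ[X] := ∏ i ∈ Finset.Icc 1 a, (1 - C (1 / (i : ℝ)) * Polynomial.X) with hA
  set u : ℝ → ℝ := fun x => (X + a) / (X - a) - 2 / (X - a) * x with hu
  set lin : ℝ[X] := C (((X : ℝ) + a) / (X - a)) - C (2 / ((X : ℝ) - a)) * Polynomial.X with hlin
  set D : ℝ := (Polynomial.Chebyshev.T ℝ m).eval (u 0) with hD
  set P : ℝ[X] := A * ((Polynomial.Chebyshev.T ℝ m).comp lin) * C (1 / D) with hP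
  have hlin_eval : ∀ x : ℝ, lin.eval x = u x := by
    intro x
    rw [hlin, hu]
    simp
  have hPe : ∀ x : ℝ, P.eval x = (∏ i ∈ Finset.Icc 1 a, (1 - 1 / (i : ℝ) * x)) *
      (Polynomial.Chebyshev.T ℝ m).eval (u x) * (1 / D) := by
    intro x
    rw [hP, Polynomial.eval_mul, Polynomial.eval_mul, Polynomial.eval_comp, hlin_eval, hA,
      Polynomial.eval_prod]
    simp
  -- size of D
  set t : ℝ := Real.sqrt (a / X) with ht
  have hax : (a : ℝ) / X ≤ 1 / 2 := by
    rw [div_le_iff₀ hX0]
    linarith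
  have hax0 : 0 ≤ (a : ℝ) / X := by positivity
  have hcosh : Real.cosh t ≤ u 0 := by
    have h1 := Real.cosh_le_exp_half_sq t
    have h2 : t ^ 2 = a / X := by
      rw [ht]
      exact Real.sq_sqrt hax0
    rw [h2] at h1
    refine h1.trans ?_
    have h3 : Real.exp (a / X / 2) ≤ 1 + 2 * (a / X / 2) := by
      have h4 : |(a : ℝ) / X / 2| ≤ 1 := by
        rw [abs_of_nonneg (by positivity)]
        linarith
      have h5 := Real.abs_exp_sub_one_sub_id_le h4
      rw [abs_le] at h5
      nlinarith [h5.2]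
    refine h3.trans ?_
    simp only [hu, mul_zero, sub_zero]
    rw [le_div_iff₀ hXa]
    have h6 : (1 + 2 * ((a : ℝ) / X / 2)) * (X - a) = X - a + a - a * (a / X) := by
      field_simp
      ring
    rw [h6]
    have : 0 ≤ (a : ℝ) * (a / X) := by positivity
    linarith
  have hDge : (1 / 2) * Real.exp (m * t) ≤ D := cheb_ge m (u 0) t (Real.sqrt_nonneg _) hcosh
  have hD0 : 0 < D := lt_of_lt_of_le (by positivity) hDge
  have hdeg : P.natDegree ≤ a + m := by
    rw [hP]
    refine (Polynomial.natDegree_mul_C_le _ _).trans ?_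
    refine (Polynomial.natDegree_mul_le).trans ?_
    apply Nat.add_le_add
    · rw [hA]
      refine (Polynomial.natDegree_prod_le _ _).trans ?_
      have h1 : ∀ i ∈ Finset.Icc 1 a,
          (1 - C (1 / (i : ℝ)) * (Polynomial.X : ℝ[X])).natDegree ≤ 1 := by
        intro i _
        refine (Polynomial.natDegree_sub_le _ _).trans ?_
        simp only [Polynomial.natDegree_one, max_le_iff]
        refine ⟨Nat.zero_le _, ?_⟩
        exact (Polynomial.natDegree_C_mul_le _ _).trans (by simp)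
      refine (Finset.sum_le_card_nsmul _ _ _ h1).trans ?_
      simp
    · refine (Polynomial.natDegree_comp_le).trans ?_
      rw [Polynomial.Chebyshev.natDegree_T]
      have h1 : lin.natDegree ≤ 1 := by
        rw [hlin]
        refine (Polynomial.natDegree_sub_le _ _).trans ?_
        simp only [Polynomial.natDegree_C, max_le_iff]
        refine ⟨Nat.zero_le _, ?_⟩
        exact (Polynomial.natDegree_C_mul_le _ _).trans (by simp)
      simp only [Int.natAbs_natCast]
      nlinarith
  -- values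
  have v0 : P.eval ((0 : ℕ) : ℝ) = 1 := by
    rw [hPe]
    simp only [Nat.cast_zero, mul_zero, sub_zero, Finset.prod_const_one, one_mul]
    rw [← hD]
    field_simp
  have vi : ∀ i : ℕ, 1 ≤ i → i ≤ X → |P.eval (i : ℝ)| ≤ Real.exp (-L) := by
    intro i hi1 hiX
    rw [hPe]
    by_cases hia : i ≤ a
    · have : ∏ j ∈ Finset.Icc 1 a, (1 - 1 / (j : ℝ) * (i : ℝ)) = 0 := by
        apply Finset.prod_eq_zero (Finset.mem_Icc.2 ⟨hi1, hia⟩)
        have : (i : ℝ) ≠ 0 := by
          have : i ≠ 0 := by omega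
          exact_mod_cast this
        field_simp
        ring
      rw [this]
      simp [Real.exp_nonneg]
    · push Not at hia
      have hir : (a : ℝ) < i := by exact_mod_cast hia
      have hiXr : (i : ℝ) ≤ X := by exact_mod_cast hiX
      have h1 : |∏ j ∈ Finset.Icc 1 a, (1 - 1 / (j : ℝ) * (i : ℝ))| ≤ (X : ℝ) ^ a := by
        rw [Finset.abs_prod]
        have h2 : ∀ j ∈ Finset.Icc 1 a, |1 - 1 / (j : ℝ) * (i : ℝ)| ≤ X := by
          intro j hj
          rw [Finset.mem_Icc] at hj
          have hj1 : (1 : ℝ) ≤ j := by exact_mod_cast hj.1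
          have hji : (j : ℝ) ≤ i := by
            have : j ≤ i := by omega
            exact_mod_cast this
          have h3 : 1 ≤ 1 / (j : ℝ) * i := by
            rw [one_div, inv_mul_eq_div, le_div_iff₀ (by linarith)]
            linarith
          rw [abs_of_nonpos (by linarith)]
          have h4 : 1 / (j : ℝ) * i ≤ i := by
            rw [one_div, inv_mul_eq_div]
            exact div_le_self (by linarith) hj1
          linarith
        calc ∏ j ∈ Finset.Icc 1 a, |1 - 1 / (j : ℝ) * (i : ℝ)|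
            ≤ ∏ j ∈ Finset.Icc 1 a, (X : ℝ) := Finset.prod_le_prod (fun _ _ => abs_nonneg _) h2
          _ = (X : ℝ) ^ a := by rw [Finset.prod_const, Nat.card_Icc]; simp
      have h5 : |(Polynomial.Chebyshev.T ℝ m).eval (u i)| ≤ 1 := by
        apply Polynomial.Chebyshev.abs_eval_T_real_le_one
        have e1 : u i = ((X : ℝ) + a - 2 * i) / (X - a) := by
          simp only [hu]
          field_simp
        rw [e1, abs_div, abs_of_pos hXa, div_le_one hXa, abs_le]
        constructor <;> linarith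
      rw [abs_mul, abs_mul, abs_of_pos (one_div_pos.2 hD0)]
      have h6 : 1 / D ≤ 2 * Real.exp (-(m * t)) := by
        rw [div_le_iff₀ hD0]
        calc (1 : ℝ) = 2 * Real.exp (-(m * t)) * ((1 / 2) * Real.exp (m * t)) := by
              have := Real.exp_ne_zero (m * t)
              rw [Real.exp_neg]
              field_simp
          _ ≤ 2 * Real.exp (-(m * t)) * D := by gcongr
      have h7 : (X : ℝ) ^ a = Real.exp (a * Real.log X) := by
        rw [mul_comm, Real.exp_mul, Real.exp_log hX0, Real.rpow_natCast]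
      calc |∏ j ∈ Finset.Icc 1 a, (1 - 1 / (j : ℝ) * (i : ℝ))| *
            |(Polynomial.Chebyshev.T ℝ m).eval (u i)| * (1 / D)
          ≤ (X : ℝ) ^ a * 1 * (2 * Real.exp (-(m * t))) := by
            gcongr
        _ = 2 * Real.exp (a * Real.log X - m * t) := by
            rw [h7, sub_eq_add_neg, Real.exp_add]
            ring
        _ ≤ 2 * Real.exp (-L - 1) := by
            have : Real.exp (a * Real.log X - m * t) ≤ Real.exp (-L - 1) :=
              Real.exp_le_exp.2 (by linarith)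
            linarith
        _ ≤ Real.exp (-L) := by
            rw [sub_eq_add_neg, Real.exp_add]
            have h8 : Real.exp (-1) ≤ 1 / 2 := by
              rw [Real.exp_neg, inv_le_comm₀ (Real.exp_pos _) (by norm_num)]
              have := Real.add_one_le_exp (1 : ℝ)
              linarith
            have := Real.exp_pos (-L)
            nlinarith
  refine ⟨fun t => if t ≤ a + m then ((fwdDiff (1 : ℝ))^[t] P.eval 0) else 0, ?_, ?_, ?_⟩
  · intro t
    dsimp only
    split_ifs with h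
    · apply newton_coeff_le
      intro i hi
      rcases Nat.eq_zero_or_pos i with rfl | hi0
      · rw [v0]; simp
      · refine (vi i hi0 (by omega)).trans ?_
        rw [Real.exp_le_one_iff]
        linarith
    · simp only [abs_zero]
      positivity
  all_goals
    have e : ∀ x, qv (fun t => if t ≤ a + m then ((fwdDiff (1 : ℝ))^[t] P.eval 0) else 0) (a + m) x =
        P.eval (x : ℝ) := by
      intro x
      rw [newton P (a + m) hdeg x]
      unfold qv
      apply Finset.sum_congr rfl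
      intro k hk
      rw [Finset.mem_range] at hk
      dsimp only
      rw [if_pos (by omega)]
  · rw [e, v0]
  · intro i hi hi'
    rw [e]
    exact vi i hi hi'

/-- **AND polynomial**: degree `≤ 6 √(X L) (log X + 1)` and `≤ X`, value `1` at `0`, at most
`exp (-L)` in absolute value at `1, …, X`, Newton coefficients `≤ 2 ^ t`. -/
theorem and_poly (X : ℕ) (L : ℝ) (hX : 1 ≤ X) (hL : 1 ≤ L) :
    ∃ (d : ℕ) (c : ℕ → ℝ), d ≤ X ∧ (d : ℝ) ≤ 6 * Real.sqrt (X * L) * (Real.log X + 1) ∧
      (∀ t, |c t| ≤ 2 ^ t) ∧ qv c d 0 = 1 ∧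
      ∀ i, 1 ≤ i → i ≤ X → |qv c d i| ≤ Real.exp (-L) := by
  have hXr : (1 : ℝ) ≤ X := by exact_mod_cast hX
  have hlog : 0 ≤ Real.log X := Real.log_nonneg hXr
  by_cases hcase : (X : ℝ) ≤ 6 * Real.sqrt (X * L) * (Real.log X + 1)
  · -- the full product
    refine ⟨X, fun t => (-1) ^ t, le_rfl, hcase, ?_, ?_, ?_⟩
    · intro t
      rw [abs_pow, abs_neg, abs_one, one_pow]
      exact one_le_pow₀ (by norm_num)
    · unfold qv
      rw [Finset.sum_eq_single 0]
      · simp
      · intro k _ hk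
        rw [Nat.choose_eq_zero_of_lt (by omega)]
        simp
      · intro h
        exact absurd (Finset.mem_range.2 (by omega)) h
    · intro i hi hiX
      have : qv (fun t => (-1) ^ t) X i = 0 := by
        unfold qv
        have h1 : ∑ t ∈ range (X + 1), (-1 : ℝ) ^ t * (i.choose t : ℝ) =
            ∑ t ∈ range (i + 1), (-1 : ℝ) ^ t * (i.choose t : ℝ) := by
          symm
          apply Finset.sum_subset
          · intro k hk
            rw [Finset.mem_range] at hk ⊢
            omega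
          · intro k _ hk
            rw [Finset.mem_range, not_lt] at hk
            rw [Nat.choose_eq_zero_of_lt (by omega)]
            simp
        rw [h1]
        have h2 := Int.alternating_sum_range_choose_of_ne (n := i) (by omega)
        have h3 : ((∑ m ∈ range (i + 1), (-1 : ℤ) ^ m * (i.choose m : ℤ) : ℤ) : ℝ) = 0 := by
          rw [h2]; simp
        push_cast at h3
        exact h3
      rw [this, abs_zero]
      exact Real.exp_nonneg _
  · push Not at hcase
    have hLX : L < X := by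
      by_contra hcon
      push Not at hcon
      have h1 : (X : ℝ) ≤ Real.sqrt (X * L) := by
        rw [Real.le_sqrt (by linarith) (by positivity)]
        nlinarith
      nlinarith [Real.sqrt_nonneg ((X : ℝ) * L)]
    set s : ℝ := Real.sqrt (X * L) with hs
    have hs0 : 0 ≤ s := Real.sqrt_nonneg _
    have hs2 : s * s = X * L := Real.mul_self_sqrt (by positivity)
    have hLs : L ≤ s := by
      rw [hs, Real.le_sqrt (by linarith) (by positivity)]
      nlinarith
    have h1s : 1 ≤ s := hL.trans hLs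
    set a : ℕ := ⌈L⌉₊ with ha
    have ha1 : 1 ≤ a := Nat.one_le_ceil_iff.2 (by linarith)
    have haL : L ≤ a := Nat.le_ceil L
    have haL2 : (a : ℝ) ≤ 2 * L := by
      have := Nat.ceil_lt_add_one (by linarith : 0 ≤ L)
      linarith
    have ha0 : (0 : ℝ) < a := by exact_mod_cast ha1
    set r : ℝ := Real.sqrt (X / a) with hr
    have hr0 : 0 < r := Real.sqrt_pos.2 (by positivity)
    have hr2 : r * r = X / a := Real.mul_self_sqrt (by positivity)
    -- r * a ≤ 1.5 s
    have hra : r * a ≤ 3 / 2 * s := by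
      have h1 : (r * a) ^ 2 ≤ (3 / 2 * s) ^ 2 := by
        have e1 : (r * a) ^ 2 = X * a := by
          have : (r * a) ^ 2 = (r * r) * (a * a) := by ring
          rw [this, hr2]
          field_simp
        have e2 : (3 / 2 * s) ^ 2 = 9 / 4 * (X * L) := by
          have : (3 / 2 * s) ^ 2 = 9 / 4 * (s * s) := by ring
          rw [this, hs2]
        rw [e1, e2]
        nlinarith
      exact le_of_sq_le_sq h1 (by positivity)
    set m : ℕ := ⌈r * (L + a * Real.log X + 1)⌉₊ with hm
    have hm1 : r * (L + a * Real.log X + 1) ≤ m := Nat.le_ceil _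
    have hm2 : (m : ℝ) ≤ r * (L + a * Real.log X + 1) + 1 :=
      (Nat.ceil_lt_add_one (by positivity)).le
    have hm3 : (m : ℝ) ≤ 3 / 2 * s * (Real.log X + 2) + 1 := by
      refine hm2.trans ?_
      have h1 : L + a * Real.log X + 1 ≤ a * (Real.log X + 2) := by
        have : (1 : ℝ) ≤ a := by exact_mod_cast ha1
        nlinarith
      have h2 : r * (L + a * Real.log X + 1) ≤ r * (a * (Real.log X + 2)) := by gcongr
      have h3 : r * (a * (Real.log X + 2)) = (r * a) * (Real.log X + 2) := by ring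
      have h4 : (r * a) * (Real.log X + 2) ≤ 3 / 2 * s * (Real.log X + 2) := by gcongr
      linarith
    have hd : ((a + m : ℕ) : ℝ) ≤ 6 * s * (Real.log X + 1) := by
      push_cast
      nlinarith
    have hdX : a + m ≤ X := by
      have : ((a + m : ℕ) : ℝ) ≤ X := hd.trans hcase.le
      exact_mod_cast this
    have hinv : Real.sqrt (a / X) = 1 / r := by
      rw [hr, ← Real.sqrt_one, ← Real.sqrt_div (by norm_num)]
      congr 1
      rw [one_div_div]
    have hm4 : L + a * Real.log X + 1 ≤ m * Real.sqrt (a / X) := by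
      rw [hinv, mul_one_div, le_div_iff₀ hr0, mul_comm]
      exact hm1
    have haX : 2 * a ≤ X := by
      have h1 : (2 * a : ℝ) ≤ X := by
        have : 4 * L ≤ X := by nlinarith
        linarith
      exact_mod_cast h1
    obtain ⟨c, hc1, hc2, hc3⟩ := and_poly_big X a m L ha1 haX hm4 (by linarith) hdX
    exact ⟨a + m, c, hdX, hd, hc1, hc2, hc3⟩

/-- the same, packaged with the growth bound -/
theorem and_poly' : ∃ C : ℝ, 1 ≤ C ∧ ∀ (X : ℕ) (L : ℝ), 1 ≤ X → 1 ≤ L →
    ∃ (d : ℕ) (c : ℕ → ℝ), d ≤ X ∧ (d : ℝ) ≤ C * Real.sqrt (X * L) * (Real.log X + 1) ∧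
      (∀ t, |c t| ≤ 2 ^ t) ∧ qv c d 0 = 1 ∧
      (∀ i, 1 ≤ i → i ≤ X → |qv c d i| ≤ Real.exp (-L)) ∧
      ∀ N x : ℕ, x ≤ N → |qv c d x| ≤ (4 * (N + 1) : ℝ) ^ d := by
  refine ⟨6, by norm_num, fun X L hX hL => ?_⟩
  obtain ⟨d, c, h1, h2, h3, h4, h5⟩ := and_poly X L hX hL
  refine ⟨d, c, h1, h2, h3, h4, h5, fun N x hx => ?_⟩
  refine (abs_qv_le c h3 d x).trans ?_
  have h6 : ((d : ℝ) + 1) ≤ 2 ^ d := by
    have : d + 1 ≤ 2 ^ d := Nat.lt_two_pow_self
    exact_mod_cast this
  have hxN : (x : ℝ) ≤ N := by exact_mod_cast hx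
  have hx0 : (0 : ℝ) ≤ x := Nat.cast_nonneg x
  calc (2 * (x + 1) : ℝ) ^ d * (d + 1) ≤ (2 * (N + 1) : ℝ) ^ d * 2 ^ d := by gcongr
    _ = (4 * (N + 1) : ℝ) ^ d := by rw [← mul_pow]; congr 1; ring

end Crest.Agent.R344
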