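import Crest.Agent.R344.Targets

/-!
R344: the soft form `TJ` from the quantitative Lemma J.
-/

set_option autoImplicit false

open Filter

namespace Crest.Agent.R344

/-- the quantitative form of Lemma J -/
def VLOfLO : Prop :=
  ∃ C0 : ℝ, 1 ≤ C0 ∧ ∀ (N : ℕ), 1 ≤ N → ∀ (C : Op N) (κ : ℝ), C ∈ unitary (Op N) → 1 ≤ κ →
    LO C κ → LO (star C) κ → ∀ (s : ℕ) (K : ℝ), C0 * κ * (Real.log N + 1) ^ 4 ≤ K →
      (N : ℝ) ^ 2 ≤ K ^ ((s + 1) * (s + 2)) → VLOC C (2 * K ^ (s + 2))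

theorem eventually_log_le (a c : ℝ) (ha : 0 < a) :
    ∃ N0 : ℕ, 1 ≤ N0 ∧ ∀ N ≥ N0, c * (Real.log N + 1) ^ 4 ≤ (N : ℝ) ^ a := by
  have h1 : Tendsto (fun x : ℝ => (x + 1) ^ 4 * Real.exp (-a * x)) atTop (nhds 0) := by
    have h2 := Real.tendsto_pow_mul_exp_neg_atTop_nhds_zero 4
    have h3 : Tendsto (fun x : ℝ => a * (x + 1)) atTop atTop := by
      apply Tendsto.const_mul_atTop ha
      exact tendsto_atTop_add_const_right _ _ tendsto_id
    have h4 := h2.comp h3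
    have h5 := h4.const_mul (Real.exp a / a ^ 4)
    rw [mul_zero] at h5
    refine h5.congr (fun x => ?_)
    simp only [Function.comp]
    rw [mul_pow]
    have : Real.exp (-(a * (x + 1))) = Real.exp (-a * x) * Real.exp (-a) := by
      rw [← Real.exp_add]; congr 1; ring
    rw [this]
    have h6 : Real.exp a * Real.exp (-a) = 1 := by rw [← Real.exp_add]; simp
    field_simp
    calc Real.exp a * (x + 1) ^ 4 * Real.exp (-a)
        = (Real.exp a * Real.exp (-a)) * (x + 1) ^ 4 := by ring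
      _ = (x + 1) ^ 4 := by rw [h6, one_mul]
  have h7 := (h1.const_mul c).comp (Real.tendsto_log_atTop.comp tendsto_natCast_atTop_atTop)
  rw [mul_zero] at h7
  have h8 := h7.eventually (eventually_le_nhds (show (0 : ℝ) < 1 by norm_num))
  obtain ⟨N0, hN0⟩ := eventually_atTop.mp h8
  refine ⟨max N0 1, le_max_right _ _, fun N hN => ?_⟩
  have hN1 : 1 ≤ N := le_trans (le_max_right _ _) hN
  have hNpos : (0 : ℝ) < N := by exact_mod_cast hN1
  have h9 := hN0 N (le_trans (le_max_left _ _) hN)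
  simp only [Function.comp] at h9
  have h10 : (N : ℝ) ^ a * Real.exp (-a * Real.log N) = 1 := by
    rw [Real.rpow_def_of_pos hNpos, ← Real.exp_add]
    have : Real.log N * a + -a * Real.log N = 0 := by ring
    rw [this, Real.exp_zero]
  calc c * (Real.log N + 1) ^ 4
      = c * (Real.log N + 1) ^ 4 * ((N : ℝ) ^ a * Real.exp (-a * Real.log N)) := by
        rw [h10, mul_one]
    _ = (c * ((Real.log N + 1) ^ 4 * Real.exp (-a * Real.log N))) * (N : ℝ) ^ a := by ring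
    _ ≤ 1 * (N : ℝ) ^ a := by
        apply mul_le_mul_of_nonneg_right h9 (by positivity)
    _ = (N : ℝ) ^ a := one_mul _

theorem tj_of (h : VLOfLO) : TJ := by
  obtain ⟨C0, hC0, h⟩ := h
  intro δ hδ
  -- choose s with (s+1) * δ ≥ 4
  obtain ⟨s, hs⟩ : ∃ s : ℕ, 4 ≤ δ * (s + 1) := by
    obtain ⟨s, hs⟩ := exists_nat_gt (4 / δ)
    refine ⟨s, ?_⟩
    have h1 : 4 / δ < s + 1 := by linarith
    rw [div_lt_iff₀ hδ] at h1
    linarith
  set e : ℝ := δ / (4 * (s + 2)) with he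
  have hepos : 0 < e := by positivity
  have hes : e * (s + 2) = δ / 4 := by
    rw [he]; field_simp
  obtain ⟨N1, hN11, hN1⟩ := eventually_log_le e C0 hepos
  obtain ⟨N2, hN21, hN2⟩ := eventually_rpow_ge (δ / 2) 2 (by positivity)
  refine ⟨e, hepos, max N1 N2, fun N hN C hC hLO hLO' => ?_⟩
  simp only [ge_iff_le, max_le_iff] at hN
  have hNge : 1 ≤ N := le_trans hN11 hN.1
  have hN1' : (1 : ℝ) ≤ N := by exact_mod_cast hNge
  have hNpos : (0 : ℝ) < N := by linarith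
  have hκ : (1 : ℝ) ≤ (N : ℝ) ^ e := Real.one_le_rpow hN1' hepos.le
  have key := h N hNge C ((N : ℝ) ^ e) hC hκ hLO hLO' s ((N : ℝ) ^ (2 * e)) ?_ ?_
  · refine key.mono ?_
    have h1 : ((N : ℝ) ^ (2 * e)) ^ (s + 2) = (N : ℝ) ^ (δ / 2) := by
      rw [← Real.rpow_natCast, ← Real.rpow_mul hNpos.le]
      congr 1
      push_cast
      calc 2 * e * (s + 2) = 2 * (e * (s + 2)) := by ring
        _ = δ / 2 := by rw [hes]; ring
    rw [h1]
    calc 2 * (N : ℝ) ^ (δ / 2) ≤ (N : ℝ) ^ (δ / 2) * (N : ℝ) ^ (δ / 2) := by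
          apply mul_le_mul_of_nonneg_right (hN2 N hN.2) (by positivity)
      _ = (N : ℝ) ^ δ := by
          rw [← Real.rpow_add hNpos]; congr 1; ring
  · calc C0 * (N : ℝ) ^ e * (Real.log N + 1) ^ 4
        = (C0 * (Real.log N + 1) ^ 4) * (N : ℝ) ^ e := by ring
      _ ≤ (N : ℝ) ^ e * (N : ℝ) ^ e :=
          mul_le_mul_of_nonneg_right (hN1 N hN.1) (by positivity)
      _ = (N : ℝ) ^ (2 * e) := by rw [← Real.rpow_add hNpos]; congr 1; ring
  · have h1 : ((N : ℝ) ^ (2 * e)) ^ ((s + 1) * (s + 2)) = (N : ℝ) ^ (δ / 2 * (s + 1)) := by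
      rw [← Real.rpow_natCast, ← Real.rpow_mul hNpos.le]
      congr 1
      push_cast
      calc 2 * e * ((s + 1) * (s + 2)) = 2 * (e * (s + 2)) * (s + 1) := by ring
        _ = δ / 2 * (s + 1) := by rw [hes]; ring
    rw [h1, ← Real.rpow_natCast]
    apply Real.rpow_le_rpow_of_exponent_le hN1'
    push_cast
    linarith

end Crest.Agent.R344
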