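import Crest.Agent.R344.Targets
import Crest.Agent.R344.TJ
import Crest.Agent.R344.Jordan
import Crest.Agent.R344.Poly

/-!
R344: glue `LO C κ → LO C† κ → VLOC C κ'` from Lemma J (helper683); target `TJ`.
-/

set_option autoImplicit false

namespace Crest.Agent.R344.JG

open scoped InnerProductSpace
open Finset Crest.Agent.R344.J

variable {N : ℕ}

theorem cnt_le (V : Finset (Fin N)) (σ : Bits N) : cnt V σ ≤ N := by
  refine (Finset.card_filter_le _ _).trans ?_
  simpa using Finset.card_le_univ V

theorem dg_congr {f g : Bits N → ℂ} (h : ∀ σ, f σ = g σ) : dg f = dg g := by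
  rw [show f = g from funext h]

theorem dg_zero : dg (fun _ : Bits N => (0 : ℂ)) = 0 := by
  ext u σ
  simp

/-- `∑_{J ⊆ V, |J| = t} allI J = binom(n_V, t)` -/
theorem sum_allI (V : Finset (Fin N)) (t : ℕ) :
    ∑ J ∈ V.powersetCard t, allI J = dg (fun σ => ((cnt V σ).choose t : ℂ)) := by
  classical
  simp only [allI]
  rw [dg_sum]
  refine dg_congr fun σ => ?_
  have h : ((V.powersetCard t).filter fun J => ∀ i ∈ J, σ i = true)
      = (V.filter fun i => σ i = true).powersetCard t := by
    ext J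
    simp only [Finset.mem_filter, Finset.mem_powersetCard]
    constructor
    · rintro ⟨⟨h1, h2⟩, h3⟩
      exact ⟨fun i hi => Finset.mem_filter.mpr ⟨h1 hi, h3 i hi⟩, h2⟩
    · rintro ⟨h1, h2⟩
      exact ⟨⟨fun i hi => (Finset.mem_filter.mp (h1 hi)).1, h2⟩,
        fun i hi => (Finset.mem_filter.mp (h1 hi)).2⟩
  rw [cnt, ← Finset.card_powersetCard, ← h, Finset.card_filter]
  push_cast
  refine Finset.sum_congr rfl fun J _ => ?_
  split_ifs <;> rfl

/-- conjugated diagonal operator -/
noncomputable def cdg (C : Op N) (f : Bits N → ℂ) : Op N := C * dg f * star C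

lemma cdg_mul (C : Op N) (hC : C ∈ unitary (Op N)) (f g : Bits N → ℂ) :
    cdg C f * cdg C g = cdg C (fun σ => f σ * g σ) := by
  have h1 : star C * C = 1 := (Unitary.mem_iff.mp hC).1
  unfold cdg
  calc C * dg f * star C * (C * dg g * star C) = C * dg f * (star C * C) * dg g * star C := by
        noncomm_ring
    _ = C * (dg f * dg g) * star C := by rw [h1]; noncomm_ring
    _ = _ := by rw [dg_mul]

lemma cdg_star (C : Op N) (f : Bits N → ℂ) : star (cdg C f) = cdg C (fun σ => star (f σ)) := by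
  unfold cdg
  rw [star_mul, star_mul, star_star, dg_star, mul_assoc]

lemma cdg_one (C : Op N) (hC : C ∈ unitary (Op N)) : cdg C (fun _ => 1) = 1 := by
  unfold cdg
  rw [dg_one, mul_one]
  exact (Unitary.mem_iff.mp hC).2

/-- the levels of `C n_V C†` -/
noncomputable def lev (C : Op N) (hC : C ∈ unitary (Op N)) (V : Finset (Fin N)) :
    Lev (St N) N where
  p i := cdg C (fun σ => if cnt V σ = i then 1 else 0)
  symm i x y := by
    have h : star (cdg C (fun σ => if cnt V σ = i then 1 else 0)) =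
        cdg C (fun σ => if cnt V σ = i then 1 else 0) := by
      rw [cdg_star]
      congr 1
      funext σ
      split_ifs <;> simp
    rw [← ContinuousLinearMap.adjoint_inner_left, ← ContinuousLinearMap.star_eq_adjoint, h]
  mul_self i x := by
    have h := cdg_mul C hC (fun σ => if cnt V σ = i then 1 else 0)
      (fun σ => if cnt V σ = i then 1 else 0)
    have h2 : (cdg C (fun σ => if cnt V σ = i then 1 else 0) *
        cdg C (fun σ => if cnt V σ = i then 1 else 0)) x =
        cdg C (fun σ => if cnt V σ = i then 1 else 0) x := by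
      rw [h]
      congr 2
      funext σ
      split_ifs <;> simp
    exact h2
  mul_ne i j x hij := by
    have h := cdg_mul C hC (fun σ => if cnt V σ = i then 1 else 0)
      (fun σ => if cnt V σ = j then 1 else 0)
    have h2 : (cdg C (fun σ => if cnt V σ = i then 1 else 0) *
        cdg C (fun σ => if cnt V σ = j then 1 else 0)) x = 0 := by
      rw [h]
      have h3 : (fun σ : Bits N => (if cnt V σ = i then (1 : ℂ) else 0) *
          (if cnt V σ = j then 1 else 0)) = fun _ => 0 := by
        funext σ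
        by_cases h4 : cnt V σ = i
        · have : cnt V σ ≠ j := by omega
          simp [this]
        · simp [h4]
      rw [h3]
      unfold cdg
      rw [dg_zero]
      simp
    exact h2
  sum_eq x := by
    have h : ∑ i ∈ range (N + 1), cdg C (fun σ => if cnt V σ = i then (1 : ℂ) else 0) = 1 := by
      unfold cdg
      rw [← Finset.sum_mul, ← Finset.mul_sum, dg_sum]
      have h3 : (fun σ : Bits N => ∑ i ∈ range (N + 1), if cnt V σ = i then (1 : ℂ) else 0) =
          fun _ => 1 := by
        funext σ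
        rw [Finset.sum_ite_eq, if_pos (Finset.mem_range.mpr (Nat.lt_succ_of_le (cnt_le V σ)))]
      rw [h3, dg_one, mul_one]
      exact (Unitary.mem_iff.mp hC).2
    have h2 := congrArg (fun T : Op N => T x) h
    simpa using h2

lemma lev_f (C : Op N) (hC : C ∈ unitary (Op N)) (V : Finset (Fin N)) (φ : ℕ → ℝ) :
    (lev C hC V).f φ = cdg C (fun σ => ((φ (cnt V σ) : ℝ) : ℂ)) := by
  unfold Lev.f lev
  simp only
  have h1 : ∀ i, ((φ i : ℝ) : ℂ) • cdg C (fun σ => if cnt V σ = i then (1 : ℂ) else 0) =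
      C * dg (fun σ => ((φ i : ℝ) : ℂ) * if cnt V σ = i then (1 : ℂ) else 0) * star C := by
    intro i
    unfold cdg
    rw [← dg_smul, mul_smul_comm, smul_mul_assoc]
  rw [Finset.sum_congr rfl (fun i _ => h1 i), ← Finset.sum_mul, ← Finset.mul_sum, dg_sum]
  unfold cdg
  congr 3
  funext σ
  rw [Finset.sum_eq_single (cnt V σ)]
  · simp
  · intro i _ hi
    simp [Ne.symm hi]
  · intro h
    exact absurd (Finset.mem_range.mpr (Nat.lt_succ_of_le (cnt_le V σ))) h

lemma lev_zero (C : Op N) (hC : C ∈ unitary (Op N)) (V : Finset (Fin N)) :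
    (lev C hC V).p 0 = C * zeroI V * star C := rfl

lemma lev_bin (C : Op N) (hC : C ∈ unitary (Op N)) (V : Finset (Fin N)) (t : ℕ) :
    (lev C hC V).bin t = ∑ J ∈ V.powersetCard t, C * allI J * star C := by
  unfold Lev.bin
  rw [lev_f, ← Finset.sum_mul, ← Finset.mul_sum, sum_allI]
  unfold cdg
  congr 3

lemma lev_tail (C : Op N) (hC : C ∈ unitary (Op N)) (V : Finset (Fin N)) (y : ℝ) (hy : 0 ≤ y) :
    (lev C hC V).tail y = C * gtI V ⌊y⌋₊ * star C := by
  unfold Lev.tail
  rw [lev_f]
  unfold cdg gtI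
  congr 3
  funext σ
  have h : (⌊y⌋₊ < cnt V σ) ↔ y < (cnt V σ : ℝ) := Nat.floor_lt hy
  by_cases h1 : y < (cnt V σ : ℝ)
  · simp [h1, h.mpr h1]
  · have h2 : ¬ ⌊y⌋₊ < cnt V σ := fun h3 => h1 (h.mp h3)
    simp [h1, h2]

lemma norm_unitary_apply (C : Op N) (hC : C ∈ unitary (Op N)) (x : St N) : ‖C x‖ = ‖x‖ := by
  have h1 : star C * C = 1 := (Unitary.mem_iff.mp hC).1
  have h2 : ⟪C x, C x⟫_ℂ = ⟪x, x⟫_ℂ := by
    rw [← ContinuousLinearMap.adjoint_inner_right, ← ContinuousLinearMap.star_eq_adjoint]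
    have h3 : (star C) (C x) = (star C * C) x := rfl
    rw [h3, h1]
    rfl
  have h4 : ‖C x‖ ^ 2 = ‖x‖ ^ 2 := by
    have h5 := inner_self_eq_norm_sq_to_K (𝕜 := ℂ) (C x)
    have h6 := inner_self_eq_norm_sq_to_K (𝕜 := ℂ) x
    rw [h2, h6] at h5
    exact_mod_cast h5.symm
  exact (sq_eq_sq₀ (norm_nonneg _) (norm_nonneg _)).mp h4

/-- the hypothesis of Lemma J from `LO` -/
lemma hyp_of_LO (C₁ C₂ : Op N) (h₁ : C₁ ∈ unitary (Op N)) (h₂ : C₂ ∈ unitary (Op N)) (κ : ℝ)
    (hκ : 1 ≤ κ) (hLO : LO (star C₂ * C₁) κ) (V F : Finset (Fin N)) :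
    Hyp (lev C₁ h₁ V) (lev C₂ h₂ F) (2 * κ) := by
  intro t y a ha
  have h2s : star C₂ ∈ unitary (Op N) := Unitary.star_mem h₂
  have h1s : star C₁ ∈ unitary (Op N) := Unitary.star_mem h₁
  have hcard : ((V.powersetCard t).card : ℝ) ≤ (N : ℝ) ^ t := by
    rw [Finset.card_powersetCard]
    have h1 : V.card.choose t ≤ N ^ t := by
      refine (Nat.choose_le_pow _ _).trans (Nat.pow_le_pow_left ?_ t)
      simpa using Finset.card_le_univ V
    exact_mod_cast h1
  rw [lev_bin]
  have hsum : (∑ J ∈ V.powersetCard t, C₁ * allI J * star C₁) a =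
      ∑ J ∈ V.powersetCard t, (C₁ * allI J * star C₁) a := by
    simp
  rw [hsum, map_sum]
  refine (norm_sum_le _ _).trans ?_
  have hJ : ∀ J ∈ V.powersetCard t,
      ‖(lev C₂ h₂ F).tail y ((C₁ * allI J * star C₁) a)‖ ≤
        Real.exp (1 + t - y / (2 * κ)) * ‖a‖ := by
    intro J hJ
    have hJc : J.card = t := (Finset.mem_powersetCard.mp hJ).2
    have htriv : ‖(lev C₂ h₂ F).tail y ((C₁ * allI J * star C₁) a)‖ ≤ ‖a‖ := by
      refine ((lev C₂ h₂ F).norm_tail_le y _).trans ?_
      have h3 : (C₁ * allI J * star C₁) a = C₁ (allI J (star C₁ a)) := rfl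
      rw [h3, norm_unitary_apply C₁ h₁]
      refine ((allI J).le_opNorm _).trans ?_
      rw [norm_unitary_apply _ h1s]
      exact mul_le_of_le_one_left (norm_nonneg _) (allI_norm_le J)
    by_cases hy : 0 ≤ y
    · set D : ℕ := ⌊y⌋₊ with hD
      have hDy : (D : ℝ) ≤ y := Nat.floor_le hy
      have hyD : y < (D : ℝ) + 1 := Nat.lt_floor_add_one y
      by_cases hL : 1 ≤ (D : ℝ) / κ - t
      · have h3 := hLO F J (allI J) (supp_allI J) (allI_norm_le J) 0 D ((D : ℝ) / κ - t) hL (by
          rw [hJc]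
          push_cast
          have h4 : κ * (0 + (t : ℝ) + ((D : ℝ) / κ - t)) = D := by
            field_simp
            ring
          rw [h4])
        rw [lev_tail C₂ h₂ F y hy, ← hD]
        have h4 : (C₂ * gtI F D * star C₂) ((C₁ * allI J * star C₁) a) =
            C₂ ((gtI F D * (star C₂ * C₁ * allI J * star (star C₂ * C₁)) * leI F 0)
              (star C₂ a)) := by
          have h5 : a = (C₂ * zeroI F * star C₂) a := by
            rw [← lev_zero C₂ h₂ F, ha]
          conv_lhs => rw [h5]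
          rw [leI_zero, star_mul, star_star]
          have h6 : C₂ * gtI F D * star C₂ * (C₁ * allI J * star C₁ * (C₂ * zeroI F * star C₂)) =
              C₂ * (gtI F D * (star C₂ * C₁ * allI J * (star C₁ * C₂)) * zeroI F) * star C₂ := by
            noncomm_ring
          have h7 : (C₂ * gtI F D * star C₂ * (C₁ * allI J * star C₁ * (C₂ * zeroI F * star C₂))) a =
              (C₂ * (gtI F D * (star C₂ * C₁ * allI J * (star C₁ * C₂)) * zeroI F) * star C₂) a := by
            rw [h6]
          simpa only [op_mul_apply] using h7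
        rw [h4, norm_unitary_apply C₂ h₂]
        refine (ContinuousLinearMap.le_opNorm _ _).trans ?_
        rw [norm_unitary_apply _ h2s]
        refine mul_le_mul_of_nonneg_right (h3.trans ?_) (norm_nonneg _)
        apply Real.exp_le_exp.mpr
        have h7 : y / (2 * κ) ≤ (D : ℝ) / κ + 1 := by
          rw [div_le_iff₀ (by positivity)]
          have h8 : ((D : ℝ) / κ + 1) * (2 * κ) = 2 * D + 2 * κ := by
            field_simp
          rw [h8]
          have : (0 : ℝ) ≤ D := by positivity
          linarith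
        linarith
      · have hL' : (D : ℝ) / κ < 1 + t := by
          have := not_le.mp hL
          linarith
        have h7 : y / (2 * κ) ≤ 1 + t := by
          rw [div_le_iff₀ (by positivity)]
          rw [div_lt_iff₀ (by positivity)] at hL'
          have : (0 : ℝ) ≤ t := by positivity
          nlinarith
        refine htriv.trans ?_
        have h8 : (1 : ℝ) ≤ Real.exp (1 + t - y / (2 * κ)) := Real.one_le_exp (by linarith)
        exact le_mul_of_one_le_left (norm_nonneg _) h8
    · have hy' : y < 0 := not_le.mp hy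
      have h7 : y / (2 * κ) ≤ 0 := div_nonpos_of_nonpos_of_nonneg hy'.le (by positivity)
      refine htriv.trans ?_
      have : (0 : ℝ) ≤ t := by positivity
      have h8 : (1 : ℝ) ≤ Real.exp (1 + t - y / (2 * κ)) := Real.one_le_exp (by linarith)
      exact le_mul_of_one_le_left (norm_nonneg _) h8
  refine (Finset.sum_le_sum hJ).trans ?_
  rw [Finset.sum_const, nsmul_eq_mul, mul_assoc]
  exact mul_le_mul_of_nonneg_right hcard (by positivity)

/-- locality for vacuum projections from `LO` -/
theorem vloc_of_LO {c : ℝ} (hpoly : AndPoly c) (hc : 1 ≤ c) (hN : 1 ≤ N) (C : Op N)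
    (hC : C ∈ unitary (Op N)) (κ : ℝ) (hκ : 1 ≤ κ) (h1 : LO C κ) (h2 : LO (star C) κ)
    (s : ℕ) (K : ℝ) (hK : 400 * c ^ 2 * (2 * κ) * (Real.log N + 1) ^ 4 ≤ K)
    (hKN : (N : ℝ) ^ 2 ≤ K ^ ((s + 1) * (s + 2))) : VLOC C (2 * K ^ (s + 2)) := by
  intro F V D L hL hD
  have hone : (1 : Op N) ∈ unitary (Op N) := one_mem _
  have hA : Hyp (lev C hC V) (lev 1 hone F) (2 * κ) := by
    apply hyp_of_LO C 1 hC hone κ hκ
    rw [star_one, one_mul]
    exact h1
  have hB : Hyp (lev 1 hone F) (lev C hC V) (2 * κ) := by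
    apply hyp_of_LO 1 C hone hC κ hκ
    rw [mul_one]
    exact h2
  have hK0 : 0 ≤ K := by
    refine le_trans ?_ hK
    have hlog : 0 ≤ Real.log N := Real.log_nonneg (by exact_mod_cast hN)
    positivity
  refine ContinuousLinearMap.opNorm_le_bound _ (by positivity) fun v => ?_
  have h3 := jordan hpoly hc (lev C hC V) (lev 1 hone F) hN (by linarith) hA hB s K hK hKN
    (L + 1) (by linarith) (D : ℝ) (by
      refine le_trans ?_ hD
      have : (0 : ℝ) ≤ K ^ (s + 2) := by positivity
      nlinarith) v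
  rw [lev_tail 1 hone F _ (by positivity), lev_zero, lev_zero, Nat.floor_natCast] at h3
  have h4 : (1 * gtI F D * star (1 : Op N)) ((C * zeroI V * star C)
      ((1 * zeroI F * star (1 : Op N)) v)) = (gtI F D * (C * zeroI V * star C) * zeroI F) v := by
    rw [star_one, one_mul, one_mul, mul_one, mul_one]
    rfl
  rw [h4] at h3
  refine h3.trans (mul_le_mul_of_nonneg_right ?_ (norm_nonneg _))
  have h5 : (2 : ℝ) ≤ Real.exp 1 := by
    have := Real.add_one_le_exp (1 : ℝ)
    linarith
  calc 2 * Real.exp (-(L + 1)) ≤ Real.exp 1 * Real.exp (-(L + 1)) :=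
        mul_le_mul_of_nonneg_right h5 (by positivity)
    _ = Real.exp (-L) := by
        rw [← Real.exp_add]
        congr 1
        ring

theorem andPoly6 : AndPoly 6 := by
  intro X L hX hL
  obtain ⟨d, c, _, h2, h3, h4, h5⟩ := and_poly X L hX hL
  exact ⟨d, c, h2, h3, h4, h5⟩

end Crest.Agent.R344.JG

namespace Crest.Agent.R344

/-- Lemma J for circuits, quantitative form -/
theorem vloflo : VLOfLO := by
  refine ⟨400 * 6 ^ 2 * 2, by norm_num, ?_⟩
  intro N hN C κ hC hκ h1 h2 s K hK hKN
  refine JG.vloc_of_LO JG.andPoly6 (by norm_num) hN C hC κ hκ h1 h2 s K ?_ hKN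
  refine le_trans (le_of_eq ?_) hK
  ring

end Crest.Agent.R344
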