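import Mathlib

/-!
R344 [JNUM]: the purely numerical profile recursion of Lemma J (Jordan bootstrap).

`α x`, `β y` are (upper bounds for) the tails of the two number operators on the unit ball of the
spectral subspace `E`.  The two operator inequalities A, B are the hypotheses `hA`, `hB`; the
conclusion is `α, β ≤ exp (-L0)` above `N ^ δ * L0`.
-/

set_option autoImplicit false

namespace Crest.Agent.R344

open Real

/-- One half-step of the profile recursion. -/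
theorem profile_half (C κ ℓ L0 K : ℝ) (N : ℕ) (hC : 1 ≤ C) (hκ : 1 ≤ κ) (hℓ : 1 ≤ ℓ)
    (hL0 : 1 ≤ L0) (hN : 1 ≤ N) (hK : K = 12 * C ^ 2 * ℓ ^ 2 * κ) (s : ℕ) (α β : ℕ → ℝ)
    (hαN : ∀ x ≥ N, α x = 0) (hβN : ∀ x ≥ N, β x = 0)
    (hA : ∀ (X y : ℕ) (L : ℝ), 1 ≤ X → X ≤ N → 1 ≤ L → ∃ d : ℝ, 0 ≤ d ∧
      d ≤ C * √(X * L) * ℓ ∧
      β y ≤ exp (2 * L0) * (exp (-L) + exp (C * d * ℓ) * α X + exp (C * d * ℓ + 1 - y / κ)))
    (hP : ∀ (x : ℕ) (L : ℝ), L0 ≤ L →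
      K ^ (s * (s + 1)) * N * L ^ s ≤ (x : ℝ) ^ (s + 1) → α x ≤ exp (-L)) :
    ∀ (y : ℕ) (L : ℝ), L0 ≤ L →
      K ^ ((s + 1) * (s + 2)) * N * L ^ (s + 1) ≤ (y : ℝ) ^ (s + 2) → β y ≤ exp (-L) := by
  intro y L hL hy
  have hL1 : 1 ≤ L := le_trans hL0 hL
  have hC2 : 1 ≤ C ^ 2 := one_le_pow₀ hC
  have hℓ2 : 1 ≤ ℓ ^ 2 := one_le_pow₀ hℓ
  have hCℓ : 1 ≤ C ^ 2 * ℓ ^ 2 := by nlinarith
  have hKκ : 12 * κ ≤ K := by
    rw [hK]; nlinarith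
  have hK1 : 1 ≤ K := by linarith
  have hN1 : (1 : ℝ) ≤ N := by exact_mod_cast hN
  by_cases hLN : (N : ℝ) < L
  · have h1 : (N : ℝ) ^ (s + 2) ≤ (y : ℝ) ^ (s + 2) := by
      refine le_trans ?_ hy
      have hKp : 1 ≤ K ^ ((s + 1) * (s + 2)) := one_le_pow₀ hK1
      have h2 : (N : ℝ) ^ (s + 1) ≤ L ^ (s + 1) := pow_le_pow_left₀ (by positivity) hLN.le _
      calc (N : ℝ) ^ (s + 2) = 1 * N * N ^ (s + 1) := by ring
        _ ≤ K ^ ((s + 1) * (s + 2)) * N * L ^ (s + 1) := by gcongr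
    have h2 : (N : ℝ) ≤ y := (pow_le_pow_iff_left₀ (by positivity) (by positivity) (by omega)).1 h1
    have h3 : N ≤ y := by exact_mod_cast h2
    rw [hβN y h3]
    positivity
  push Not at hLN
  have hKL : K * L ≤ y := by
    have h1 : (K * L) ^ (s + 2) ≤ (y : ℝ) ^ (s + 2) := by
      refine le_trans ?_ hy
      have hKp : K ^ (s + 2) ≤ K ^ ((s + 1) * (s + 2)) :=
        pow_le_pow_right₀ hK1 (Nat.le_mul_of_pos_left _ (by omega))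
      calc (K * L) ^ (s + 2) = K ^ (s + 2) * L * L ^ (s + 1) := by rw [mul_pow]; ring
        _ ≤ K ^ ((s + 1) * (s + 2)) * N * L ^ (s + 1) := by gcongr
    exact (pow_le_pow_iff_left₀ (by positivity) (by positivity) (by omega)).1 h1
  have hκ0 : 0 < κ := by linarith
  obtain ⟨L1, hL1def⟩ : ∃ L1 : ℝ, L1 = y / κ := ⟨_, rfl⟩
  have hyL1 : (y : ℝ) = κ * L1 := by rw [hL1def]; field_simp
  have h12 : 12 * L ≤ L1 := by
    rw [hL1def, le_div_iff₀ hκ0]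
    calc 12 * L * κ = (12 * κ) * L := by ring
      _ ≤ K * L := by gcongr
      _ ≤ y := hKL
  have hL1pos : 1 ≤ L1 := by linarith
  obtain ⟨Z, hZ⟩ : ∃ Z : ℝ, Z = K ^ (s * (s + 1)) * N * L1 ^ s := ⟨_, rfl⟩
  have hZ1 : 1 ≤ Z := by
    rw [hZ]
    have a1 : 1 ≤ K ^ (s * (s + 1)) := one_le_pow₀ hK1
    have a2 : 1 ≤ L1 ^ s := one_le_pow₀ hL1pos
    have a3 : 1 ≤ K ^ (s * (s + 1)) * (N : ℝ) := one_le_mul_of_one_le_of_one_le a1 hN1
    exact one_le_mul_of_one_le_of_one_le a3 a2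
  obtain ⟨r, hr0, hr⟩ : ∃ r : ℝ, 1 ≤ r ∧ r ^ (s + 1) = Z := by
    refine ⟨Z ^ ((1 : ℝ) / ((s + 1 : ℕ) : ℝ)), Real.one_le_rpow hZ1 (by positivity), ?_⟩
    rw [← Real.rpow_natCast, ← Real.rpow_mul (by linarith), one_div,
      inv_mul_cancel₀ (by positivity), Real.rpow_one]
  obtain ⟨X, hX⟩ : ∃ X : ℕ, X = min N ⌈r⌉₊ := ⟨_, rfl⟩
  have hceil1 : 1 ≤ ⌈r⌉₊ := Nat.one_le_ceil_iff.2 (by linarith)
  have hX1 : 1 ≤ X := by rw [hX]; exact le_min hN hceil1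
  have hXN : X ≤ N := by rw [hX]; exact min_le_left _ _
  have hXr : (X : ℝ) ≤ 2 * r := by
    have h1 : (X : ℝ) ≤ (⌈r⌉₊ : ℝ) := by rw [hX]; exact_mod_cast min_le_right _ _
    have h2 : (⌈r⌉₊ : ℝ) < r + 1 := Nat.ceil_lt_add_one (by linarith)
    linarith
  have hαX : α X ≤ exp (-L1) := by
    by_cases hc : N ≤ ⌈r⌉₊
    · have : X = N := by rw [hX]; exact min_eq_left hc
      rw [this, hαN N le_rfl]; positivity
    · have hXe : X = ⌈r⌉₊ := by rw [hX]; exact min_eq_right (by omega)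
      refine hP X L1 (by linarith) ?_
      rw [← hZ, ← hr, hXe]
      exact pow_le_pow_left₀ (by linarith) (Nat.le_ceil r) _
  obtain ⟨d, hd0, hd, hb⟩ := hA X y (5 * L) hX1 hXN (by linarith)
  have hsq : 40 * C ^ 4 * ℓ ^ 4 * r * L ≤ L1 ^ 2 := by
    have hbase : (40 * C ^ 4 * ℓ ^ 4 * r * L) ^ (s + 1) ≤ (L1 ^ 2) ^ (s + 1) := by
      have e1 : (40 * C ^ 4 * ℓ ^ 4 * r * L) ^ (s + 1)
          = (40 * C ^ 4 * ℓ ^ 4) ^ (s + 1) * K ^ (s * (s + 1)) * N * L ^ (s + 1) * L1 ^ s := by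
        rw [mul_pow, mul_pow, hr, hZ]; ring
      have e2 : (L1 ^ 2) ^ (s + 1) = L1 ^ (s + 2) * L1 ^ s := by ring
      rw [e1, e2]
      refine mul_le_mul_of_nonneg_right ?_ (by positivity)
      have e3 : κ ^ (s + 2) * ((40 * C ^ 4 * ℓ ^ 4) ^ (s + 1) * K ^ (s * (s + 1)) * N
          * L ^ (s + 1)) ≤ κ ^ (s + 2) * L1 ^ (s + 2) := by
        rw [← mul_pow κ L1, ← hyL1]
        refine le_trans ?_ hy
        have e4 : κ ^ (s + 2) * (40 * C ^ 4 * ℓ ^ 4) ^ (s + 1) ≤ (K ^ 2) ^ (s + 1) := by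
          have e5 : κ ^ (s + 2) ≤ (κ ^ 2) ^ (s + 1) := by
            rw [← pow_mul]; exact pow_le_pow_right₀ hκ (by omega)
          calc κ ^ (s + 2) * (40 * C ^ 4 * ℓ ^ 4) ^ (s + 1)
              ≤ (κ ^ 2) ^ (s + 1) * (40 * C ^ 4 * ℓ ^ 4) ^ (s + 1) := by gcongr
            _ = (κ ^ 2 * (40 * C ^ 4 * ℓ ^ 4)) ^ (s + 1) := (mul_pow _ _ _).symm
            _ ≤ (K ^ 2) ^ (s + 1) := by
                apply pow_le_pow_left₀ (by positivity)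
                rw [hK]
                have : 0 ≤ C ^ 4 * ℓ ^ 4 * κ ^ 2 := by positivity
                nlinarith
        calc κ ^ (s + 2) * ((40 * C ^ 4 * ℓ ^ 4) ^ (s + 1) * K ^ (s * (s + 1)) * N * L ^ (s + 1))
            = (κ ^ (s + 2) * (40 * C ^ 4 * ℓ ^ 4) ^ (s + 1)) * (K ^ (s * (s + 1)) * N
                * L ^ (s + 1)) := by ring
          _ ≤ (K ^ 2) ^ (s + 1) * (K ^ (s * (s + 1)) * N * L ^ (s + 1)) := by gcongr
          _ = K ^ ((s + 1) * (s + 2)) * N * L ^ (s + 1) := by ring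
      exact le_of_mul_le_mul_left e3 (by positivity)
    exact (pow_le_pow_iff_left₀ (by positivity) (by positivity) (by omega)).1 hbase
  have hCd : C * d * ℓ ≤ L1 / 2 := by
    have h1 : C * d * ℓ ≤ C ^ 2 * ℓ ^ 2 * √(X * (5 * L)) := by
      calc C * d * ℓ ≤ C * (C * √(X * (5 * L)) * ℓ) * ℓ := by gcongr
        _ = C ^ 2 * ℓ ^ 2 * √(X * (5 * L)) := by ring
    refine h1.trans ?_
    have h2 : (C ^ 2 * ℓ ^ 2 * √(X * (5 * L))) ^ 2 ≤ (L1 / 2) ^ 2 := by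
      rw [mul_pow, Real.sq_sqrt (by positivity)]
      have h3 : (X : ℝ) * (5 * L) ≤ 2 * r * (5 * L) := by gcongr
      calc (C ^ 2 * ℓ ^ 2) ^ 2 * (X * (5 * L)) ≤ (C ^ 2 * ℓ ^ 2) ^ 2 * (2 * r * (5 * L)) := by
            gcongr
        _ = (40 * C ^ 4 * ℓ ^ 4 * r * L) / 4 := by ring
        _ ≤ L1 ^ 2 / 4 := by gcongr
        _ = (L1 / 2) ^ 2 := by ring
    exact (pow_le_pow_iff_left₀ (by positivity) (by positivity) (by omega)).1 h2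
  have hyk : (y : ℝ) / κ = L1 := hL1def.symm
  rw [hyk] at hb
  have t2 : exp (C * d * ℓ) * α X ≤ exp (-(6 * L)) := by
    calc exp (C * d * ℓ) * α X ≤ exp (C * d * ℓ) * exp (-L1) := by gcongr
      _ = exp (C * d * ℓ + -L1) := by rw [← Real.exp_add]
      _ ≤ exp (-(6 * L)) := by apply Real.exp_le_exp.2; linarith
  have t3 : exp (C * d * ℓ + 1 - L1) ≤ exp (1 - 6 * L) := by
    apply Real.exp_le_exp.2; linarith
  have hfin : exp (-(5 * L)) + exp (C * d * ℓ) * α X + exp (C * d * ℓ + 1 - L1)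
      ≤ 3 * exp (-(5 * L)) := by
    have u1 : exp (-(6 * L)) ≤ exp (-(5 * L)) := Real.exp_le_exp.2 (by linarith)
    have u2 : exp (1 - 6 * L) ≤ exp (-(5 * L)) := Real.exp_le_exp.2 (by linarith)
    linarith
  calc β y ≤ exp (2 * L0) * (exp (-(5 * L)) + exp (C * d * ℓ) * α X
        + exp (C * d * ℓ + 1 - L1)) := hb
    _ ≤ exp (2 * L0) * (3 * exp (-(5 * L))) := by gcongr
    _ ≤ exp (2 * L) * (exp 2 * exp (-(5 * L))) := by
        gcongr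
        have := Real.add_one_le_exp (2 : ℝ)
        linarith
    _ = exp (2 * L + (2 + -(5 * L))) := by rw [← Real.exp_add, ← Real.exp_add]
    _ ≤ exp (-L) := by apply Real.exp_le_exp.2; linarith

/-- All profiles. -/
theorem profile_all (C κ ℓ L0 K : ℝ) (N : ℕ) (hC : 1 ≤ C) (hκ : 1 ≤ κ) (hℓ : 1 ≤ ℓ)
    (hL0 : 1 ≤ L0) (hN : 1 ≤ N) (hK : K = 12 * C ^ 2 * ℓ ^ 2 * κ) (α β : ℕ → ℝ)
    (hαN : ∀ x ≥ N, α x = 0) (hβN : ∀ x ≥ N, β x = 0)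
    (hA : ∀ (X y : ℕ) (L : ℝ), 1 ≤ X → X ≤ N → 1 ≤ L → ∃ d : ℝ, 0 ≤ d ∧
      d ≤ C * √(X * L) * ℓ ∧
      β y ≤ exp (2 * L0) * (exp (-L) + exp (C * d * ℓ) * α X + exp (C * d * ℓ + 1 - y / κ)))
    (hB : ∀ (X y : ℕ) (L : ℝ), 1 ≤ X → X ≤ N → 1 ≤ L → ∃ d : ℝ, 0 ≤ d ∧
      d ≤ C * √(X * L) * ℓ ∧
      α y ≤ exp (2 * L0) * (exp (-L) + exp (C * d * ℓ) * β X + exp (C * d * ℓ + 1 - y / κ)))
    (s : ℕ) :
    (∀ (x : ℕ) (L : ℝ), L0 ≤ L →
      K ^ (s * (s + 1)) * N * L ^ s ≤ (x : ℝ) ^ (s + 1) → α x ≤ exp (-L)) ∧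
    (∀ (x : ℕ) (L : ℝ), L0 ≤ L →
      K ^ (s * (s + 1)) * N * L ^ s ≤ (x : ℝ) ^ (s + 1) → β x ≤ exp (-L)) := by
  induction s with
  | zero =>
    constructor
    · intro x L hL hx
      have h1 : (N : ℝ) ≤ x := by simpa using hx
      rw [hαN x (by exact_mod_cast h1)]; positivity
    · intro x L hL hx
      have h1 : (N : ℝ) ≤ x := by simpa using hx
      rw [hβN x (by exact_mod_cast h1)]; positivity
  | succ s ih =>
    refine ⟨?_, ?_⟩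
    · have := profile_half C κ ℓ L0 K N hC hκ hℓ hL0 hN hK s β α hβN hαN hB ih.2
      exact this
    · have := profile_half C κ ℓ L0 K N hC hκ hℓ hL0 hN hK s α β hαN hβN hA ih.1
      exact this

/-- Polylogarithms are eventually smaller than powers. -/
theorem polylog_le (C δ : ℝ) (s : ℕ) (hδ : 0 < δ) :
    ∃ N0 : ℕ, 3 ≤ N0 ∧ ∀ N : ℕ, N0 ≤ N → (C * (Real.log N) ^ 2) ^ s ≤ (N : ℝ) ^ δ := by
  have h : (fun x : ℝ => (Real.log x) ^ (2 * s)) =o[Filter.atTop] fun x : ℝ => x ^ δ := by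
    have := isLittleO_log_rpow_rpow_atTop (s := δ) ((2 * s : ℕ) : ℝ) hδ
    refine this.congr' ?_ (Filter.EventuallyEq.refl _ _)
    filter_upwards with x
    rw [Real.rpow_natCast]
  have h2 := h.def (c := 1 / (|C| ^ s + 1)) (by positivity)
  have h3 := tendsto_natCast_atTop_atTop (R := ℝ) |>.eventually h2
  obtain ⟨N1, hN1⟩ := Filter.eventually_atTop.1 h3
  refine ⟨max N1 3, le_max_right _ _, fun N hN => ?_⟩
  have h4 := hN1 N (le_trans (le_max_left _ _) hN)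
  have hN3 : 3 ≤ N := le_trans (le_max_right _ _) hN
  have hNpos : (0 : ℝ) < N := by positivity
  rw [Real.norm_of_nonneg (by positivity : (0:ℝ) ≤ (N:ℝ) ^ δ)] at h4
  calc (C * (Real.log N) ^ 2) ^ s = C ^ s * (Real.log N) ^ (2 * s) := by
        rw [mul_pow, ← pow_mul]
    _ ≤ |C ^ s * (Real.log N) ^ (2 * s)| := le_abs_self _
    _ = |C| ^ s * ‖(Real.log N) ^ (2 * s)‖ := by rw [abs_mul, abs_pow, Real.norm_eq_abs]
    _ ≤ |C| ^ s * (1 / (|C| ^ s + 1) * (N : ℝ) ^ δ) := by gcongr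
    _ = (|C| ^ s / (|C| ^ s + 1)) * (N : ℝ) ^ δ := by ring
    _ ≤ 1 * (N : ℝ) ^ δ := by
        gcongr
        rw [div_le_one (by positivity)]
        linarith
    _ = (N : ℝ) ^ δ := one_mul _

/-- **Profile recursion.** -/
theorem profile (C δ : ℝ) (hC : 1 ≤ C) (hδ : 0 < δ) : ∃ δ' : ℝ, 0 < δ' ∧ ∃ N0 : ℕ, 3 ≤ N0 ∧
    ∀ N : ℕ, N0 ≤ N → ∀ κ : ℝ, 1 ≤ κ → κ ≤ (N : ℝ) ^ δ' → ∀ L0 : ℝ, 1 ≤ L0 →
    ∀ α β : ℕ → ℝ, (∀ x, 0 ≤ α x) → (∀ x, 0 ≤ β x) →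
    (∀ x ≥ N, α x = 0) → (∀ x ≥ N, β x = 0) →
    (∀ (X y : ℕ) (L : ℝ), 1 ≤ X → X ≤ N → 1 ≤ L → ∃ d : ℝ, 0 ≤ d ∧
      d ≤ C * √(X * L) * Real.log N ∧
      β y ≤ exp (-L) + exp (C * d * Real.log N) * α X
        + exp (C * d * Real.log N + 1 - y / κ)) →
    (∀ (Y x : ℕ) (L : ℝ), 1 ≤ Y → Y ≤ N → 1 ≤ L → ∃ d : ℝ, 0 ≤ d ∧
      d ≤ C * √(Y * L) * Real.log N ∧
      α x ≤ exp (2 * L0) * (exp (-L) + exp (C * d * Real.log N) * β Y
        + exp (C * d * Real.log N + 1 - x / κ))) →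
    (∀ y : ℕ, (N : ℝ) ^ δ * L0 ≤ y → α y ≤ exp (-L0)) ∧
    (∀ y : ℕ, (N : ℝ) ^ δ * L0 ≤ y → β y ≤ exp (-L0)) := by
  obtain ⟨s, hs⟩ : ∃ s : ℕ, 2 / δ ≤ s := exists_nat_ge _
  have hsδ : 2 ≤ δ * (s + 1) := by
    rw [div_le_iff₀ hδ] at hs
    nlinarith
  obtain ⟨N0, hN03, hN0⟩ := polylog_le (12 * C ^ 2) (δ / 4) s (by positivity)
  refine ⟨δ / (4 * (s + 1)), by positivity, N0, hN03, ?_⟩
  intro N hN κ hκ hκN L0 hL0 α β hα0 hβ0 hαN hβN hA hB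
  have hN3 : 3 ≤ N := hN03.trans hN
  have hN3' : (3 : ℝ) ≤ N := by exact_mod_cast hN3
  have hNpos : (0 : ℝ) < N := by positivity
  have hℓ : 1 ≤ Real.log N := by
    rw [Real.le_log_iff_exp_le hNpos]
    have := Real.exp_one_lt_d9
    linarith
  have hexp1 : 1 ≤ exp (2 * L0) := Real.one_le_exp (by linarith)
  have hA' : ∀ (X y : ℕ) (L : ℝ), 1 ≤ X → X ≤ N → 1 ≤ L → ∃ d : ℝ, 0 ≤ d ∧
      d ≤ C * √(X * L) * Real.log N ∧
      β y ≤ exp (2 * L0) * (exp (-L) + exp (C * d * Real.log N) * α X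
        + exp (C * d * Real.log N + 1 - y / κ)) := by
    intro X y L h1 h2 h3
    obtain ⟨d, hd0, hd, hb⟩ := hA X y L h1 h2 h3
    refine ⟨d, hd0, hd, hb.trans ?_⟩
    have : 0 ≤ exp (-L) + exp (C * d * Real.log N) * α X
        + exp (C * d * Real.log N + 1 - y / κ) := by
      have := hα0 X
      positivity
    nlinarith
  obtain ⟨hPα, hPβ⟩ := profile_all C κ (Real.log N) L0 _ N hC hκ hℓ hL0 (by omega) rfl α β
    hαN hβN hA' hB s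
  have hbound : ∀ y : ℕ, (N : ℝ) ^ δ * L0 ≤ y →
      (12 * C ^ 2 * Real.log N ^ 2 * κ) ^ (s * (s + 1)) * N * L0 ^ s ≤ (y : ℝ) ^ (s + 1) := by
    intro y hy
    have h1 : ((N : ℝ) ^ δ * L0) ^ (s + 1) ≤ (y : ℝ) ^ (s + 1) :=
      pow_le_pow_left₀ (by positivity) hy _
    refine le_trans ?_ h1
    have h2 : (12 * C ^ 2 * Real.log N ^ 2 * κ) ^ s ≤ (N : ℝ) ^ (δ / 2) := by
      calc (12 * C ^ 2 * Real.log N ^ 2 * κ) ^ s
          = (12 * C ^ 2 * Real.log N ^ 2) ^ s * κ ^ s := by rw [mul_pow]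
        _ ≤ (N : ℝ) ^ (δ / 4) * ((N : ℝ) ^ (δ / (4 * (s + 1)))) ^ s := by
            gcongr
            exact hN0 N hN
        _ = (N : ℝ) ^ (δ / 4) * (N : ℝ) ^ (δ / (4 * (s + 1)) * s) := by
            rw [← Real.rpow_mul_natCast hNpos.le]
        _ = (N : ℝ) ^ (δ / 4 + δ / (4 * (s + 1)) * s) := by rw [← Real.rpow_add hNpos]
        _ ≤ (N : ℝ) ^ (δ / 2) := by
            apply Real.rpow_le_rpow_of_exponent_le (by linarith)
            have h5 : δ / (4 * (s + 1)) * s ≤ δ / 4 := by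
              rw [div_mul_eq_mul_div, div_le_div_iff₀ (by positivity) (by positivity)]
              have : (0:ℝ) ≤ s := by positivity
              nlinarith
            linarith
    have h3 : (12 * C ^ 2 * Real.log N ^ 2 * κ) ^ (s * (s + 1)) * N
        ≤ ((N : ℝ) ^ δ) ^ (s + 1) := by
      calc (12 * C ^ 2 * Real.log N ^ 2 * κ) ^ (s * (s + 1)) * N
          = ((12 * C ^ 2 * Real.log N ^ 2 * κ) ^ s) ^ (s + 1) * N := by rw [pow_mul]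
        _ ≤ ((N : ℝ) ^ (δ / 2)) ^ (s + 1) * (N : ℝ) ^ (1 : ℝ) := by
            rw [Real.rpow_one]
            gcongr
        _ = (N : ℝ) ^ (δ / 2 * ((s + 1 : ℕ) : ℝ) + 1) := by
            rw [← Real.rpow_mul_natCast hNpos.le, ← Real.rpow_add hNpos]
        _ ≤ (N : ℝ) ^ (δ * ((s + 1 : ℕ) : ℝ)) := by
            apply Real.rpow_le_rpow_of_exponent_le (by linarith)
            push_cast
            nlinarith
        _ = ((N : ℝ) ^ δ) ^ (s + 1) := by rw [Real.rpow_mul_natCast hNpos.le]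
    have h4 : L0 ^ s ≤ L0 ^ (s + 1) := pow_le_pow_right₀ hL0 (by omega)
    rw [mul_pow ((N : ℝ) ^ δ) L0 (s + 1)]
    exact mul_le_mul h3 h4 (by positivity) (by positivity)
  exact ⟨fun y hy => hPα y L0 le_rfl (hbound y hy), fun y hy => hPβ y L0 le_rfl (hbound y hy)⟩

end Crest.Agent.R344
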