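import Crest.Agent.R344.RedFourier
import Crest.Agent.R344.Main

/-!
R344 / S0539, block [RED], part 4: from `REDHYP` to the frozen statement.
-/

set_option autoImplicit false

namespace Crest.Agent.R344.Red

open Crest.Quantum.Circuit Matrix Crest.Agent.R344

variable {N : ℕ}

theorem siteMat_eq_pm (w : Fin N) (A : Matrix Bool Bool ℂ) :
    siteMat w A = pm (Function.update (fun _ => (1 : Matrix Bool Bool ℂ)) w A) := by
  ext σ τ
  rw [siteMat_apply, pm_update_apply]
  have : (Function.update σ w (τ w) = τ) ↔ (∀ v, v ≠ w → σ v = τ v) := by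
    constructor
    · intro h v hv
      rw [← h, Function.update_of_ne hv]
    · intro h
      funext v
      by_cases hv : v = w
      · subst hv; simp
      · rw [Function.update_of_ne hv, h v hv]
  simp only [this]

theorem star_ofMat_pm (u : Fin N → Matrix Bool Bool ℂ) :
    star (ofMat (pm u)) = ofMat (pm fun w => (u w)ᴴ) := by
  rw [ofMat_star, Matrix.star_eq_conjTranspose, pm_conjTranspose]

theorem ofMat_pm_mem_unitary {u : Fin N → Matrix Bool Bool ℂ}
    (hu : ∀ w, u w ∈ Matrix.unitaryGroup Bool ℂ) : ofMat (pm u) ∈ unitary (Op N) := by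
  have h := pm_unitary hu
  have h1 := (Matrix.mem_unitaryGroup_iff).1 h
  have h2 := (Matrix.mem_unitaryGroup_iff').1 h
  rw [Unitary.mem_iff, ofMat_star, ← ofMat_mul, ← ofMat_mul, h1, h2, ofMat_one]
  exact ⟨rfl, rfl⟩

/-- moving a one-site operator through a product unitary -/
theorem site_mul_pm (w : Fin N) (A : Matrix Bool Bool ℂ) {u : Fin N → Matrix Bool Bool ℂ}
    (hu : ∀ w, u w ∈ Matrix.unitaryGroup Bool ℂ) :
    site w A * ofMat (pm u) = ofMat (pm u) * site w ((u w)ᴴ * A * u w) := by
  rw [site, site, siteMat_eq_pm, siteMat_eq_pm, ← ofMat_mul, ← ofMat_mul, Red.pm_mul, Red.pm_mul]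
  congr 2
  funext v
  by_cases hv : v = w
  · subst hv
    rw [Function.update_self, Function.update_self]
    have h1 : u v * (u v)ᴴ = 1 := by
      have := (Matrix.mem_unitaryGroup_iff).1 (hu v)
      rwa [Matrix.star_eq_conjTranspose] at this
    rw [← Matrix.mul_assoc, ← Matrix.mul_assoc, h1, Matrix.one_mul]
  · rw [Function.update_of_ne hv, Function.update_of_ne hv, Matrix.one_mul, Matrix.mul_one]

theorem supp_conj_pm {u : Fin N → Matrix Bool Bool ℂ}
    (hu : ∀ w, u w ∈ Matrix.unitaryGroup Bool ℂ) {J : Finset (Fin N)} {Y : Op N}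
    (hY : Supp J Y) : Supp J (ofMat (pm u) * Y * star (ofMat (pm u))) := by
  intro w hw A
  have hU := Unitary.mem_iff.1 (ofMat_pm_mem_unitary hu)
  set U := ofMat (pm u) with hUdef
  set A' := (u w)ᴴ * A * u w with hA'
  have e1 : site w A * U = U * site w A' := site_mul_pm w A hu
  have e2 : site w A' * star U = star U * site w A := by
    calc site w A' * star U = (star U * U) * site w A' * star U := by rw [hU.1, one_mul]
      _ = star U * (U * site w A') * star U := by simp only [mul_assoc]
      _ = star U * site w A * (U * star U) := by rw [← e1]; simp only [mul_assoc]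
      _ = star U * site w A := by rw [hU.2, mul_one]
  have e3 : site w A' * Y = Y * site w A' := hY w hw A'
  show site w A * (U * Y * star U) = U * Y * star U * site w A
  calc site w A * (U * Y * star U) = (site w A * U) * Y * star U := by simp only [mul_assoc]
    _ = U * (site w A' * Y) * star U := by rw [e1]; simp only [mul_assoc]
    _ = U * Y * (site w A' * star U) := by rw [e3]; simp only [mul_assoc]
    _ = _ := by rw [e2]; simp only [mul_assoc]

theorem LU_pm {u : Fin N → Matrix Bool Bool ℂ}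
    (hu : ∀ w, u w ∈ Matrix.unitaryGroup Bool ℂ) : LU (ofMat (pm u)) where
  unitary := ofMat_pm_mem_unitary hu
  conj := fun _ _ hY => supp_conj_pm hu hY
  conj' := fun J Y hY => by
    have hu' : ∀ w, (u w)ᴴ ∈ Matrix.unitaryGroup Bool ℂ := fun w => by
      rw [← Matrix.star_eq_conjTranspose]; exact Unitary.star_mem (hu w)
    have := supp_conj_pm hu' hY
    rw [star_ofMat_pm] at this
    rw [star_ofMat_pm]
    simpa using this

theorem gph_eq_czFun (Λ : Finset (Finset (Fin N))) : gph Λ = czFun Λ := by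
  funext σ
  unfold gph czFun
  apply Finset.prod_congr rfl
  intro U _
  have : (∀ w ∈ U, σ w = false) ↔ cnt U σ = 0 := by
    unfold cnt
    rw [Finset.card_eq_zero, Finset.filter_eq_empty_iff]
    simp
  simp only [this]

theorem circ_of_mcirc {k : ℕ} {C : Matrix (Fin N → Bool) (Fin N → Bool) ℂ} (hC : MCirc k C) :
    Circ k (ofMat C) := by
  induction hC with
  | base u hu => exact Circ.base _ (LU_pm hu)
  | step _ Λ hne hΛ u hu ih =>
    rw [ofMat_mul, ofMat_mul]
    have e : ofMat (Matrix.diagonal (gph Λ)) = cz Λ := by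
      rw [gph_eq_czFun]; rfl
    rw [e]
    refine Circ.step _ _ _ Λ ih (LU_pm hu) ?_
    intro U hU U' hU' hne
    exact hΛ U hU U' hU' hne

theorem norm_site_Zm (o : Fin N) : ‖site o Zm‖ ≤ 1 := by
  have e : site o Zm = dg (fun σ : Bits N => if σ o = true then -1 else 1) := by
    rw [site, siteMat_eq_pm, pm_Zm]; rfl
  rw [e]
  apply dg_norm_le _ _ zero_le_one
  intro σ
  split_ifs <;> simp

/-- **[RED]** -/
theorem red (H : REDHYP) (d c : ℕ) (ε : ℝ) (hε : 0 < ε) :
    ∃ n₀ : ℕ, ∀ n ≥ n₀, ∀ N : ℕ, n ≤ N → N ≤ n ^ c →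
      ∀ C : List (List (Gate N)), CircuitWF C → C.length ≤ d →
        ∀ o : Fin N, ∃ x : Fin n → Bool,
          outcomeProb o (parity x) (runCircuit C (basisState (inputString n x))) < 1 / 2 + ε := by
  obtain ⟨n₀, hn₀⟩ := H d c ε hε
  refine ⟨max n₀ 1, ?_⟩
  intro n hn N hnN hNc C hC hlen o
  have hn0 : n₀ ≤ n := le_trans (le_max_left _ _) hn
  have hn1 : 1 ≤ n := le_trans (le_max_right _ _) hn
  by_contra hcon
  push Not at hcon
  set U := cm C with hUdef
  have hUc : MCirc d U := (cm_circ C hC).mono hlen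
  have hUu := hUc.unitary
  have h1 : ∀ x : Fin n → Bool,
      1 / 2 + ε ≤ outcomeProb o (parity x) (U *ᵥ (basisState (inputString n x))) := by
    intro x
    rw [cm_mulVec C hC]
    exact hcon x
  obtain ⟨s, hs⟩ := exists_large n hnN ε U hUu o h1
  set V := pm (vs n s) with hV
  have hvu := vs_unitary (N := N) n s
  -- the circuit
  have hM : MCirc d (Vᴴ * Uᴴ) := by
    rw [hV, pm_conjTranspose]
    refine hUc.conjTranspose.pm_mul fun w => ?_
    rw [← Matrix.star_eq_conjTranspose]; exact Unitary.star_mem (hvu w)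
  have hCirc := circ_of_mcirc hM
  let F : Finset (Fin N) := Finset.univ.filter fun w : Fin N => (w : ℕ) < n
  have hlt := hn₀ n hn0 N hnN hNc (ofMat (Vᴴ * Uᴴ)) hCirc F {o} (site o Zm) (supp_site o Zm)
    (by simp) (norm_site_Zm o)
  have hT : ofMat (Vᴴ * Uᴴ) * site o Zm * star (ofMat (Vᴴ * Uᴴ)) =
      ofMat (Vᴴ * (Uᴴ * (pm (Function.update (fun _ => (1 : Matrix Bool Bool ℂ)) o Zm)) * U) * V) := by
    rw [site, siteMat_eq_pm, ofMat_star, ← ofMat_mul, ← ofMat_mul]
    congr 1
    rw [Matrix.star_eq_conjTranspose, Matrix.conjTranspose_mul, Matrix.conjTranspose_conjTranspose,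
      Matrix.conjTranspose_conjTranspose]
    simp only [Matrix.mul_assoc]
  rw [hT] at hlt
  set M := Vᴴ * (Uᴴ * (pm (Function.update (fun _ => (1 : Matrix Bool Bool ℂ)) o Zm)) * U) * V with hMdef
  have hcard : cnt F (oneS n : Fin N → Bool) = n := by
    unfold cnt
    have e : F.filter (fun i => (oneS n : Fin N → Bool) i = true) = F := by
      apply Finset.filter_true_of_mem
      intro i hi
      simp only [F, Finset.mem_filter, Finset.mem_univ, true_and] at hi
      simp [oneS, hi]
    rw [e]
    have e2 : F = (Finset.univ : Finset (Fin n)).map (Fin.castLEEmb hnN) := by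
      ext w
      simp only [F, Finset.mem_filter, Finset.mem_univ, true_and, Finset.mem_map]
      constructor
      · intro hw
        exact ⟨⟨w, hw⟩, Fin.ext rfl⟩
      · rintro ⟨i, hi⟩
        rw [← hi]
        exact i.2
    rw [e2, Finset.card_map, Finset.card_univ, Fintype.card_fin]
  have hzero : cnt F (zeroS : Fin N → Bool) = 0 := by
    unfold cnt zeroS
    simp
  let e0 : St N := EuclideanSpace.single (zeroS : Bits N) (1 : ℂ)
  have he0 : ‖e0‖ = 1 := by simp [e0]
  have hval : ((gtI F (n - 1) * ofMat M * leI F 0) e0) (oneS n) = M (oneS n) zeroS := by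
    show (gtI F (n - 1) (ofMat M (leI F 0 e0))) (oneS n) = _
    have hl : leI F 0 e0 = e0 := by
      ext σ
      rw [leI, dg_apply]
      by_cases hσ : σ = zeroS
      · subst hσ
        rw [hzero]; simp
      · simp [e0, hσ]
    rw [hl, gtI, dg_apply, hcard, if_pos (by omega), one_mul, ofMat_apply]
    rw [Finset.sum_eq_single (zeroS : Bits N)]
    · simp [e0]
    · intro τ _ hτ
      simp [e0, hτ]
    · simp
  have hge : ‖M (oneS n) zeroS‖ ≤ ‖gtI F (n - 1) * ofMat M * leI F 0‖ := by
    rw [← hval]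
    calc ‖((gtI F (n - 1) * ofMat M * leI F 0) e0) (oneS n)‖
        ≤ ‖(gtI F (n - 1) * ofMat M * leI F 0) e0‖ := PiLp.norm_apply_le _ _
      _ ≤ ‖gtI F (n - 1) * ofMat M * leI F 0‖ * ‖e0‖ := ContinuousLinearMap.le_opNorm _ _
      _ = _ := by rw [he0, mul_one]
  linarith

end Crest.Agent.R344.Red
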