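import Crest.Agent.R344.RedGate

/-!
R344 / S0539, block [RED], part 3: the Fourier identity and the outcome probabilities.
-/

set_option autoImplicit false

namespace Crest.Agent.R344.Red

open Crest.Quantum.Circuit Matrix

variable {N : ℕ}

/-- `H X^s`: entries `rr * (-1)^(x ∧ (y xor s))` -/
noncomputable def Qm (s : Bool) : Matrix Bool Bool ℂ :=
  Matrix.of fun x y => if x = true ∧ xor y s = true then -rr else rr

theorem Qm_unitary (s : Bool) : Qm s ∈ Matrix.unitaryGroup Bool ℂ := by
  rw [Matrix.mem_unitaryGroup_iff, Matrix.star_eq_conjTranspose]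
  ext a b
  simp only [Matrix.mul_apply, Fintype.sum_bool, Matrix.conjTranspose_apply, Qm, Matrix.of_apply,
    Matrix.one_apply]
  have h := rr_mul_rr
  cases a <;> cases b <;> cases s <;> simp [conj_rr, h] <;> norm_num

/-- the product basis change with signs `s` on the first `n` wires -/
noncomputable def vs (n : ℕ) (s : Fin N → Bool) : Fin N → Matrix Bool Bool ℂ :=
  fun w => if (w : ℕ) < n then Qm (s w) else 1

theorem vs_unitary (n : ℕ) (s : Fin N → Bool) (w : Fin N) :
    vs n s w ∈ Matrix.unitaryGroup Bool ℂ := by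
  unfold vs
  split_ifs
  · exact Qm_unitary _
  · exact one_mem _

/-- the string `1^n 0^(N-n)` -/
def oneS (n : ℕ) : Fin N → Bool := fun w => decide ((w : ℕ) < n)

/-- the string `0^N` -/
def zeroS : Fin N → Bool := fun _ => false

/-- one-site kernel -/
noncomputable def kw (n : ℕ) (w : Fin N) (a b : Bool) : ℂ :=
  if (w : ℕ) < n then (if a = b then (if a = true then -1 else 1) else 0)
  else (if a = false ∧ b = false then 2 else 0)

theorem sum_site (n : ℕ) (w : Fin N) (a b : Bool) :
    ∑ t : Bool, star ((if (w : ℕ) < n then Qm t else 1) a (oneS n w)) *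
      (if (w : ℕ) < n then Qm t else 1) b (zeroS w) = kw n w a b := by
  have h := rr_mul_rr
  by_cases hw : (w : ℕ) < n
  · simp only [hw, if_true, oneS, zeroS, kw, Fintype.sum_bool, Qm, Matrix.of_apply, decide_true]
    cases a <;> cases b <;> simp [conj_rr, h] <;> norm_num
  · simp only [hw, if_false, oneS, zeroS, kw, Fintype.sum_bool, decide_false]
    cases a <;> cases b <;> simp
    norm_num

/-- Fourier identity. -/
theorem fourier (n : ℕ) (W : Matrix (Fin N → Bool) (Fin N → Bool) ℂ) :
    ∑ s : Fin N → Bool, ((pm (vs n s))ᴴ * W * pm (vs n s)) (oneS n) zeroS =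
      ∑ σ : Fin N → Bool, W σ σ * ∏ w, kw n w (σ w) (σ w) := by
  have e1 : ∀ s : Fin N → Bool, ((pm (vs n s))ᴴ * W * pm (vs n s)) (oneS n) zeroS =
      ∑ σ : Fin N → Bool, ∑ τ : Fin N → Bool, W σ τ *
        ∏ w, (star (vs n s w (σ w) (oneS n w)) * vs n s w (τ w) (zeroS w)) := by
    intro s
    rw [Matrix.mul_apply]
    simp only [Matrix.mul_apply, Finset.sum_mul]
    rw [Finset.sum_comm]
    apply Finset.sum_congr rfl
    intro σ _
    apply Finset.sum_congr rfl
    intro τ _
    rw [Matrix.conjTranspose_apply, pm_apply, pm_apply, Finset.prod_mul_distrib, star_prod]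
    ring
  simp_rw [e1]
  rw [Finset.sum_comm]
  apply Finset.sum_congr rfl
  intro σ _
  rw [Finset.sum_comm]
  have e2 : ∀ τ : Fin N → Bool, ∑ s : Fin N → Bool, W σ τ *
        ∏ w, (star (vs n s w (σ w) (oneS n w)) * vs n s w (τ w) (zeroS w)) =
      W σ τ * ∏ w, kw n w (σ w) (τ w) := by
    intro τ
    rw [← Finset.mul_sum]
    congr 1
    have := Finset.prod_univ_sum (fun _ : Fin N => (Finset.univ : Finset Bool))
      (fun w t => star ((if (w : ℕ) < n then Qm t else 1) (σ w) (oneS n w)) *
        (if (w : ℕ) < n then Qm t else 1) (τ w) (zeroS w))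
    rw [Fintype.piFinset_univ] at this
    simp_rw [sum_site] at this
    rw [this]
    rfl
  simp_rw [e2]
  rw [Finset.sum_eq_single σ]
  · intro τ _ hne
    obtain ⟨w, hw⟩ := Function.ne_iff.mp hne
    have : ∏ w, kw n w (σ w) (τ w) = 0 := by
      refine Finset.prod_eq_zero (Finset.mem_univ w) ?_
      unfold kw
      split_ifs with h1 h2 h3 h4
      · exact absurd h2.symm hw
      · exact absurd h2.symm hw
      · rfl
      · exact absurd (h4.2.trans h4.1.symm) hw
      · rfl
    rw [this, mul_zero]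
  · simp

theorem norm_kw_sum (n : ℕ) : ∑ σ : Fin N → Bool, ‖∏ w, kw n w (σ w) (σ w)‖ = 2 ^ N := by
  have h := Finset.prod_univ_sum (fun _ : Fin N => (Finset.univ : Finset Bool))
      (fun w t => ‖kw n w t t‖)
  rw [Fintype.piFinset_univ] at h
  simp_rw [norm_prod]
  rw [← h]
  have : ∀ w : Fin N, ∑ t : Bool, ‖kw n w t t‖ = 2 := by
    intro w
    rw [Fintype.sum_bool]
    unfold kw
    by_cases hw : (w : ℕ) < n
    · simp [hw]; norm_num
    · simp [hw]
  simp_rw [this]
  simp

/-- the sign of a string -/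
theorem kw_prod (n : ℕ) (σ : Fin N → Bool) (hσ : ∀ w : Fin N, ¬ (w : ℕ) < n → σ w = false) :
    ∏ w, kw n w (σ w) (σ w) =
      (‖∏ w, kw n w (σ w) (σ w)‖ : ℂ) *
        (-1) ^ (Finset.univ.filter fun w : Fin N => σ w = true).card := by
  rw [norm_prod]
  push_cast
  have e : ((-1 : ℂ)) ^ (Finset.univ.filter fun w : Fin N => σ w = true).card =
      ∏ w : Fin N, if σ w = true then (-1 : ℂ) else 1 := by
    rw [Finset.prod_ite]; simp
  rw [e, ← Finset.prod_mul_distrib]
  apply Finset.prod_congr rfl
  intro w _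
  by_cases hw : (w : ℕ) < n
  · cases h : σ w <;> simp [kw, hw]
  · have := hσ w hw
    simp [kw, hw, this]

theorem kw_prod_zero (n : ℕ) (σ : Fin N → Bool) (w : Fin N) (hw : ¬ (w : ℕ) < n)
    (hσ : σ w = true) : ∏ w, kw n w (σ w) (σ w) = 0 := by
  refine Finset.prod_eq_zero (Finset.mem_univ w) ?_
  simp [kw, hw, hσ]

/-- `Z` on one site -/
def Zm : Matrix Bool Bool ℂ := Matrix.diagonal fun a => if a = true then -1 else 1

theorem pm_Zm (o : Fin N) : pm (Function.update (fun _ => (1 : Matrix Bool Bool ℂ)) o Zm) =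
    Matrix.diagonal fun σ : Fin N → Bool => if σ o = true then -1 else 1 := by
  ext σ τ
  rw [pm_update_apply, Matrix.diagonal_apply]
  by_cases h : σ = τ
  · subst h
    simp [Zm]
  · rw [if_neg h]
    split_ifs with h1
    · unfold Zm
      rw [Matrix.diagonal_apply_ne]
      intro h2
      apply h
      funext w
      by_cases hw : w = o
      · subst hw; exact h2
      · exact h1 w hw
    · rfl

/-- the basis state -/
theorem mulVec_basisState (U : Matrix (Fin N → Bool) (Fin N → Bool) ℂ) (τ : Fin N → Bool) :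
    U *ᵥ (basisState τ) = fun σ => U σ τ := by
  funext σ
  simp only [Matrix.mulVec, dotProduct, basisState]
  simp

theorem outcome_diag (U : Matrix (Fin N → Bool) (Fin N → Bool) ℂ)
    (hU : U ∈ Matrix.unitaryGroup (Fin N → Bool) ℂ) (o : Fin N) (τ : Fin N → Bool) (b : Bool) :
    (Uᴴ * (pm (Function.update (fun _ => (1 : Matrix Bool Bool ℂ)) o Zm)) * U) τ τ =
      (((if b = true then -1 else 1) * (2 * outcomeProb o b (U *ᵥ (basisState τ)) - 1) : ℝ) : ℂ) := by
  rw [pm_Zm, mulVec_basisState]
  have h1 : ∑ σ : Fin N → Bool, ‖U σ τ‖ ^ 2 = 1 := by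
    have := (Matrix.mem_unitaryGroup_iff').1 hU
    have := congrFun (congrFun this τ) τ
    rw [Matrix.mul_apply, Matrix.one_apply_eq] at this
    have h2 : ((∑ σ : Fin N → Bool, ‖U σ τ‖ ^ 2 : ℝ) : ℂ) = 1 := by
      rw [← this]
      push_cast
      apply Finset.sum_congr rfl
      intro σ _
      rw [Matrix.star_apply, ← Complex.conj_mul' (U σ τ)]
      rfl
    exact_mod_cast h2
  have h3 : (Uᴴ * (Matrix.diagonal fun σ : Fin N → Bool => if σ o = true then (-1 : ℂ) else 1) * U) τ τ
      = ((∑ σ : Fin N → Bool, (if σ o = true then -1 else 1) * ‖U σ τ‖ ^ 2 : ℝ) : ℂ) := by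
    rw [Matrix.mul_apply]
    push_cast
    apply Finset.sum_congr rfl
    intro σ _
    rw [Matrix.mul_diagonal, Matrix.conjTranspose_apply, ← Complex.conj_mul' (U σ τ)]
    have : (starRingEnd ℂ) (U σ τ) = star (U σ τ) := rfl
    rw [this]
    split_ifs <;> push_cast <;> ring
  rw [h3]
  congr 1
  unfold outcomeProb
  have h4 : ∀ σ : Fin N → Bool, (if σ o = true then (-1 : ℝ) else 1) * ‖U σ τ‖ ^ 2 =
      (if b = true then -1 else 1) * (2 * (if σ o = b then ‖U σ τ‖ ^ 2 else 0) - ‖U σ τ‖ ^ 2) := by
    intro σ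
    cases hb : b <;> cases hs : σ o <;> simp <;> ring
  simp_rw [h4]
  rw [← Finset.mul_sum, Finset.sum_sub_distrib, ← Finset.mul_sum, h1]

theorem neg_one_pow_parity {n : ℕ} (x : Fin n → Bool) :
    ((-1 : ℝ)) ^ (Finset.univ.filter fun i => x i = true).card =
      if parity x = true then -1 else 1 := by
  unfold parity
  generalize (Finset.univ.filter fun i => x i = true).card = k
  induction k with
  | zero => simp
  | succ k ih =>
    rw [pow_succ, ih, Nat.bodd_succ]
    cases Nat.bodd k <;> simp

/-- If a circuit computes parity with advantage `ε`, then some pair of product states at distance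
`n` has a large matrix element of `U† Z_o U`. -/
theorem exists_large (n : ℕ) (hn : n ≤ N) (ε : ℝ)
    (U : Matrix (Fin N → Bool) (Fin N → Bool) ℂ) (hU : U ∈ Matrix.unitaryGroup (Fin N → Bool) ℂ)
    (o : Fin N)
    (h : ∀ x : Fin n → Bool,
      1 / 2 + ε ≤ outcomeProb o (parity x) (U *ᵥ (basisState (inputString n x)))) :
    ∃ s : Fin N → Bool, 2 * ε ≤
      ‖((pm (vs n s))ᴴ * (Uᴴ * (pm (Function.update (fun _ => (1 : Matrix Bool Bool ℂ)) o Zm)) * U) *
        pm (vs n s)) (oneS n) zeroS‖ := by
  by_contra hcon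
  push Not at hcon
  set W := Uᴴ * (pm (Function.update (fun _ => (1 : Matrix Bool Bool ℂ)) o Zm)) * U with hW
  have hF := fourier n W
  -- upper bound
  have hub : ‖∑ s : Fin N → Bool, ((pm (vs n s))ᴴ * W * pm (vs n s)) (oneS n) zeroS‖ <
      2 ^ N * (2 * ε) := by
    calc _ ≤ ∑ s : Fin N → Bool, ‖((pm (vs n s))ᴴ * W * pm (vs n s)) (oneS n) zeroS‖ :=
          norm_sum_le _ _
      _ < ∑ _s : Fin N → Bool, 2 * ε :=
          Finset.sum_lt_sum_of_nonempty Finset.univ_nonempty fun s _ => hcon s
      _ = 2 ^ N * (2 * ε) := by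
          rw [Finset.sum_const, Finset.card_univ, Fintype.card_fun, Fintype.card_bool,
            Fintype.card_fin, nsmul_eq_mul]
          push_cast; ring
  -- lower bound
  have hterm : ∀ σ : Fin N → Bool, ∃ r : ℝ, W σ σ * ∏ w, kw n w (σ w) (σ w) = (r : ℂ) ∧
      ‖∏ w, kw n w (σ w) (σ w)‖ * (2 * ε) ≤ r := by
    intro σ
    by_cases hσ : ∀ w : Fin N, ¬ (w : ℕ) < n → σ w = false
    · let x : Fin n → Bool := fun i => σ ⟨i, lt_of_lt_of_le i.2 hn⟩
      have hx : inputString n x = σ := by
        funext w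
        unfold inputString
        split_ifs with hw
        · rfl
        · exact (hσ w hw).symm
      have hcard : (Finset.univ.filter fun w : Fin N => σ w = true).card =
          (Finset.univ.filter fun i => x i = true).card := by
        symm
        refine Finset.card_bij (fun i _ => (⟨i, lt_of_lt_of_le i.2 hn⟩ : Fin N)) ?_ ?_ ?_
        · intro i hi
          simp only [Finset.mem_filter, Finset.mem_univ, true_and] at hi ⊢
          exact hi
        · intro i _ j _ hij
          have := congrArg Fin.val hij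
          exact Fin.ext this
        · intro w hw
          simp only [Finset.mem_filter, Finset.mem_univ, true_and] at hw
          have hwn : (w : ℕ) < n := by
            by_contra hc
            rw [hσ w hc] at hw
            exact absurd hw (by simp)
          exact ⟨⟨w, hwn⟩, by simpa [x] using hw, rfl⟩
      have hW1 := outcome_diag U hU o σ (parity x)
      have hW2 := h x
      rw [hx] at hW2
      set p := outcomeProb o (parity x) (U *ᵥ (basisState σ)) with hp
      refine ⟨‖∏ w, kw n w (σ w) (σ w)‖ * (2 * p - 1), ?_, ?_⟩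
      · rw [kw_prod n σ hσ, hcard]
        have e1 : ((-1 : ℂ)) ^ (Finset.univ.filter fun i => x i = true).card =
            (((if parity x = true then -1 else 1 : ℝ)) : ℂ) := by
          rw [← neg_one_pow_parity]; push_cast; rfl
        have e2 : W σ σ = (((if parity x = true then -1 else 1) * (2 * p - 1) : ℝ) : ℂ) := hW1
        rw [e1, e2]
        simp only [norm_mul, Complex.norm_real, norm_norm]
        split_ifs <;> push_cast <;> simp <;> ring
      · apply mul_le_mul_of_nonneg_left _ (norm_nonneg _)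
        linarith
    · push Not at hσ
      obtain ⟨w, hw, hne⟩ := hσ
      have hne' : σ w = true := by simpa using hne
      have h0 := kw_prod_zero n σ w (by omega) hne'
      exact ⟨0, by rw [h0]; simp, by rw [h0]; simp⟩
  choose r hr1 hr2 using hterm
  have hlb : 2 ^ N * (2 * ε) ≤
      ‖∑ s : Fin N → Bool, ((pm (vs n s))ᴴ * W * pm (vs n s)) (oneS n) zeroS‖ := by
    rw [hF]
    simp_rw [hr1]
    rw [← Complex.ofReal_sum, Complex.norm_real]
    refine le_trans ?_ (le_abs_self _)
    calc (2 : ℝ) ^ N * (2 * ε) = ∑ σ : Fin N → Bool, ‖∏ w, kw n w (σ w) (σ w)‖ * (2 * ε) := by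
          rw [← Finset.sum_mul, norm_kw_sum]
      _ ≤ ∑ σ : Fin N → Bool, r σ := Finset.sum_le_sum fun σ _ => hr2 σ
  exact absurd hub (not_lt.mpr hlb)

end Crest.Agent.R344.Red
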