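import Crest.Agent.R344.RedModel

/-!
R344 / S0539, block [RED], part 2: gates, layers and circuits of the Lean model in normal form.
-/

set_option autoImplicit false

namespace Crest.Agent.R344.Red

open Crest.Quantum.Circuit Matrix

variable {N : ℕ}

/-- `1/√2` -/
noncomputable def rr : ℂ := (((Real.sqrt 2)⁻¹ : ℝ) : ℂ)

theorem rr_mul_rr : rr * rr = 1 / 2 := by
  unfold rr
  rw [← Complex.ofReal_mul, ← mul_inv, Real.mul_self_sqrt (by norm_num)]
  push_cast; norm_num

theorem star_rr : star rr = rr := by
  unfold rr; exact Complex.conj_ofReal _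

theorem conj_rr : (starRingEnd ℂ) rr = rr := star_rr

/-- one-site projection onto `|0⟩` -/
def P0 : Matrix Bool Bool ℂ := Matrix.of fun a b => if a = false ∧ b = false then 1 else 0
/-- one-site projection onto `|1⟩` -/
def P1 : Matrix Bool Bool ℂ := Matrix.of fun a b => if a = true ∧ b = true then 1 else 0
/-- one-site projection onto `|-⟩` -/
noncomputable def Mm : Matrix Bool Bool ℂ := Matrix.of fun a b => if a = b then 1/2 else -(1/2)
/-- bit flip -/
def Xm : Matrix Bool Bool ℂ := Matrix.of fun a b => if a = b then 0 else 1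
/-- `X H` -/
noncomputable def XH : Matrix Bool Bool ℂ := Matrix.of fun a b => if a = false ∧ b = true then -rr else rr

theorem Xm_unitary : Xm ∈ Matrix.unitaryGroup Bool ℂ := by
  rw [Matrix.mem_unitaryGroup_iff, Matrix.star_eq_conjTranspose]
  ext a b
  simp only [Matrix.mul_apply, Fintype.sum_bool, Matrix.conjTranspose_apply, Xm, Matrix.of_apply,
    Matrix.one_apply]
  cases a <;> cases b <;> simp

theorem XH_unitary : XH ∈ Matrix.unitaryGroup Bool ℂ := by
  rw [Matrix.mem_unitaryGroup_iff, Matrix.star_eq_conjTranspose]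
  ext a b
  simp only [Matrix.mul_apply, Fintype.sum_bool, Matrix.conjTranspose_apply, XH, Matrix.of_apply,
    Matrix.one_apply]
  have h := rr_mul_rr
  cases a <;> cases b <;> simp [conj_rr, h] <;> norm_num

theorem Xm_conj_P0 : Xmᴴ * P0 * Xm = P1 := by
  ext a b
  simp only [Matrix.mul_apply, Fintype.sum_bool, Matrix.conjTranspose_apply, Xm, P0, P1,
    Matrix.of_apply]
  cases a <;> cases b <;> simp

theorem XH_conj_P0 : XHᴴ * P0 * XH = Mm := by
  ext a b
  simp only [Matrix.mul_apply, Fintype.sum_bool, Matrix.conjTranspose_apply, XH, P0, Mm,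
    Matrix.of_apply]
  have h := rr_mul_rr
  cases a <;> cases b <;> simp [conj_rr, h]

theorem pm_update_apply (i : Fin N) (U : Matrix Bool Bool ℂ) (σ τ : Fin N → Bool) :
    pm (Function.update (fun _ => 1) i U) σ τ =
      if ∀ w, w ≠ i → σ w = τ w then U (σ i) (τ i) else 0 := by
  rw [pm_apply]
  split_ifs with h
  · rw [Finset.prod_eq_single i]
    · simp
    · intro w _ hw
      rw [Function.update_of_ne hw, h w hw, Matrix.one_apply_eq]
    · simp
  · push Not at h
    obtain ⟨w, hw, hne⟩ := h
    refine Finset.prod_eq_zero (Finset.mem_univ w) ?_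
    rw [Function.update_of_ne hw, Matrix.one_apply_ne hne]

theorem pm_update_mulVec (i : Fin N) (U : Matrix Bool Bool ℂ) (ψ : (Fin N → Bool) → ℂ)
    (σ : Fin N → Bool) :
    (pm (Function.update (fun _ => 1) i U) *ᵥ ψ) σ =
      ∑ b : Bool, U (σ i) b * ψ (Function.update σ i b) := by
  simp only [Matrix.mulVec, dotProduct]
  simp_rw [pm_update_apply, ite_mul, zero_mul]
  rw [← Finset.sum_filter]
  symm
  refine Finset.sum_bij (fun b _ => Function.update σ i b) ?_ ?_ ?_ ?_
  · intro b _
    simp only [Finset.mem_filter, Finset.mem_univ, true_and]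
    intro w hw
    rw [Function.update_of_ne hw]
  · intro b _ b' _ h
    have := congrFun h i
    simpa using this
  · intro τ hτ
    simp only [Finset.mem_filter, Finset.mem_univ, true_and] at hτ
    refine ⟨τ i, Finset.mem_univ _, ?_⟩
    funext w
    by_cases hw : w = i
    · subst hw; simp
    · rw [Function.update_of_ne hw, hτ w hw]
  · intro b _
    simp

/-- the product projection on the all-zero string of `U`, as a product matrix -/
theorem diagonal_gph_singleton (U : Finset (Fin N)) :
    Matrix.diagonal (gph {U}) =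
      1 - (2 : ℂ) • pm (fun w => if w ∈ U then P0 else 1) := by
  ext σ τ
  rw [Matrix.sub_apply, Matrix.smul_apply, Matrix.diagonal_apply, Matrix.one_apply, pm_apply]
  simp only [gph, Finset.prod_singleton]
  by_cases h : σ = τ
  · subst h
    simp only [if_true]
    by_cases hU : ∀ w ∈ U, σ w = false
    · have : ∏ w, (if w ∈ U then P0 else (1 : Matrix Bool Bool ℂ)) (σ w) (σ w) = 1 := by
        apply Finset.prod_eq_one
        intro w _
        by_cases hw : w ∈ U
        · simp [hw, P0, hU w hw]
        · simp [hw]
      rw [this, if_pos hU]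
      norm_num
    · have : ∏ w, (if w ∈ U then P0 else (1 : Matrix Bool Bool ℂ)) (σ w) (σ w) = 0 := by
        push Not at hU
        obtain ⟨w, hw, hne⟩ := hU
        refine Finset.prod_eq_zero (Finset.mem_univ w) ?_
        simp [hw, P0, hne]
      rw [this, if_neg hU]
      norm_num
  · have : ∏ w, (if w ∈ U then P0 else (1 : Matrix Bool Bool ℂ)) (σ w) (τ w) = 0 := by
      obtain ⟨w, hne⟩ := Function.ne_iff.mp h
      refine Finset.prod_eq_zero (Finset.mem_univ w) ?_
      by_cases hw : w ∈ U
      · simp only [hw, if_true, P0, Matrix.of_apply]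
        rw [if_neg]
        rintro ⟨h1, h2⟩
        exact hne (h1.trans h2.symm)
      · simp only [hw, if_false]
        exact Matrix.one_apply_ne hne
    rw [this, if_neg h, if_neg h]
    simp

/-- basis change of a Toffoli gate -/
noncomputable def tc (S : Finset (Fin N)) (t : Fin N) : Fin N → Matrix Bool Bool ℂ :=
  fun w => if w = t then XH else if w ∈ S then Xm else 1

theorem tc_unitary (S : Finset (Fin N)) (t : Fin N) (w : Fin N) :
    tc S t w ∈ Matrix.unitaryGroup Bool ℂ := by
  unfold tc
  split_ifs
  · exact XH_unitary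
  · exact Xm_unitary
  · exact one_mem _

theorem tc_eq_one (S : Finset (Fin N)) (t : Fin N) (w : Fin N) (hw : w ∉ insert t S) :
    tc S t w = 1 := by
  unfold tc
  rw [Finset.mem_insert, not_or] at hw
  rw [if_neg hw.1, if_neg hw.2]

/-- the matrix of a gate -/
noncomputable def gm : Gate N → Matrix (Fin N → Bool) (Fin N → Bool) ℂ
  | Gate.oneQubit i U => pm (Function.update (fun _ => 1) i U)
  | Gate.toffoli S t =>
      pm (fun w => (tc S t w)ᴴ) * Matrix.diagonal (gph {insert t S}) * pm (tc S t)

theorem unitary_conj_mul {U : Matrix Bool Bool ℂ} (h : U ∈ Matrix.unitaryGroup Bool ℂ) :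
    Uᴴ * U = 1 := by
  have := (Matrix.mem_unitaryGroup_iff').1 h
  rwa [Matrix.star_eq_conjTranspose] at this

theorem toffoli_matrix (S : Finset (Fin N)) (t : Fin N) (ht : t ∉ S) :
    pm (fun w => (tc S t w)ᴴ) * Matrix.diagonal (gph {insert t S}) * pm (tc S t) =
      1 - (2 : ℂ) • (Matrix.diagonal (fun σ : Fin N → Bool => if ∀ w ∈ S, σ w = true then 1 else 0)
        * pm (Function.update (fun _ => 1) t Mm)) := by
  rw [diagonal_gph_singleton, Matrix.mul_sub, Matrix.sub_mul, Matrix.mul_one, pm_mul,
    Matrix.mul_smul, Matrix.smul_mul, pm_mul, pm_mul]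
  have h1 : (fun w => (tc S t w)ᴴ * tc S t w) = fun _ => 1 := by
    funext w; exact unitary_conj_mul (tc_unitary S t w)
  rw [h1, pm_one]
  congr 2
  have h2 : (fun w => (tc S t w)ᴴ * (if w ∈ insert t S then P0 else 1) * tc S t w) =
      fun w => (if w ∈ S then P1 else 1) * Function.update (fun _ => (1 : Matrix Bool Bool ℂ)) t Mm w := by
    funext w
    by_cases hwt : w = t
    · subst hwt
      have e1 : tc S w w = XH := by simp [tc]
      rw [e1, if_pos (Finset.mem_insert_self _ _), XH_conj_P0, if_neg ht, Function.update_self,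
        one_mul]
    · rw [Function.update_of_ne hwt, mul_one]
      by_cases hw : w ∈ S
      · have e1 : tc S t w = Xm := by simp [tc, hwt, hw]
        rw [e1, if_pos (Finset.mem_insert_of_mem hw), if_pos hw, Xm_conj_P0]
      · have hw' : w ∉ insert t S := by simp [hwt, hw]
        rw [tc_eq_one S t w hw', if_neg hw', if_neg hw]
        simp
  rw [h2, ← pm_mul]
  congr 1
  ext σ τ
  rw [Matrix.diagonal_apply, pm_apply]
  by_cases h : σ = τ
  · subst h
    rw [if_pos rfl]
    by_cases hS : ∀ w ∈ S, σ w = true
    · rw [if_pos hS]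
      apply Finset.prod_eq_one
      intro w _
      by_cases hw : w ∈ S
      · simp [hw, P1, hS w hw]
      · simp [hw]
    · rw [if_neg hS]
      push Not at hS
      obtain ⟨w, hw, hne⟩ := hS
      refine Finset.prod_eq_zero (Finset.mem_univ w) ?_
      simp [hw, P1, hne]
  · rw [if_neg h]
    obtain ⟨w, hne⟩ := Function.ne_iff.mp h
    refine Finset.prod_eq_zero (Finset.mem_univ w) ?_
    by_cases hw : w ∈ S
    · simp only [hw, if_true, P1, Matrix.of_apply]
      rw [if_neg]
      rintro ⟨h1, h2⟩
      exact hne (h1.trans h2.symm)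
    · simp only [hw, if_false]
      exact Matrix.one_apply_ne hne

theorem gm_mulVec (g : Gate N) (hg : g.WellFormed) (ψ : QState N) :
    gm g *ᵥ ψ = g.apply ψ := by
  cases g with
  | oneQubit i U =>
    funext σ
    exact pm_update_mulVec i U ψ σ
  | toffoli S t =>
    have ht : t ∉ S := hg
    show (pm (fun w => (tc S t w)ᴴ) * Matrix.diagonal (gph {insert t S}) * pm (tc S t)) *ᵥ ψ = _
    rw [toffoli_matrix S t ht]
    funext σ
    rw [Matrix.sub_mulVec, Matrix.one_mulVec, Matrix.smul_mulVec, ← Matrix.mulVec_mulVec]
    simp only [Pi.sub_apply, Pi.smul_apply, Matrix.mulVec_diagonal]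
    rw [pm_update_mulVec]
    simp only [Gate.apply]
    by_cases hS : ∀ w ∈ S, σ w = true
    · rw [if_pos hS, decide_eq_true hS]
      have e : Function.update σ t (σ t) = σ := Function.update_eq_self _ _
      cases hσ : σ t
      · rw [hσ] at e
        simp [Mm, e]
        ring
      · rw [hσ] at e
        simp [Mm, e]
        ring
    · rw [if_neg hS, decide_eq_false hS]
      simp

/-- the matrix of a layer -/
noncomputable def lm : List (Gate N) → Matrix (Fin N → Bool) (Fin N → Bool) ℂ
  | [] => 1
  | g :: L => lm L * gm g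

theorem lm_mulVec (L : List (Gate N)) (hL : ∀ g ∈ L, g.WellFormed) (ψ : QState N) :
    lm L *ᵥ ψ = applyLayer L ψ := by
  induction L generalizing ψ with
  | nil => simp [lm, applyLayer]
  | cons g L ih =>
    have h1 : applyLayer (g :: L) ψ = applyLayer L (g.apply ψ) := rfl
    rw [h1, ← ih (fun g' hg' => hL g' (List.mem_cons_of_mem _ hg')), lm, ← Matrix.mulVec_mulVec,
      gm_mulVec g (hL g List.mem_cons_self)]

/-- normal form of a layer -/
theorem layer_normal (L : List (Gate N)) (hL : LayerWF L) :
    ∃ (a b : Fin N → Matrix Bool Bool ℂ) (Λ : Finset (Finset (Fin N))),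
      (∀ w, a w ∈ Matrix.unitaryGroup Bool ℂ) ∧ (∀ w, b w ∈ Matrix.unitaryGroup Bool ℂ) ∧
      (∀ w, (∀ g ∈ L, w ∉ g.support) → a w = 1) ∧ (∀ w, (∀ g ∈ L, w ∉ g.support) → b w = 1) ∧
      (∀ U ∈ Λ, ∀ w ∈ U, ∃ g ∈ L, w ∈ g.support) ∧
      (∀ U ∈ Λ, U.Nonempty) ∧ (∀ U ∈ Λ, ∀ U' ∈ Λ, U ≠ U' → Disjoint U U') ∧
      lm L = pm a * Matrix.diagonal (gph Λ) * pm b := by
  induction L with
  | nil =>
    refine ⟨fun _ => 1, fun _ => 1, ∅, fun _ => one_mem _, fun _ => one_mem _, fun _ _ => rfl,
      fun _ _ => rfl, by simp, by simp, by simp, ?_⟩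
    rw [gph_empty, pm_one, lm]
    have h1 : Matrix.diagonal (fun _ : Fin N → Bool => (1 : ℂ)) = 1 := Matrix.diagonal_one
    rw [h1]; simp
  | cons g L ih =>
    obtain ⟨hwf, hpw⟩ := hL
    rw [List.pairwise_cons] at hpw
    obtain ⟨hdis, hpw⟩ := hpw
    obtain ⟨a, b, Λ, ha, hb, ha1, hb1, hΛs, hΛne, hΛd, hlm⟩ :=
      ih ⟨fun g' hg' => hwf g' (List.mem_cons_of_mem _ hg'), hpw⟩
    have hout : ∀ w ∈ g.support, ∀ g' ∈ L, w ∉ g'.support := by
      intro w hw g' hg' hw'
      exact (Finset.disjoint_left.1 (hdis g' hg')) hw hw'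
    cases g with
    | oneQubit i U =>
      refine ⟨a, fun w => b w * Function.update (fun _ => (1 : Matrix Bool Bool ℂ)) i U w, Λ, ha, ?_, ?_, ?_, ?_, hΛne,
        hΛd, ?_⟩
      · intro w
        refine mul_mem (hb w) ?_
        by_cases hw : w = i
        · subst hw
          rw [Function.update_self]
          exact hwf _ List.mem_cons_self
        · rw [Function.update_of_ne hw]
          exact one_mem _
      · intro w hw
        exact ha1 w fun g' hg' => hw g' (List.mem_cons_of_mem _ hg')
      · intro w hw
        have h1 : w ≠ i := by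
          intro h
          exact hw _ List.mem_cons_self (by simp [Gate.support, h])
        show b w * Function.update (fun _ => (1 : Matrix Bool Bool ℂ)) i U w = 1
        rw [Function.update_of_ne h1, mul_one]
        exact hb1 w fun g' hg' => hw g' (List.mem_cons_of_mem _ hg')
      · intro V hV w hw
        obtain ⟨g', hg', h⟩ := hΛs V hV w hw
        exact ⟨g', List.mem_cons_of_mem _ hg', h⟩
      · rw [lm, hlm, gm, Matrix.mul_assoc _ (pm b), pm_mul]
    | toffoli S t =>
      have hsup : ∀ w ∈ insert t S, ∀ g' ∈ L, w ∉ g'.support := hout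
      have hnotin : insert t S ∉ Λ := by
        intro h
        obtain ⟨g', hg', h'⟩ := hΛs _ h t (Finset.mem_insert_self _ _)
        exact hsup t (Finset.mem_insert_self _ _) g' hg' h'
      refine ⟨fun w => a w * (tc S t w)ᴴ, fun w => b w * tc S t w, insert (insert t S) Λ,
        ?_, ?_, ?_, ?_, ?_, ?_, ?_, ?_⟩
      · intro w
        refine mul_mem (ha w) ?_
        rw [← Matrix.star_eq_conjTranspose]
        exact Unitary.star_mem (tc_unitary S t w)
      · intro w
        exact mul_mem (hb w) (tc_unitary S t w)
      · intro w hw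
        have h1 : w ∉ insert t S := fun h => hw _ List.mem_cons_self h
        show a w * (tc S t w)ᴴ = 1
        rw [tc_eq_one S t w h1, Matrix.conjTranspose_one, mul_one]
        exact ha1 w fun g' hg' => hw g' (List.mem_cons_of_mem _ hg')
      · intro w hw
        have h1 : w ∉ insert t S := fun h => hw _ List.mem_cons_self h
        show b w * tc S t w = 1
        rw [tc_eq_one S t w h1, mul_one]
        exact hb1 w fun g' hg' => hw g' (List.mem_cons_of_mem _ hg')
      · intro V hV w hw
        rcases Finset.mem_insert.1 hV with h | h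
        · subst h
          exact ⟨_, List.mem_cons_self, hw⟩
        · obtain ⟨g', hg', h'⟩ := hΛs V h w hw
          exact ⟨g', List.mem_cons_of_mem _ hg', h'⟩
      · intro V hV
        rcases Finset.mem_insert.1 hV with h | h
        · subst h; exact ⟨t, Finset.mem_insert_self _ _⟩
        · exact hΛne V h
      · intro V hV V' hV' hne
        have key : ∀ V ∈ Λ, Disjoint (insert t S) V := by
          intro V hV
          rw [Finset.disjoint_left]
          intro w hw hw'
          obtain ⟨g', hg', h'⟩ := hΛs V hV w hw'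
          exact hsup w hw g' hg' h'
        rcases Finset.mem_insert.1 hV with h | h <;> rcases Finset.mem_insert.1 hV' with h' | h'
        · exact absurd (h.trans h'.symm) hne
        · subst h; exact key V' h'
        · subst h'; exact (key V h).symm
        · exact hΛd V h V' h' hne
      · have e1 : pm b * (pm (fun w => (tc S t w)ᴴ)) = pm (fun w => (tc S t w)ᴴ) * pm b := by
          rw [pm_mul, pm_mul]
          congr 1
          funext w
          by_cases hw : w ∈ insert t S
          · rw [hb1 w (hsup w hw), one_mul, mul_one]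
          · rw [tc_eq_one S t w hw, Matrix.conjTranspose_one, one_mul, mul_one]
        have e2 : Matrix.diagonal (gph {insert t S}) * pm b =
            pm b * Matrix.diagonal (gph {insert t S}) := by
          refine diagonal_comm_pm (S := {w | w ∈ insert t S}) ?_ ?_
          · intro σ τ h
            refine gph_congr (S := {w | w ∈ insert t S}) ?_ σ τ h
            intro U hU w hw
            rw [Finset.mem_singleton] at hU
            subst hU
            exact hw
          · intro w hw
            exact hb1 w (hsup w hw)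
        have e3 : Matrix.diagonal (gph Λ) * pm (fun w => (tc S t w)ᴴ) =
            pm (fun w => (tc S t w)ᴴ) * Matrix.diagonal (gph Λ) := by
          refine diagonal_comm_pm (S := {w | ∃ g' ∈ L, w ∈ g'.support}) ?_ ?_
          · intro σ τ h
            refine gph_congr (S := {w | ∃ g' ∈ L, w ∈ g'.support}) ?_ σ τ h
            intro U hU w hw
            exact hΛs U hU w hw
          · intro w hw
            obtain ⟨g', hg', h'⟩ := hw
            have : w ∉ insert t S := fun h => hsup w h g' hg' h'
            rw [tc_eq_one S t w this, Matrix.conjTranspose_one]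
        have e4 : Matrix.diagonal (gph Λ) * Matrix.diagonal (gph {insert t S}) =
            Matrix.diagonal (gph (insert (insert t S) Λ)) := by
          rw [Matrix.diagonal_mul_diagonal]
          congr 1
          funext σ
          rw [gph, gph, gph, Finset.prod_insert hnotin, Finset.prod_singleton, mul_comm]
        rw [lm, hlm, gm, ← pm_mul, ← pm_mul, ← e4]
        calc pm a * Matrix.diagonal (gph Λ) * pm b *
              (pm (fun w => (tc S t w)ᴴ) * Matrix.diagonal (gph {insert t S}) * pm (tc S t))
            = pm a * Matrix.diagonal (gph Λ) * (pm b * pm (fun w => (tc S t w)ᴴ)) *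
                Matrix.diagonal (gph {insert t S}) * pm (tc S t) := by
              simp only [Matrix.mul_assoc]
          _ = pm a * (Matrix.diagonal (gph Λ) * pm (fun w => (tc S t w)ᴴ)) * (pm b *
                Matrix.diagonal (gph {insert t S})) * pm (tc S t) := by
              rw [e1]; simp only [Matrix.mul_assoc]
          _ = _ := by
              rw [e3, ← e2]; simp only [Matrix.mul_assoc]

/-- the matrix of a circuit -/
noncomputable def cm : List (List (Gate N)) → Matrix (Fin N → Bool) (Fin N → Bool) ℂ
  | [] => 1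
  | L :: C => cm C * lm L

theorem cm_mulVec (C : List (List (Gate N))) (hC : CircuitWF C) (ψ : QState N) :
    cm C *ᵥ ψ = runCircuit C ψ := by
  induction C generalizing ψ with
  | nil => simp [cm, runCircuit]
  | cons L C ih =>
    have h1 : runCircuit (L :: C) ψ = runCircuit C (applyLayer L ψ) := rfl
    rw [h1, ← ih (fun L' hL' => hC L' (List.mem_cons_of_mem _ hL')), cm, ← Matrix.mulVec_mulVec,
      lm_mulVec L (hC L List.mem_cons_self).1]

theorem cm_circ (C : List (List (Gate N))) (hC : CircuitWF C) : MCirc C.length (cm C) := by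
  induction C with
  | nil => exact MCirc.one
  | cons L C ih =>
    obtain ⟨a, b, Λ, ha, hb, -, -, -, hne, hd, hlm⟩ := layer_normal L (hC L List.mem_cons_self)
    have h1 := ih (fun L' hL' => hC L' (List.mem_cons_of_mem _ hL'))
    have h2 := MCirc.step (h1.mul_pm ha) Λ hne hd b hb
    rw [cm, hlm, List.length_cons]
    convert h2 using 1
    simp only [Matrix.mul_assoc]

end Crest.Agent.R344.Red
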