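import Mathlib
import Crest.Prelude.Def_QCircuit

/-!
R344 / S0539, block [RED], part 1: matrices of gates, layers and circuits.
Everything is at the level of matrices indexed by bit strings.
-/

set_option autoImplicit false

namespace Crest.Agent.R344.Red

open Crest.Quantum.Circuit Matrix

variable {N : ℕ}

/-- tensor product of one-site matrices -/
def pm (u : Fin N → Matrix Bool Bool ℂ) : Matrix (Fin N → Bool) (Fin N → Bool) ℂ :=
  Matrix.of fun σ τ => ∏ w, u w (σ w) (τ w)

theorem pm_apply (u : Fin N → Matrix Bool Bool ℂ) (σ τ : Fin N → Bool) :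
    pm u σ τ = ∏ w, u w (σ w) (τ w) := rfl

theorem pm_mul (u v : Fin N → Matrix Bool Bool ℂ) :
    pm u * pm v = pm (fun w => u w * v w) := by
  ext σ τ
  simp only [Matrix.mul_apply, pm_apply]
  rw [Finset.prod_univ_sum, Fintype.piFinset_univ]
  exact Finset.sum_congr rfl fun ρ _ => (Finset.prod_mul_distrib).symm

theorem pm_one : pm (fun _ : Fin N => (1 : Matrix Bool Bool ℂ)) = 1 := by
  ext σ τ
  simp only [pm_apply, Matrix.one_apply]
  rw [Finset.prod_ite_zero]
  by_cases h : σ = τ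
  · subst h; simp
  · have : ∃ x, ¬ σ x = τ x := Function.ne_iff.mp h
    simpa [h] using this

theorem pm_conjTranspose (u : Fin N → Matrix Bool Bool ℂ) :
    (pm u)ᴴ = pm (fun w => (u w)ᴴ) := by
  ext σ τ
  simp [pm_apply, Matrix.conjTranspose_apply]

/-- `pm u` for a family of unitaries is unitary -/
theorem pm_unitary {u : Fin N → Matrix Bool Bool ℂ} (hu : ∀ w, u w ∈ Matrix.unitaryGroup Bool ℂ) :
    pm u ∈ Matrix.unitaryGroup (Fin N → Bool) ℂ := by
  rw [Matrix.mem_unitaryGroup_iff, Matrix.star_eq_conjTranspose, pm_conjTranspose, pm_mul]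
  have : (fun w => u w * (u w)ᴴ) = fun _ => 1 := by
    funext w
    have := (Matrix.mem_unitaryGroup_iff).1 (hu w)
    rwa [Matrix.star_eq_conjTranspose] at this
  rw [this, pm_one]

/-- a diagonal matrix depending only on the bits in `S` commutes with a product matrix that is
trivial on `S` -/
theorem diagonal_comm_pm {f : (Fin N → Bool) → ℂ} {u : Fin N → Matrix Bool Bool ℂ}
    {S : Set (Fin N)} (hf : ∀ σ τ : Fin N → Bool, (∀ w ∈ S, σ w = τ w) → f σ = f τ)
    (hu : ∀ w ∈ S, u w = 1) :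
    Matrix.diagonal f * pm u = pm u * Matrix.diagonal f := by
  ext σ τ
  rw [Matrix.diagonal_mul, Matrix.mul_diagonal]
  by_cases h : ∀ w ∈ S, σ w = τ w
  · rw [hf σ τ h]; ring
  · push Not at h
    obtain ⟨w, hw, hne⟩ := h
    have : pm u σ τ = 0 := by
      rw [pm_apply]
      refine Finset.prod_eq_zero (Finset.mem_univ w) ?_
      rw [hu w hw, Matrix.one_apply_ne hne]
    rw [this]; simp

/-- phase function of a diagonal AND layer -/
def gph (Λ : Finset (Finset (Fin N))) (σ : Fin N → Bool) : ℂ :=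
  ∏ U ∈ Λ, if ∀ w ∈ U, σ w = false then -1 else 1

theorem gph_empty : gph (∅ : Finset (Finset (Fin N))) = fun _ => 1 := by
  funext σ; simp [gph]

theorem gph_mul_self (Λ : Finset (Finset (Fin N))) (σ : Fin N → Bool) :
    gph Λ σ * gph Λ σ = 1 := by
  rw [gph, ← Finset.prod_mul_distrib]
  apply Finset.prod_eq_one
  intro U _
  split_ifs <;> simp

theorem star_gph (Λ : Finset (Finset (Fin N))) (σ : Fin N → Bool) :
    star (gph Λ σ) = gph Λ σ := by
  rw [gph, star_prod]
  apply Finset.prod_congr rfl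
  intro U _
  split_ifs <;> simp

theorem gph_congr {Λ : Finset (Finset (Fin N))} {S : Set (Fin N)}
    (h : ∀ U ∈ Λ, ∀ w ∈ U, w ∈ S) (σ τ : Fin N → Bool) (hst : ∀ w ∈ S, σ w = τ w) :
    gph Λ σ = gph Λ τ := by
  unfold gph
  apply Finset.prod_congr rfl
  intro U hU
  have : (∀ w ∈ U, σ w = false) ↔ (∀ w ∈ U, τ w = false) := by
    constructor
    · intro h1 w hw; rw [← hst w (h U hU w hw)]; exact h1 w hw
    · intro h1 w hw; rw [hst w (h U hU w hw)]; exact h1 w hw
  simp only [this]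

theorem diagonal_gph_unitary (Λ : Finset (Finset (Fin N))) :
    Matrix.diagonal (gph Λ) ∈ Matrix.unitaryGroup (Fin N → Bool) ℂ := by
  rw [Matrix.mem_unitaryGroup_iff, Matrix.star_eq_conjTranspose, Matrix.diagonal_conjTranspose,
    Matrix.diagonal_mul_diagonal]
  rw [← Matrix.diagonal_one]
  congr 1
  funext σ
  simp only [Pi.star_apply]
  rw [star_gph, gph_mul_self]

/-- `MCirc k C`: `C` is the matrix of a circuit of depth `k` in normal form
`V_0 G_1 V_1 ⋯ G_k V_k`, with `V_i` product unitaries and `G_i` diagonal AND-phase layers. -/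
inductive MCirc : ℕ → Matrix (Fin N → Bool) (Fin N → Bool) ℂ → Prop
  | base (u : Fin N → Matrix Bool Bool ℂ) (hu : ∀ w, u w ∈ Matrix.unitaryGroup Bool ℂ) :
      MCirc 0 (pm u)
  | step {k : ℕ} {C : Matrix (Fin N → Bool) (Fin N → Bool) ℂ} (hC : MCirc k C)
      (Λ : Finset (Finset (Fin N))) (hne : ∀ U ∈ Λ, U.Nonempty)
      (hΛ : ∀ U ∈ Λ, ∀ U' ∈ Λ, U ≠ U' → Disjoint U U')
      (u : Fin N → Matrix Bool Bool ℂ) (hu : ∀ w, u w ∈ Matrix.unitaryGroup Bool ℂ) :
      MCirc (k + 1) (C * Matrix.diagonal (gph Λ) * pm u)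

theorem mul_unitary_fam {u v : Fin N → Matrix Bool Bool ℂ}
    (hu : ∀ w, u w ∈ Matrix.unitaryGroup Bool ℂ) (hv : ∀ w, v w ∈ Matrix.unitaryGroup Bool ℂ) :
    ∀ w, u w * v w ∈ Matrix.unitaryGroup Bool ℂ := fun w => mul_mem (hu w) (hv w)

theorem MCirc.mul_pm {k : ℕ} {C : Matrix (Fin N → Bool) (Fin N → Bool) ℂ} (hC : MCirc k C)
    {u : Fin N → Matrix Bool Bool ℂ} (hu : ∀ w, u w ∈ Matrix.unitaryGroup Bool ℂ) :
    MCirc k (C * pm u) := by
  cases hC with
  | base v hv => rw [pm_mul]; exact MCirc.base _ (mul_unitary_fam hv hu)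
  | step hC Λ hne hΛ v hv =>
    rw [Matrix.mul_assoc _ (pm v), pm_mul]
    exact MCirc.step hC Λ hne hΛ _ (mul_unitary_fam hv hu)

theorem MCirc.mul {k l : ℕ} {C D : Matrix (Fin N → Bool) (Fin N → Bool) ℂ} (hC : MCirc k C)
    (hD : MCirc l D) : MCirc (k + l) (C * D) := by
  induction hD with
  | base v hv => exact hC.mul_pm hv
  | @step m E _ Λ hne hΛ v hv ih =>
    have := MCirc.step ih Λ hne hΛ v hv
    rw [← Matrix.mul_assoc, ← Matrix.mul_assoc]
    exact this

theorem MCirc.one : MCirc 0 (1 : Matrix (Fin N → Bool) (Fin N → Bool) ℂ) := by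
  rw [← pm_one]; exact MCirc.base _ fun _ => one_mem _

theorem MCirc.pm_mul {k : ℕ} {C : Matrix (Fin N → Bool) (Fin N → Bool) ℂ} (hC : MCirc k C)
    {u : Fin N → Matrix Bool Bool ℂ} (hu : ∀ w, u w ∈ Matrix.unitaryGroup Bool ℂ) :
    MCirc k (pm u * C) := by
  have := (MCirc.base u hu).mul hC
  simpa using this

theorem MCirc.gate {Λ : Finset (Finset (Fin N))} (hne : ∀ U ∈ Λ, U.Nonempty)
      (hΛ : ∀ U ∈ Λ, ∀ U' ∈ Λ, U ≠ U' → Disjoint U U') :
    MCirc 1 (Matrix.diagonal (gph Λ)) := by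
  have := MCirc.step (MCirc.one (N := N)) Λ hne hΛ (fun _ => 1) (fun _ => one_mem _)
  rwa [pm_one, Matrix.mul_one, Matrix.one_mul] at this

theorem MCirc.succ {k : ℕ} {C : Matrix (Fin N → Bool) (Fin N → Bool) ℂ} (hC : MCirc k C) :
    MCirc (k + 1) C := by
  have := MCirc.step hC ∅ (by simp) (by simp) (fun _ => 1) (fun _ => one_mem _)
  rw [pm_one, Matrix.mul_one, gph_empty] at this
  have h1 : Matrix.diagonal (fun _ : Fin N → Bool => (1 : ℂ)) = 1 := Matrix.diagonal_one
  rwa [h1, Matrix.mul_one] at this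

theorem MCirc.mono {k l : ℕ} (hkl : k ≤ l) {C : Matrix (Fin N → Bool) (Fin N → Bool) ℂ}
    (hC : MCirc k C) : MCirc l C := by
  induction hkl with
  | refl => exact hC
  | step _ ih => exact ih.succ

theorem MCirc.conjTranspose {k : ℕ} {C : Matrix (Fin N → Bool) (Fin N → Bool) ℂ}
    (hC : MCirc k C) : MCirc k Cᴴ := by
  induction hC with
  | base v hv =>
    rw [pm_conjTranspose]
    exact MCirc.base _ fun w => by
      rw [← Matrix.star_eq_conjTranspose]; exact Unitary.star_mem (hv w)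
  | @step m E _ Λ hne hΛ v hv ih =>
    rw [Matrix.conjTranspose_mul, Matrix.conjTranspose_mul, pm_conjTranspose,
      Matrix.diagonal_conjTranspose]
    have h1 : star (gph Λ) = gph Λ := by funext σ; exact star_gph Λ σ
    rw [h1]
    have h2 := (MCirc.gate hne hΛ).mul ih
    rw [Nat.add_comm] at h2
    exact h2.pm_mul fun w => by
      rw [← Matrix.star_eq_conjTranspose]; exact Unitary.star_mem (hv w)

theorem MCirc.unitary {k : ℕ} {C : Matrix (Fin N → Bool) (Fin N → Bool) ℂ}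
    (hC : MCirc k C) : C ∈ Matrix.unitaryGroup (Fin N → Bool) ℂ := by
  induction hC with
  | base v hv => exact pm_unitary hv
  | step _ Λ hne hΛ v hv ih =>
    exact mul_mem (mul_mem ih (diagonal_gph_unitary Λ)) (pm_unitary hv)

end Crest.Agent.R344.Red
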