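import Crest.Agent.R344.Defs

/-!
R344: one-site operators, the group `LU`, closure properties of `Circ`.
-/

set_option autoImplicit false

open scoped BigOperators

namespace Crest.Agent.R344

variable {N : ℕ}

theorem op_ext {A B : Op N} (h : ∀ (u : St N) (σ : Bits N), (A u) σ = (B u) σ) : A = B := by
  ext u σ
  exact h u σ

@[simp] theorem op_mul_apply (A B : Op N) (u : St N) : (A * B) u = A (B u) := rfl

theorem site_mul (w : Fin N) (A B : Matrix Bool Bool ℂ) :
    site w (A * B) = site w A * site w B := by
  apply op_ext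
  intro u σ
  rw [op_mul_apply, site_apply, site_apply]
  simp only [site_apply, Matrix.mul_apply, Finset.sum_mul, Finset.mul_sum]
  rw [Finset.sum_comm]
  simp [mul_assoc]

theorem site_one (w : Fin N) : site w (1 : Matrix Bool Bool ℂ) = 1 := by
  apply op_ext
  intro u σ
  rw [site_apply]
  rw [Finset.sum_eq_single (σ w)]
  · simp
  · intro b _ hb
    simp [Matrix.one_apply_ne (Ne.symm hb)]
  · simp

theorem site_add (w : Fin N) (A B : Matrix Bool Bool ℂ) :
    site w (A + B) = site w A + site w B := by
  apply op_ext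
  intro u σ
  rw [_root_.add_apply, PiLp.add_apply, site_apply, site_apply, site_apply,
    ← Finset.sum_add_distrib]
  apply Finset.sum_congr rfl
  intro b _
  rw [Matrix.add_apply]; ring

theorem site_smul (w : Fin N) (c : ℂ) (A : Matrix Bool Bool ℂ) :
    site w (c • A) = c • site w A := by
  apply op_ext
  intro u σ
  rw [_root_.smul_apply, PiLp.smul_apply, site_apply, site_apply, Finset.smul_sum]
  apply Finset.sum_congr rfl
  intro b _
  rw [Matrix.smul_apply, smul_eq_mul, smul_eq_mul]; ring

theorem site_commute {w v : Fin N} (h : w ≠ v) (A B : Matrix Bool Bool ℂ) :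
    Commute (site w A) (site v B) := by
  apply op_ext
  intro u σ
  rw [op_mul_apply, op_mul_apply]
  simp only [site_apply, Finset.mul_sum]
  rw [Finset.sum_comm]
  apply Finset.sum_congr rfl
  intro b _
  apply Finset.sum_congr rfl
  intro c _
  rw [Function.update_of_ne h.symm, Function.update_of_ne h, Function.update_comm h]
  ring

theorem siteMat_star (w : Fin N) (A : Matrix Bool Bool ℂ) :
    star (siteMat w A) = siteMat w (star A) := by
  ext σ τ
  rw [Matrix.star_apply, siteMat_apply, siteMat_apply, Matrix.star_apply]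
  have : (Function.update τ w (σ w) = σ) ↔ (Function.update σ w (τ w) = τ) := by
    constructor
    · intro h
      rw [← h]
      simp
    · intro h
      rw [← h]
      simp
  by_cases h : Function.update σ w (τ w) = τ
  · rw [if_pos h, if_pos (this.mpr h)]
  · rw [if_neg h, if_neg (fun h' => h (this.mp h')), star_zero]

theorem site_star (w : Fin N) (A : Matrix Bool Bool ℂ) :
    star (site w A) = site w (star A) := by
  rw [site, ofMat_star, siteMat_star, site]

theorem site_unitary (w : Fin N) {A : Matrix Bool Bool ℂ} (hA : A ∈ unitary (Matrix Bool Bool ℂ)) :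
    site w A ∈ unitary (Op N) := by
  rw [Unitary.mem_iff] at hA ⊢
  rw [site_star, ← site_mul, ← site_mul, hA.1, hA.2, site_one]
  exact ⟨rfl, rfl⟩

namespace Supp

theorem mono {J K : Finset (Fin N)} {Y : Op N} (h : Supp J Y) (hJK : J ⊆ K) : Supp K Y :=
  fun w hw A => h w (fun h' => hw (hJK h')) A

theorem mul {J : Finset (Fin N)} {Y Z : Op N} (hY : Supp J Y) (hZ : Supp J Z) :
    Supp J (Y * Z) := fun w hw A => (hY w hw A).mul_right (hZ w hw A)

theorem add {J : Finset (Fin N)} {Y Z : Op N} (hY : Supp J Y) (hZ : Supp J Z) :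
    Supp J (Y + Z) := fun w hw A => (hY w hw A).add_right (hZ w hw A)

theorem smul {J : Finset (Fin N)} {Y : Op N} (c : ℂ) (hY : Supp J Y) :
    Supp J (c • Y) := fun w hw A => (hY w hw A).smul_right c

theorem one (J : Finset (Fin N)) : Supp J (1 : Op N) := fun _ _ _ => Commute.one_right _

theorem zero (J : Finset (Fin N)) : Supp J (0 : Op N) := fun _ _ _ => Commute.zero_right _

theorem star {J : Finset (Fin N)} {Y : Op N} (hY : Supp J Y) : Supp J (star Y) := by
  intro w hw A
  have h := hY w hw (Star.star A)
  have h2 := h.star_star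
  rwa [site_star, star_star] at h2

end Supp

theorem supp_site (w : Fin N) (A : Matrix Bool Bool ℂ) : Supp {w} (site w A) := by
  intro v hv B
  exact site_commute (by simpa using hv) B A

namespace LU

theorem one : LU (1 : Op N) where
  unitary := one_mem _
  conj := fun J Y h => by simpa using h
  conj' := fun J Y h => by simpa using h

theorem star {u : Op N} (h : LU u) : LU (star u) where
  unitary := Unitary.star_mem h.unitary
  conj := fun J Y hY => by simpa using h.conj' J Y hY
  conj' := fun J Y hY => by simpa using h.conj J Y hY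

theorem mul {u v : Op N} (hu : LU u) (hv : LU v) : LU (u * v) where
  unitary := mul_mem hu.unitary hv.unitary
  conj := fun J Y hY => by
    have := hu.conj J _ (hv.conj J Y hY)
    rw [star_mul]
    simpa [mul_assoc] using this
  conj' := fun J Y hY => by
    have := hv.conj' J _ (hu.conj' J Y hY)
    rw [star_mul]
    simpa [mul_assoc] using this

end LU

theorem supp_site_conj (w : Fin N) {A : Matrix Bool Bool ℂ}
    (hA : A ∈ unitary (Matrix Bool Bool ℂ)) {J : Finset (Fin N)} {Y : Op N} (hY : Supp J Y) :
    Supp J (site w A * Y * star (site w A)) := by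
  by_cases hw : w ∈ J
  · intro v hv B
    have hvw : v ≠ w := fun h => hv (h ▸ hw)
    have h1 : Commute (site v B) (site w A) := site_commute hvw B A
    have h2 : Commute (site v B) (star (site w A)) := by
      rw [site_star]; exact site_commute hvw B _
    exact (h1.mul_right (hY v hv B)).mul_right h2
  · have h1 : site w A * Y = Y * site w A := hY w hw A
    have h2 : site w A * star (site w A) = 1 := (Unitary.mem_iff.mp (site_unitary w hA)).2
    rw [h1, mul_assoc, h2, mul_one]
    exact hY

theorem LU_site (w : Fin N) {A : Matrix Bool Bool ℂ} (hA : A ∈ unitary (Matrix Bool Bool ℂ)) :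
    LU (site w A) where
  unitary := site_unitary w hA
  conj := fun J Y hY => supp_site_conj w hA hY
  conj' := fun J Y hY => by
    have := supp_site_conj w (Unitary.star_mem hA) hY
    rw [← site_star, star_star] at this
    exact this

theorem czFun_sq (𝒰 : Finset (Finset (Fin N))) (σ : Bits N) : czFun 𝒰 σ * czFun 𝒰 σ = 1 := by
  rw [czFun, ← Finset.prod_mul_distrib]
  apply Finset.prod_eq_one
  intro U _
  split_ifs <;> norm_num

theorem star_czFun (𝒰 : Finset (Finset (Fin N))) (σ : Bits N) :
    star (czFun 𝒰 σ) = czFun 𝒰 σ := by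
  rw [czFun, star_prod]
  apply Finset.prod_congr rfl
  intro U _
  split_ifs <;> simp

theorem cz_star (𝒰 : Finset (Finset (Fin N))) : star (cz 𝒰) = cz 𝒰 := by
  rw [cz, dg_star]
  congr 1
  funext σ
  exact star_czFun 𝒰 σ

theorem cz_mul_self (𝒰 : Finset (Finset (Fin N))) : cz 𝒰 * cz 𝒰 = 1 := by
  rw [cz, dg_mul, ← dg_one]
  congr 1
  funext σ
  exact czFun_sq 𝒰 σ

theorem cz_unitary (𝒰 : Finset (Finset (Fin N))) : cz 𝒰 ∈ unitary (Op N) := by
  rw [Unitary.mem_iff, cz_star, cz_mul_self]
  exact ⟨rfl, rfl⟩

namespace Circ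

theorem unitary {k : ℕ} {C : Op N} (h : Circ k C) : C ∈ unitary (Op N) := by
  induction h with
  | base u hu => exact hu.unitary
  | step k C u 𝒰 _ hu _ ih => exact mul_mem (mul_mem ih (cz_unitary 𝒰)) hu.unitary

theorem mul_right {k : ℕ} {C : Op N} (h : Circ k C) {v : Op N} (hv : LU v) :
    Circ k (C * v) := by
  cases h with
  | base u hu => exact Circ.base _ (hu.mul hv)
  | step k C u 𝒰 hC hu h𝒰 =>
    rw [mul_assoc]
    exact Circ.step k C (u * v) 𝒰 hC (hu.mul hv) h𝒰

theorem mul_left {k : ℕ} {C : Op N} (h : Circ k C) {v : Op N} (hv : LU v) :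
    Circ k (v * C) := by
  induction h with
  | base u hu => exact Circ.base _ (hv.mul hu)
  | step k C u 𝒰 hC hu h𝒰 ih =>
    rw [← mul_assoc, ← mul_assoc]
    exact Circ.step k (v * C) u 𝒰 ih hu h𝒰

/-- adding a layer on the left -/
theorem step_left {k : ℕ} {C : Op N} (h : Circ k C) {v : Op N} (hv : LU v)
    (𝒰 : Finset (Finset (Fin N))) (h𝒰 : (𝒰 : Set (Finset (Fin N))).PairwiseDisjoint id) :
    Circ (k + 1) (v * cz 𝒰 * C) := by
  induction h with
  | base u hu => exact Circ.step 0 v u 𝒰 (Circ.base v hv) hu h𝒰
  | step k C u 𝒱 hC hu h𝒱 ih =>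
    rw [← mul_assoc, ← mul_assoc]
    exact Circ.step (k + 1) _ u 𝒱 ih hu h𝒱

theorem star {k : ℕ} {C : Op N} (h : Circ k C) : Circ k (star C) := by
  induction h with
  | base u hu => exact Circ.base _ hu.star
  | step k C u 𝒰 hC hu h𝒰 ih =>
    rw [star_mul, star_mul, cz_star, ← mul_assoc]
    exact step_left ih hu.star 𝒰 h𝒰

/-- composition of circuits -/
theorem comp {k l : ℕ} {C D : Op N} (hC : Circ k C) (hD : Circ l D) : Circ (k + l) (C * D) := by
  induction hD with
  | base u hu => exact hC.mul_right hu
  | step l D u 𝒰 hD hu h𝒰 ih =>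
    rw [← mul_assoc, ← mul_assoc]
    exact Circ.step (k + l) _ u 𝒰 ih hu h𝒰

end Circ

/-! ### matrix entries and supports -/

/-- If `Y` is supported on `J` then its matrix entries vanish between strings differing
outside of `J`. -/
theorem Supp.toMat_eq_zero {J : Finset (Fin N)} {Y : Op N} (hY : Supp J Y) {σ τ : Bits N}
    {w : Fin N} (hw : w ∉ J) (h : σ w ≠ τ w) : toMat Y σ τ = 0 := by
  classical
  -- commute with `Z_w = diag (b ↦ 1[b = σ w])`
  let A : Matrix Bool Bool ℂ := Matrix.diagonal (fun b => if b = σ w then 1 else 0)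
  have hc := hY w hw A
  have hm : siteMat w A * toMat Y = toMat Y * siteMat w A := by
    apply ofMat_injective
    rw [ofMat_mul, ofMat_mul, ofMat_toMat]
    exact hc
  have hdiag : siteMat w A = Matrix.diagonal (fun ρ : Bits N => if ρ w = σ w then (1:ℂ) else 0) := by
    ext ρ ρ'
    rw [siteMat_apply]
    by_cases hρ : ρ = ρ'
    · subst hρ
      rw [if_pos (by simp), Matrix.diagonal_apply_eq]
      exact Matrix.diagonal_apply_eq _ _
    · rw [Matrix.diagonal_apply_ne _ hρ]
      split_ifs with h1
      · apply Matrix.diagonal_apply_ne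
        intro h2
        apply hρ
        rw [← h1, ← h2]
        simp
      · rfl
  rw [hdiag] at hm
  have h3 := congrFun (congrFun hm σ) τ
  rw [Matrix.diagonal_mul, Matrix.mul_diagonal] at h3
  rw [if_pos rfl, one_mul, if_neg (Ne.symm h), mul_zero] at h3
  exact h3

/-- diagonal operators ignoring the bits of `J` commute with operators supported on `J`. -/
theorem Supp.dg_commute {J : Finset (Fin N)} {Y : Op N} (hY : Supp J Y) (f : Bits N → ℂ)
    (hf : ∀ σ τ : Bits N, (∀ w, w ∉ J → σ w = τ w) → f σ = f τ) : Commute (dg f) Y := by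
  classical
  have h : Matrix.diagonal f * toMat Y = toMat Y * Matrix.diagonal f := by
    ext σ τ
    rw [Matrix.diagonal_mul, Matrix.mul_diagonal]
    by_cases h : ∀ w, w ∉ J → σ w = τ w
    · rw [hf σ τ h, mul_comm]
    · push Not at h
      obtain ⟨w, hw, hne⟩ := h
      rw [hY.toMat_eq_zero hw hne]
      ring
  have h2 := congrArg ofMat h
  rw [ofMat_mul, ofMat_mul, ofMat_toMat] at h2
  exact h2

/-- a diagonal operator depending on the bits in `J` only is supported on `J`. -/
theorem supp_dg {J : Finset (Fin N)} (f : Bits N → ℂ)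
    (hf : ∀ σ τ : Bits N, (∀ w ∈ J, σ w = τ w) → f σ = f τ) : Supp J (dg f) := by
  intro w hw A
  apply op_ext
  intro u σ
  rw [op_mul_apply, op_mul_apply, site_apply, dg_apply, site_apply, Finset.mul_sum]
  apply Finset.sum_congr rfl
  intro b _
  rw [dg_apply, hf (Function.update σ w b) σ]
  · ring
  · intro v hv
    rw [Function.update_of_ne]
    rintro rfl
    exact hw hv

theorem cnt_congr {V : Finset (Fin N)} {σ τ : Bits N} (h : ∀ w ∈ V, σ w = τ w) :
    cnt V σ = cnt V τ := by
  unfold cnt
  congr 1
  apply Finset.filter_congr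
  intro w hw
  rw [h w hw]

theorem supp_zeroI (V : Finset (Fin N)) : Supp V (zeroI V) := by
  apply supp_dg
  intro σ τ h
  simp only [cnt_congr h]

theorem supp_allI (V : Finset (Fin N)) : Supp V (allI V) := by
  apply supp_dg
  intro σ τ h
  have : (∀ i ∈ V, σ i = true) ↔ (∀ i ∈ V, τ i = true) := by
    constructor
    · intro h1 i hi; rw [← h i hi]; exact h1 i hi
    · intro h1 i hi; rw [h i hi]; exact h1 i hi
  simp only [this]

end Crest.Agent.R344
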