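import Crest.Agent.R344.Site

/-!
R344: the targets of the blocks and the assembly `GOAL` (LO with `κ = N^δ` for every fixed depth).
-/

set_option autoImplicit false

open Filter

namespace Crest.Agent.R344

/-- Lemma J (Jordan bootstrap), soft form -/
def TJ : Prop :=
  ∀ δ : ℝ, 0 < δ → ∃ δ' : ℝ, 0 < δ' ∧ ∃ N0 : ℕ, ∀ N ≥ N0, ∀ C : Op N, C ∈ unitary (Op N) →
    LO C ((N : ℝ) ^ δ') → LO (star C) ((N : ℝ) ^ δ') → VLOC C ((N : ℝ) ^ δ)

/-- Lemma S (random subsets) -/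
def TS : Prop :=
  ∃ c : ℝ, 1 ≤ c ∧ ∀ (N : ℕ) (C : Op N) (κ : ℝ), C ∈ unitary (Op N) → 1 ≤ κ →
    VLOC C κ → LOC C (c * κ)

/-- depth zero -/
def TLO0 : Prop := ∀ (N : ℕ) (C : Op N), Circ 0 C → LO C 1

/-- one more layer -/
def TSTEP : Prop :=
  ∃ c : ℝ, 1 ≤ c ∧ ∀ (N : ℕ) (C u : Op N) (𝒰 : Finset (Finset (Fin N))) (κ₁ κ₂ : ℝ),
    C ∈ unitary (Op N) → LU u → (𝒰 : Set (Finset (Fin N))).PairwiseDisjoint id →
    1 ≤ κ₁ → 1 ≤ κ₂ → LO C κ₁ → LOC C κ₂ → LO (C * cz 𝒰 * u) (c * κ₁ * κ₂ ^ 2)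

/-- locality at every fixed depth -/
def GOAL : Prop :=
  ∀ (k : ℕ) (δ : ℝ), 0 < δ → ∃ N0 : ℕ, ∀ N ≥ N0, ∀ C : Op N, Circ k C → LO C ((N : ℝ) ^ δ)

theorem LO.mono {N : ℕ} {C : Op N} {κ κ' : ℝ} (h : LO C κ) (hκ : κ ≤ κ') : LO C κ' := by
  intro F J Y hY hY1 m D L hL hD
  refine h F J Y hY hY1 m D L hL (le_trans ?_ hD)
  exact mul_le_mul_of_nonneg_right hκ (by positivity)

theorem LOC.mono {N : ℕ} {C : Op N} {κ κ' : ℝ} (h : LOC C κ) (hκ : κ ≤ κ') : LOC C κ' := by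
  intro F V m D L hL hD
  refine h F V m D L hL (le_trans ?_ hD)
  exact mul_le_mul_of_nonneg_right hκ (by positivity)

theorem VLOC.mono {N : ℕ} {C : Op N} {κ κ' : ℝ} (h : VLOC C κ) (hκ : κ ≤ κ') : VLOC C κ' := by
  intro F V D L hL hD
  refine h F V D L hL (le_trans ?_ hD)
  exact mul_le_mul_of_nonneg_right hκ (by positivity)

theorem eventually_rpow_ge (a c : ℝ) (ha : 0 < a) :
    ∃ N0 : ℕ, 1 ≤ N0 ∧ ∀ N ≥ N0, c ≤ (N : ℝ) ^ a := by
  have h : Tendsto (fun N : ℕ => (N : ℝ) ^ a) atTop atTop :=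
    (tendsto_rpow_atTop ha).comp tendsto_natCast_atTop_atTop
  obtain ⟨N0, hN0⟩ := eventually_atTop.mp (h.eventually_ge_atTop c)
  exact ⟨max N0 1, le_max_right _ _, fun N hN => hN0 N (le_trans (le_max_left _ _) hN)⟩

theorem goal_of (hJ : TJ) (hS : TS) (h0 : TLO0) (hstep : TSTEP) : GOAL := by
  obtain ⟨cS, hcS, hS⟩ := hS
  obtain ⟨cT, hcT, hT⟩ := hstep
  intro k
  induction k with
  | zero =>
    intro δ hδ
    refine ⟨1, fun N hN C hC => (h0 N C hC).mono ?_⟩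
    exact Real.one_le_rpow (by exact_mod_cast hN) hδ.le
  | succ k ih =>
    intro δ hδ
    obtain ⟨δ', hδ', NJ, hJ⟩ := hJ (δ / 8) (by positivity)
    obtain ⟨N1, hN1⟩ := ih δ' hδ'
    obtain ⟨N2, hN2⟩ := ih (δ / 4) (by positivity)
    obtain ⟨N3, hN31, hN3⟩ := eventually_rpow_ge (δ / 8) cS (by positivity)
    obtain ⟨N4, hN41, hN4⟩ := eventually_rpow_ge (δ / 4) cT (by positivity)
    refine ⟨max (max NJ N1) (max (max N2 N3) N4), fun N hN C hC => ?_⟩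
    simp only [ge_iff_le, max_le_iff] at hN
    obtain ⟨⟨hNJ, hNN1⟩, ⟨hNN2, hNN3⟩, hNN4⟩ := hN
    have hNpos : (1 : ℝ) ≤ N := by exact_mod_cast le_trans hN31 hNN3
    have hNpos0 : (0 : ℝ) < N := by linarith
    cases hC with
    | step _ C u 𝒰 hC hu h𝒰 =>
      have hV : VLOC C ((N : ℝ) ^ (δ / 8)) :=
        hJ N hNJ C hC.unitary (hN1 N hNN1 C hC) (hN1 N hNN1 _ hC.star)
      have hV1 : (1 : ℝ) ≤ (N : ℝ) ^ (δ / 8) := Real.one_le_rpow hNpos (by positivity)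
      have hC1 : LOC C (cS * (N : ℝ) ^ (δ / 8)) := hS N C _ hC.unitary hV1 hV
      have hC2 : LOC C ((N : ℝ) ^ (δ / 4)) := by
        refine hC1.mono ?_
        have h1 := hN3 N hNN3
        calc cS * (N : ℝ) ^ (δ / 8) ≤ (N : ℝ) ^ (δ / 8) * (N : ℝ) ^ (δ / 8) :=
              mul_le_mul_of_nonneg_right h1 (by positivity)
          _ = (N : ℝ) ^ (δ / 4) := by
              rw [← Real.rpow_add hNpos0]; congr 1; ring
      have hL : LO C ((N : ℝ) ^ (δ / 4)) := hN2 N hNN2 C hC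
      have h1 : (1 : ℝ) ≤ (N : ℝ) ^ (δ / 4) := Real.one_le_rpow hNpos (by positivity)
      have := hT N C u 𝒰 _ _ hC.unitary hu h𝒰 h1 h1 hL hC2
      refine this.mono ?_
      have h2 := hN4 N hNN4
      calc cT * (N : ℝ) ^ (δ / 4) * ((N : ℝ) ^ (δ / 4)) ^ 2
          ≤ (N : ℝ) ^ (δ / 4) * (N : ℝ) ^ (δ / 4) * ((N : ℝ) ^ (δ / 4)) ^ 2 := by
            gcongr
        _ = (N : ℝ) ^ δ := by
            rw [← Real.rpow_natCast, ← Real.rpow_mul hNpos0.le, ← Real.rpow_add hNpos0,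
              ← Real.rpow_add hNpos0]
            congr 1
            push_cast
            ring

end Crest.Agent.R344
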